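import Vale.Agent.P092.H221.Nf2
import Mathlib.Topology.MetricSpace.ProperSpace
import Mathlib.Analysis.Normed.Module.Basic
import Mathlib.LinearAlgebra.Matrix.ToLinearEquiv

/-!
P092 (helper221), row (K2): the constants of an anisotropic form.
-/

set_option linter.all false

open Matrix

namespace Vale.Agent.P092.H221.Nf

open Vale.Agent.P092.H303 (hyp Idx)
open Vale.Agent.P092.H714.Cl (hf)

variable {ω : Type} [Fintype ω] [DecidableEq ω] {r : ℕ}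

/-- The form is bounded. -/
theorem exists_b {k : Type} [NormedField k] {σ : k →+* k} (hσn : ∀ x, ‖σ x‖ = ‖x‖)
    (J₀ : Matrix ω ω k) :
    ∃ b : ℝ, 0 ≤ b ∧ ∀ x y : ω → k, ‖hf σ J₀ x y‖ ≤ b * ‖x‖ * ‖y‖ := by
  refine ⟨∑ i, ∑ j, ‖J₀ i j‖, Finset.sum_nonneg fun _ _ => Finset.sum_nonneg fun _ _ =>
    norm_nonneg _, fun x y => ?_⟩
  have e : hf σ J₀ x y = ∑ i, ∑ j, x i * (J₀ i j * σ (y j)) := by
    unfold hf
    simp only [dotProduct, mulVec, Finset.mul_sum]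
  rw [e, Finset.sum_mul, Finset.sum_mul]
  refine (norm_sum_le _ _).trans (Finset.sum_le_sum fun i _ => ?_)
  rw [Finset.sum_mul, Finset.sum_mul]
  refine (norm_sum_le _ _).trans (Finset.sum_le_sum fun j _ => ?_)
  rw [norm_mul, norm_mul, hσn]
  calc ‖x i‖ * (‖J₀ i j‖ * ‖y j‖) = ‖J₀ i j‖ * ‖x i‖ * ‖y j‖ := by ring
    _ ≤ ‖J₀ i j‖ * ‖x‖ * ‖y‖ := by
      gcongr
      · exact norm_le_pi_norm x i
      · exact norm_le_pi_norm y j

/-- An anisotropic form is bounded below. -/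
theorem exists_a {k : Type} [NontriviallyNormedField k] [ProperSpace k] {σ : k →+* k}
    (hσn : ∀ x, ‖σ x‖ = ‖x‖) (J₀ : Matrix ω ω k) (h : ∀ x, x ≠ 0 → hf σ J₀ x x ≠ 0) :
    ∃ a : ℝ, 0 < a ∧ ∀ x : ω → k, a * ‖x‖ ^ 2 ≤ ‖hf σ J₀ x x‖ := by
  obtain ⟨q, hq⟩ := NormedField.exists_one_lt_norm k
  have hq0 : 0 < ‖q‖ := one_pos.trans hq
  have hσc : Continuous σ := by
    have h1 : Isometry σ := AddMonoidHomClass.isometry_of_norm σ hσn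
    exact h1.continuous
  have hcont : Continuous fun x : ω → k => ‖hf σ J₀ x x‖ := by
    have e : (fun x : ω → k => ‖hf σ J₀ x x‖) =
        fun x => ‖∑ i, ∑ j, x i * (J₀ i j * σ (x j))‖ := by
      funext x
      congr 1
      unfold hf
      simp only [dotProduct, mulVec, Finset.mul_sum]
    rw [e]
    refine continuous_norm.comp (continuous_finset_sum _ fun i _ => continuous_finset_sum _
      fun j _ => ?_)
    exact (continuous_apply i).mul (continuous_const.mul (hσc.comp (continuous_apply j)))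
  let S : Set (ω → k) := {x | ‖q‖⁻¹ ≤ ‖x‖} ∩ Metric.closedBall 0 1
  have hS : IsCompact S := (isCompact_closedBall _ _).inter_left
    (isClosed_le continuous_const continuous_norm)
  have hScale : ∀ (c : k) (x : ω → k), ‖hf σ J₀ (c • x) (c • x)‖ =
      ‖c‖ ^ 2 * ‖hf σ J₀ x x‖ := by
    intro c x
    rw [H714.Cl.hf_smul_left, H714.Cl.hf_smul_right, norm_mul, norm_mul, hσn]
    ring
  by_cases hne : S.Nonempty
  · obtain ⟨x₀, hx₀, hmin⟩ := hS.exists_isMinOn hne hcont.continuousOn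
    have hx0 : x₀ ≠ 0 := by
      rintro rfl
      have h1 : ‖q‖⁻¹ ≤ ‖(0 : ω → k)‖ := hx₀.1
      rw [norm_zero] at h1
      exact absurd h1 (not_le.2 (inv_pos.2 hq0))
    refine ⟨‖hf σ J₀ x₀ x₀‖, norm_pos_iff.2 (h x₀ hx0), fun x => ?_⟩
    by_cases hx : x = 0
    · subst hx
      rw [H714.Cl.hf_zero_left, norm_zero, norm_zero]
      norm_num
    have hxn : 0 < ‖x‖ := norm_pos_iff.2 hx
    obtain ⟨m, hm1, hm2⟩ := exists_mem_Ico_zpow hxn hq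
    set c : k := q ^ (-(m + 1)) with hc
    have hcn : ‖c‖ = (‖q‖ ^ (m + 1))⁻¹ := by rw [hc, norm_zpow, _root_.zpow_neg]
    have hpos : 0 < ‖q‖ ^ (m + 1) := zpow_pos hq0 _
    have hmem : c • x ∈ S := by
      have e1 : ‖c • x‖ = (‖q‖ ^ (m + 1))⁻¹ * ‖x‖ := by rw [norm_smul, hcn]
      refine ⟨?_, ?_⟩
      · show ‖q‖⁻¹ ≤ ‖c • x‖
        rw [e1, zpow_add_one₀ hq0.ne', mul_inv]
        have h1 : 0 < ‖q‖ ^ m := zpow_pos hq0 _
        calc ‖q‖⁻¹ = (‖q‖ ^ m)⁻¹ * ‖q‖⁻¹ * ‖q‖ ^ m := by field_simp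
          _ ≤ (‖q‖ ^ m)⁻¹ * ‖q‖⁻¹ * ‖x‖ := by gcongr
      · rw [mem_closedBall_zero_iff, e1, inv_mul_le_iff₀ hpos, mul_one]
        exact hm2.le
    have h1 : ‖hf σ J₀ x₀ x₀‖ ≤ ‖hf σ J₀ (c • x) (c • x)‖ := hmin hmem
    rw [hScale] at h1
    have h2 : ‖x‖ ^ 2 ≤ (‖c‖ ^ 2)⁻¹ := by
      rw [← inv_pow, hcn, inv_inv]
      exact pow_le_pow_left₀ hxn.le hm2.le 2
    have hc2 : 0 < ‖c‖ ^ 2 := by rw [hcn]; positivity
    calc ‖hf σ J₀ x₀ x₀‖ * ‖x‖ ^ 2 ≤ ‖hf σ J₀ x₀ x₀‖ * (‖c‖ ^ 2)⁻¹ := by gcongr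
      _ ≤ ‖c‖ ^ 2 * ‖hf σ J₀ x x‖ * (‖c‖ ^ 2)⁻¹ := by gcongr
      _ = ‖hf σ J₀ x x‖ := by rw [mul_comm (‖c‖ ^ 2), mul_assoc, mul_inv_cancel₀ hc2.ne', mul_one]
  · refine ⟨1, one_pos, fun x => ?_⟩
    by_cases hx : x = 0
    · subst hx
      rw [H714.Cl.hf_zero_left, norm_zero, norm_zero]
      norm_num
    exfalso
    have hxn : 0 < ‖x‖ := norm_pos_iff.2 hx
    obtain ⟨m, hm1, hm2⟩ := exists_mem_Ico_zpow hxn hq
    apply hne
    have hpos : 0 < ‖q‖ ^ (m + 1) := zpow_pos hq0 _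
    have hcn : ‖q ^ (-(m + 1))‖ = (‖q‖ ^ (m + 1))⁻¹ := by rw [norm_zpow, _root_.zpow_neg]
    refine ⟨q ^ (-(m + 1)) • x, ?_, ?_⟩
    · show ‖q‖⁻¹ ≤ ‖q ^ (-(m + 1)) • x‖
      rw [norm_smul, hcn, zpow_add_one₀ hq0.ne', mul_inv]
      have h1 : 0 < ‖q‖ ^ m := zpow_pos hq0 _
      calc ‖q‖⁻¹ = (‖q‖ ^ m)⁻¹ * ‖q‖⁻¹ * ‖q‖ ^ m := by field_simp
        _ ≤ (‖q‖ ^ m)⁻¹ * ‖q‖⁻¹ * ‖x‖ := by gcongr
    · rw [mem_closedBall_zero_iff, norm_smul, hcn, inv_mul_le_iff₀ hpos, mul_one]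
      exact hm2.le

/-- The middle form of a nondegenerate `hyp r ε J₀` is invertible. -/
theorem exists_inv {k : Type} [Field k] {σ : k →+* k} {ε : k} {J₀ : Matrix ω ω k}
    (h : ∀ x, x ≠ 0 → ∃ y, hf σ (hyp r ε J₀) x y ≠ 0) : ∃ J₁, J₀ * J₁ = 1 := by
  have hdet : J₀.det ≠ 0 := by
    intro h0
    obtain ⟨v, hv, hv0⟩ := Matrix.exists_vecMul_eq_zero_iff.2 h0
    have hne : (Sum.elim 0 v : Idx r ω → k) ≠ 0 := by
      intro h1
      apply hv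
      funext w
      exact congrFun h1 (.inr w)
    obtain ⟨y, hy⟩ := h _ hne
    apply hy
    rw [hf_hyp]
    have e1 : hf σ J₀ (fun i => (Sum.elim 0 v : Idx r ω → k) (.inr i)) (fun i => y (.inr i)) = 0 := by
      have e2 : (fun i => (Sum.elim 0 v : Idx r ω → k) (.inr i)) = v := rfl
      rw [e2]
      unfold hf
      rw [Matrix.dotProduct_mulVec, hv0, zero_dotProduct]
    rw [e1]
    simp
  exact ⟨J₀⁻¹, Matrix.mul_nonsing_inv _ (isUnit_iff_ne_zero.2 hdet)⟩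

end Vale.Agent.P092.H221.Nf
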