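import Vale.Agent.P092.H221.Nf3
import Vale.Agent.P092.H221.Nf2b
import Vale.Agent.P092.H464.Q.Wt

/-!
P092 (helper221), row (K2), part 4: NF2 in the letters of helper464 (`H464/Q/Wt.lean`), Witt index 2.
-/

set_option linter.all false

open Matrix Module

namespace Vale.Agent.P092.H221.Nf

open Vale.Agent.P092.H303 (hyp Idx)
open Vale.Agent.P092.H714.Cl (hf Frm)
open Vale.Agent.P092.H464.QF (Ix wt Dt Fr)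

variable {ω : Type} [Fintype ω] [DecidableEq ω]
  {k : Type} [NontriviallyNormedField k] [ProperSpace k] {σ : k →+* k} {ε : k}
  {J₀ : Matrix ω ω k}

theorem cont_of_norm (hσn : ∀ x, ‖σ x‖ = ‖x‖) : Continuous σ :=
  (AddMonoidHomClass.isometry_of_norm σ hσn).continuous

/-- **NF2, every Witt index**, with the constants of the form computed. -/
theorem nf2' {r : ℕ} (hF : Frm σ ε (hyp r ε J₀)) (hσn : ∀ x, ‖σ x‖ = ‖x‖)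
    (h0 : ∀ x, x ≠ 0 → hf σ J₀ x x ≠ 0) (C : ℝ) :
    ∃ C' : ℝ, 1 ≤ C' ∧ ∀ (κ κ' g : Matrix (Idx r ω) (Idx r ω) k) (M : ℝ), 1 ≤ M →
      κ' * κ = 1 → κ * κ' = 1 → (∀ i j, ‖κ i j‖ ≤ C) → (∀ i j, ‖κ' i j‖ ≤ C) →
      (∀ x y, hf σ (hyp r ε J₀) (κ *ᵥ x) (κ *ᵥ y) = hf σ (hyp r ε J₀) x y) →
      (∀ x y, hf σ (hyp r ε J₀) (g *ᵥ x) (g *ᵥ y) = hf σ (hyp r ε J₀) x y) →
      (∀ i j, ‖g i j‖ ≤ C * M) →
      (∀ x, (∀ i, (κ *ᵥ x) (.inl (.inr i)) = 0) → (∀ w, (κ *ᵥ x) (.inr w) = 0) →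
        M * ‖g *ᵥ x‖ ≤ C * ‖x‖) →
      ∃ (c : k) (A A' : Matrix (Idx r ω) (Idx r ω) k), c ≠ 0 ∧ M ≤ C' * ‖c‖ ∧ ‖c‖ ≤ C' * M ∧
        (∀ x, g *ᵥ x = c • (A *ᵥ fun i => c⁻¹ ^ wf r ω i * (κ *ᵥ x) i)) ∧
        A' * A = 1 ∧ A * A' = 1 ∧ (∀ i j, ‖A i j‖ ≤ C') ∧ ∀ i j, ‖A' i j‖ ≤ C' := by
  obtain ⟨J₁, hJ⟩ := exists_inv hF.nondeg
  obtain ⟨a, ha, han⟩ := exists_a hσn J₀ h0
  obtain ⟨b, hb0, hb⟩ := exists_b hσn J₀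
  obtain ⟨C', h1, h2⟩ := nf2 hF (cont_of_norm hσn) hσn hJ ha han hb hb0 (le_max_right C 0)
  refine ⟨C', h1, fun κ κ' g M hM hl hr hle hle' hiso hg hgM hgU => ?_⟩
  exact h2 κ κ' g M hM hl hr (fun i j => (hle i j).trans (le_max_left _ _))
    (fun i j => (hle' i j).trans (le_max_left _ _)) hiso hg
    (fun i j => (hgM i j).trans (mul_le_mul_of_nonneg_right (le_max_left _ _)
      (zero_le_one.trans hM))) fun x hx hx' => (hgU x hx hx').trans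
    (mul_le_mul_of_nonneg_right (le_max_left _ _) (norm_nonneg _))

/-- **(K2) NF2** in the letters of `H464/Q/Wt.lean`. -/
theorem nf2_QF (hF : Frm σ ε (hyp 2 ε J₀)) (hσn : ∀ x, ‖σ x‖ = ‖x‖)
    (h0 : ∀ x, x ≠ 0 → hf σ J₀ x x ≠ 0) (C : ℝ) :
    ∃ C' : ℝ, 1 ≤ C' ∧ ∀ (κ κ' g : Matrix (Ix ω) (Ix ω) k) (M : ℝ), 1 ≤ M →
      Fr (hf σ (hyp 2 ε J₀)) C κ κ' →
      (∀ x y, hf σ (hyp 2 ε J₀) (g *ᵥ x) (g *ᵥ y) = hf σ (hyp 2 ε J₀) x y) →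
      (∀ i j, ‖g i j‖ ≤ C * M) →
      (∀ x, (∀ i, wt i ≠ 2 → (κ *ᵥ x) i = 0) → M * ‖g *ᵥ x‖ ≤ C * ‖x‖) →
      ∃ (c t : k) (A A' : Matrix (Ix ω) (Ix ω) k), c ≠ 0 ∧ M ≤ C' * ‖c‖ ∧ ‖c‖ ≤ C' * M ∧
        t = c⁻¹ ∧ 1 ≤ C' * ‖t‖ * M ∧ ‖t‖ * M ≤ C' ∧
        (∀ x, g *ᵥ x = c • (A *ᵥ Dt t (κ *ᵥ x))) ∧
        A' * A = 1 ∧ A * A' = 1 ∧ (∀ i j, ‖A i j‖ ≤ C') ∧ ∀ i j, ‖A' i j‖ ≤ C' := by
  obtain ⟨C', h1, h2⟩ := nf2' hF hσn h0 C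
  refine ⟨C', h1, fun κ κ' g M hM hFr hg hgM hgU => ?_⟩
  obtain ⟨c, A, A', hc, h3, h4, h5, h6, h7, h8, h9⟩ := h2 κ κ' g M hM hFr.l hFr.r hFr.le hFr.le'
    hFr.iso hg hgM fun x hx hx' => hgU x fun i hi => by
      rcases i with (i | i) | i
      · exact absurd rfl hi
      · exact hx i
      · exact hx' i
  have hcp : 0 < ‖c‖ := norm_pos_iff.2 hc
  refine ⟨c, c⁻¹, A, A', hc, h3, h4, rfl, ?_, ?_, fun x => ?_, h6, h7, h8, h9⟩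
  · rw [norm_inv]
    have e : C' * ‖c‖⁻¹ * M = C' * M / ‖c‖ := by field_simp
    rw [e, le_div_iff₀ hcp, one_mul]
    exact h4
  · rw [norm_inv, inv_mul_le_iff₀ hcp, mul_comm]
    exact h3
  · rw [h5 x]
    congr 2
    funext i
    rcases i with (i | i) | i <;> rfl

end Vale.Agent.P092.H221.Nf
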