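import Vale.Agent.P092.H714.Cl1

/-!
P092 (helper221), row (K2) of helper464 (Witt index `r`, columns): an isometry of `hyp r ε J₀` which
maps the span `U` of the vectors `e_i` into itself, is bounded by `C M`, and by `C / M` on `U`, is
`A * diag(c⁻¹ on e_i, 1, c on e_-i)`, `‖c‖ = M`, with `A`, `A⁻¹` bounded.
-/

set_option linter.all false

open Matrix

namespace Vale.Agent.P092.H221.Nf

open Vale.Agent.P092.H303 (hyp Idx)
open Vale.Agent.P092.H714.Cl (hf)

variable {ω : Type} [Fintype ω] [DecidableEq ω] {r : ℕ}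

section alg

variable {k : Type} [Field k] {σ : k →+* k} {ε : k} {J₀ : Matrix ω ω k}

/-- The form `hyp r ε J₀` in coordinates. -/
theorem hf_hyp (x y : Idx r ω → k) : hf σ (hyp r ε J₀) x y =
    (∑ i : Fin r, x (.inl (.inl i)) * σ (y (.inl (.inr i)))) +
      ε * (∑ i : Fin r, x (.inl (.inr i)) * σ (y (.inl (.inl i)))) +
      hf σ J₀ (fun i => x (.inr i)) (fun i => y (.inr i)) := by
  unfold hf hyp
  rw [dotProduct, Fintype.sum_sum_type, Fintype.sum_sum_type]
  congr 1
  congr 1
  · refine Finset.sum_congr rfl fun i _ => ?_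
    congr 1
    simp [mulVec, dotProduct, Fintype.sum_sum_type, Matrix.one_apply]
  · rw [Finset.mul_sum]
    refine Finset.sum_congr rfl fun i _ => ?_
    rw [mul_left_comm]
    congr 1
    simp [mulVec, dotProduct, Fintype.sum_sum_type, Matrix.one_apply]
  · unfold dotProduct
    refine Finset.sum_congr rfl fun i _ => ?_
    congr 1
    simp [mulVec, dotProduct, Fintype.sum_sum_type]

/-- Column of a matrix. -/
def cl {n m : Type} (P : Matrix n m k) (j : m) : n → k := fun i => P i j

/-- `P` is an isometry of `hyp r ε J₀` (on the standard basis) which maps `U` into itself. -/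
structure Iu (σ : k →+* k) (ε : k) (J₀ : Matrix ω ω k) (P : Matrix (Idx r ω) (Idx r ω) k) :
    Prop where
  iso : ∀ i j, hf σ (hyp r ε J₀) (cl P i) (cl P j) = hyp r ε J₀ i j
  uf : ∀ i j, P (.inl (.inr i)) (.inl (.inl j)) = 0
  uw : ∀ w j, P (.inr w) (.inl (.inl j)) = 0

variable {P : Matrix (Idx r ω) (Idx r ω) k}

theorem Iu.tv (h : Iu σ ε J₀ P) (j i : Fin r) :
    ∑ l, P (.inl (.inl l)) (.inl (.inl j)) * σ (P (.inl (.inr l)) (.inl (.inr i))) =
      if j = i then 1 else 0 := by
  have h1 := h.iso (.inl (.inl j)) (.inl (.inr i))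
  rw [hf_hyp] at h1
  have e1 : ∀ l : Fin r, cl P (.inl (.inl j)) (.inl (.inr l)) = 0 := fun l => h.uf l j
  have e2 : (fun w : ω => cl P (.inl (.inl j)) (.inr w)) = 0 := funext fun w => h.uw w j
  rw [e2, H714.Cl.hf_zero_left, add_zero] at h1
  simp only [e1, zero_mul, Finset.sum_const_zero, mul_zero, add_zero] at h1
  have e3 : hyp r ε J₀ (.inl (.inl j)) (.inl (.inr i)) = if j = i then 1 else 0 := by
    simp [hyp, Matrix.one_apply]
  rw [← e3, ← h1]
  rfl

/-- The inverse relation. -/
theorem Iu.vt (h : Iu σ ε J₀ P) (l l' : Fin r) :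
    ∑ j, σ (P (.inl (.inr l)) (.inl (.inr j))) * P (.inl (.inl l')) (.inl (.inl j)) =
      if l = l' then 1 else 0 := by
  let T : Matrix (Fin r) (Fin r) k := fun j l => P (.inl (.inl l)) (.inl (.inl j))
  let V : Matrix (Fin r) (Fin r) k := fun l i => σ (P (.inl (.inr l)) (.inl (.inr i)))
  have h1 : T * V = 1 := by
    ext j i
    rw [Matrix.mul_apply, Matrix.one_apply]
    exact h.tv j i
  have h2 : V * T = 1 := mul_eq_one_comm.1 h1
  have h3 := congrFun (congrFun h2 l) l'
  rw [Matrix.mul_apply, Matrix.one_apply] at h3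
  exact h3

/-- The middle columns have no component on the dual vectors. -/
theorem Iu.fw (h : Iu σ ε J₀ P) (hσ : Function.Injective σ) (l : Fin r) (w : ω) :
    P (.inl (.inr l)) (.inr w) = 0 := by
  have h1 : ∀ j, ∑ l, P (.inl (.inl l)) (.inl (.inl j)) * σ (P (.inl (.inr l)) (.inr w)) = 0 := by
    intro j
    have h1 := h.iso (.inl (.inl j)) (.inr w)
    rw [hf_hyp] at h1
    have e1 : ∀ l : Fin r, cl P (.inl (.inl j)) (.inl (.inr l)) = 0 := fun l => h.uf l j
    have e2 : (fun w : ω => cl P (.inl (.inl j)) (.inr w)) = 0 := funext fun w => h.uw w j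
    rw [e2, H714.Cl.hf_zero_left, add_zero] at h1
    simp only [e1, zero_mul, Finset.sum_const_zero, mul_zero, add_zero] at h1
    have e3 : hyp r ε J₀ (.inl (.inl j)) (.inr w) = 0 := by simp [hyp]
    rw [← e3, ← h1]
    rfl
  have h2 : σ (P (.inl (.inr l)) (.inr w)) = 0 := by
    have h3 : σ (P (.inl (.inr l)) (.inr w)) =
        ∑ l', (if l = l' then 1 else 0) * σ (P (.inl (.inr l')) (.inr w)) := by
      simp
    rw [h3]
    simp only [← h.vt l, Finset.sum_mul]
    rw [Finset.sum_comm]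
    refine Finset.sum_eq_zero fun j _ => ?_
    simp only [mul_assoc]
    rw [← Finset.mul_sum, h1 j, mul_zero]
  exact hσ (h2.trans (map_zero σ).symm)

/-- The middle block preserves `J₀`. -/
theorem Iu.mm (h : Iu σ ε J₀ P) (hσ : Function.Injective σ) (w w' : ω) :
    hf σ J₀ (fun i => P (.inr i) (.inr w)) (fun i => P (.inr i) (.inr w')) = J₀ w w' := by
  have h1 := h.iso (.inr w) (.inr w')
  rw [hf_hyp] at h1
  have e1 : ∀ (w : ω) (l : Fin r), cl P (.inr w) (.inl (.inr l)) = 0 := fun w l => h.fw hσ l w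
  simp only [e1, map_zero, zero_mul, mul_zero, Finset.sum_const_zero, zero_add] at h1
  have e3 : hyp r ε J₀ (.inr w) (.inr w') = J₀ w w' := by simp [hyp]
  rw [← e3, ← h1]
  rfl

/-- The upper part of a middle column. -/
theorem Iu.eu (h : Iu σ ε J₀ P) (hσ : Function.Injective σ) (l : Fin r) (w : ω) :
    P (.inl (.inl l)) (.inr w) = -∑ j, hf σ J₀ (fun i => P (.inr i) (.inr w))
      (fun i => P (.inr i) (.inl (.inr j))) * P (.inl (.inl l)) (.inl (.inl j)) := by
  have h1 : ∀ j, ∑ l, P (.inl (.inl l)) (.inr w) * σ (P (.inl (.inr l)) (.inl (.inr j))) =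
      -hf σ J₀ (fun i => P (.inr i) (.inr w)) (fun i => P (.inr i) (.inl (.inr j))) := by
    intro j
    have h1 := h.iso (.inr w) (.inl (.inr j))
    rw [hf_hyp] at h1
    have e1 : ∀ l : Fin r, cl P (.inr w) (.inl (.inr l)) = 0 := fun l => h.fw hσ l w
    simp only [e1, zero_mul, mul_zero, Finset.sum_const_zero, add_zero] at h1
    have e3 : hyp r ε J₀ (.inr w) (.inl (.inr j)) = 0 := by simp [hyp]
    rw [e3] at h1
    exact eq_neg_of_add_eq_zero_left h1
  have h2 : P (.inl (.inl l)) (.inr w) =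
      ∑ l', P (.inl (.inl l')) (.inr w) * (if l' = l then 1 else 0) := by
    simp
  rw [h2]
  simp only [← fun l' => h.vt l' l, Finset.mul_sum]
  rw [Finset.sum_comm, ← Finset.sum_neg_distrib]
  refine Finset.sum_congr rfl fun j _ => ?_
  rw [← neg_mul, ← h1 j, Finset.sum_mul]
  exact Finset.sum_congr rfl fun l' _ => by ring

end alg

end Vale.Agent.P092.H221.Nf
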