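import Vale.Agent.P092.H337.Fr1
import Vale.Agent.P092.H370.Fo3
import Vale.Agent.P092.H221.Nf1

/-!
P092 (helper221), rows (K1) + (K2) of CL-O, part 1: frames for forms of every kind (helper370's
`Fo`: no skew scalar is needed, orthogonal forms are included). Same statements as H337/Fr1.
-/

set_option linter.all false

open Matrix Module Set Topology Filter

namespace Vale.Agent.P092.H221.Fro

section form

open Vale.Agent.P092.H303 (FormGroup)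
open Vale.Agent.P092.H714.Cl
open Vale.Agent.P092.H370.Po
open Vale.Agent.P092.H370.Fo (Fo)
open Vale.Agent.P092.H337.Fr (exists_compact_trans)

variable {n : Type} [Fintype n] [DecidableEq n] {k : Type} [NontriviallyNormedField k]
  [ProperSpace k] {σ : k →+* k} {ε : k} {J : Matrix n n k}

/-- **frames, group form** -/
theorem exists_bdd_trans (hF : Fo σ ε J) (hσ : Continuous σ) {j : ℕ} (X₀ : SGr σ J j) :
    ∃ C : ℝ, 0 < C ∧ ∀ X : SGr σ J j, ∃ g : FormGroup σ J, g • X₀ = X ∧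
      (∀ a b, ‖g.1.1 a b‖ ≤ C) ∧ ∀ a b, ‖(g⁻¹).1.1 a b‖ ≤ C := by
  haveI := H303.locallyCompact_formGroup hσ J
  haveI := H303.secondCountable_formGroup (σ := σ) J
  haveI : Fact (Continuous σ) := ⟨hσ⟩
  obtain ⟨K, hK, h⟩ := exists_compact_trans (S := FormGroup σ J) (Y := SGr σ J j)
    (fun x y => by obtain ⟨g, -, h, -⟩ := H370.Fo.trans_SGr hF x y; exact ⟨g, h⟩) X₀
  have hc : ∀ a b, Continuous fun g : FormGroup σ J => g.1.1 a b := fun a b => by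
    have h1 : Continuous fun g : FormGroup σ J => g.1.1 :=
      (isInducing_val (n := n) (k := k)).continuous.comp continuous_subtype_val
    exact (continuous_apply b).comp ((continuous_apply a).comp h1)
  have hb : ∀ a b, ∃ C : ℝ, ∀ g ∈ K, ‖g.1.1 a b‖ ≤ C ∧ ‖(g⁻¹).1.1 a b‖ ≤ C := by
    intro a b
    obtain ⟨C1, h1⟩ := (hK.image (hc a b).norm).bddAbove
    obtain ⟨C2, h2⟩ := (hK.image ((hc a b).comp continuous_inv).norm).bddAbove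
    refine ⟨max C1 C2, fun g hg => ⟨?_, ?_⟩⟩
    · exact (h1 ⟨g, hg, rfl⟩).trans (le_max_left _ _)
    · exact (h2 ⟨g, hg, rfl⟩).trans (le_max_right _ _)
  choose C hC using hb
  refine ⟨∑ a, ∑ b, |C a b| + 1, by positivity, fun X => ?_⟩
  have hle : ∀ a b, C a b ≤ ∑ a, ∑ b, |C a b| + 1 := by
    intro a b
    have h1 : |C a b| ≤ ∑ b, |C a b| :=
      Finset.single_le_sum (f := fun b => |C a b|) (fun _ _ => abs_nonneg _) (Finset.mem_univ b)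
    have h2 : ∑ b, |C a b| ≤ ∑ a, ∑ b, |C a b| :=
      Finset.single_le_sum (f := fun a => ∑ b, |C a b|)
        (fun _ _ => Finset.sum_nonneg fun _ _ => abs_nonneg _) (Finset.mem_univ a)
    linarith [le_abs_self (C a b)]
  obtain ⟨g, hg, hX⟩ := h X
  exact ⟨g, hX, fun a b => ((hC a b g hg).1).trans (hle a b),
    fun a b => ((hC a b g hg).2).trans (hle a b)⟩

/-- **frames, matrix form**: columns. -/
theorem exists_frame (hF : Fo σ ε J) (hσ : Continuous σ) {j : ℕ} (X₀ : SGr σ J j) :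
    ∃ C : ℝ, 0 < C ∧ ∀ X : SGr σ J j, ∃ κ κ' : Matrix n n k, κ' * κ = 1 ∧ κ * κ' = 1 ∧
      κ.det = 1 ∧ κ'.det = 1 ∧
      (∀ a b, ‖κ a b‖ ≤ C) ∧ (∀ a b, ‖κ' a b‖ ≤ C) ∧
      (∀ x y, hf σ J (κ *ᵥ x) (κ *ᵥ y) = hf σ J x y) ∧
      (∀ x y, hf σ J (κ' *ᵥ x) (κ' *ᵥ y) = hf σ J x y) ∧
      (∀ x, x ∈ X.S ↔ κ *ᵥ x ∈ X₀.S) ∧ (∀ x, x ∈ X₀.S ↔ κ' *ᵥ x ∈ X.S) := by
  obtain ⟨C, hC0, hC⟩ := exists_bdd_trans hF hσ X₀
  refine ⟨C, hC0, fun X => ?_⟩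
  obtain ⟨g, hX, h1, h2⟩ := hC X
  have e1 : g.1.1 * (g⁻¹).1.1 = 1 := by
    exact congrArg (fun z : FormGroup σ J => z.1.1) (mul_inv_cancel g)
  have e2 : (g⁻¹).1.1 * g.1.1 = 1 := by
    exact congrArg (fun z : FormGroup σ J => z.1.1) (inv_mul_cancel g)
  have k1 : g.1.1ᵀ * (g⁻¹).1.1ᵀ = 1 := by rw [← transpose_mul, e2, transpose_one]
  have k2 : (g⁻¹).1.1ᵀ * g.1.1ᵀ = 1 := by rw [← transpose_mul, e1, transpose_one]
  have hm : ∀ x, x ∈ X.S ↔ g.1.1ᵀ *ᵥ x ∈ X₀.S := by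
    intro x
    rw [← hX, smul_S, mulVec_transpose]
    constructor
    · intro h
      obtain ⟨y, hy, rfl⟩ := mem_act.1 h
      have e : (y ᵥ* (g.1⁻¹).1) ᵥ* g.1.1 = y := by
        rw [vecMul_vecMul]
        exact (congrArg (fun z => y ᵥ* z) e2).trans (vecMul_one y)
      rwa [e]
    · intro h
      refine mem_act.2 ⟨_, h, ?_⟩
      rw [vecMul_vecMul]
      exact (congrArg (fun z => x ᵥ* z) e1).trans (vecMul_one x)
  refine ⟨g.1.1ᵀ, (g⁻¹).1.1ᵀ, k2, k1, ?_, ?_, fun a b => h1 b a, fun a b => h2 b a, ?_, ?_, hm, ?_⟩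
  · rw [det_transpose]; exact g.1.2
  · rw [det_transpose]; exact (g⁻¹).1.2
  · intro x y
    rw [mulVec_transpose, mulVec_transpose]
    exact mem_formGroup.1 g.2 x y
  · intro x y
    rw [mulVec_transpose, mulVec_transpose]
    exact mem_formGroup.1 (g⁻¹).2 x y
  · intro x
    rw [hm, mulVec_mulVec, k1, one_mulVec]

end form

section std

open Vale.Agent.P092.H303 (FormGroup Idx hyp)
open Vale.Agent.P092.H714.Cl
open Vale.Agent.P092.H370.Po (SGr Sing Inc)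
open Vale.Agent.P092.H370.Fo (Fo)
open Vale.Agent.P092.H631.P2 (iL iL_inj mem_cf cf)
open Vale.Agent.P092.H100.Gr (sp)

variable {ι : Type} [Fintype ι] [DecidableEq ι] {k : Type} [NontriviallyNormedField k]
  {σ : k →+* k} {ε : k} {r j : ℕ} {J₀ : Matrix ι ι k}

theorem coord_sp (hj : j ≤ r) {x : Idx r ι → k} (hx : x ∈ (sp (cf (k := k) (iL ι hj) (iL_inj hj))).1)
    (i : Idx r ι) (hi : ∀ a, iL ι hj a ≠ i) : x i = 0 := by
  change x ∈ Submodule.span k (range fun a : Fin j => (Pi.single (iL ι hj a) 1 : Idx r ι → k))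
    at hx
  rw [Submodule.mem_span_range_iff_exists_fun] at hx
  obtain ⟨c, rfl⟩ := hx
  rw [Finset.sum_apply, Finset.sum_eq_zero]
  intro a _
  simp [Pi.single_eq_of_ne (hi a).symm]

/-- the base space `⟨e_1, …, e_j⟩` -/
noncomputable def cPo (hj : j ≤ r) : SGr σ (hyp r ε J₀) j :=
  SGr.mk' (sp (cf (k := k) (iL ι hj) (iL_inj hj))).1 (by
    intro x hx y hy
    have h1 : ∀ i : Fin r, x (.inl (.inr i)) = 0 := fun i => coord_sp hj hx _ fun a => by simp [iL]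
    have h2 : ∀ i : Fin r, y (.inl (.inr i)) = 0 := fun i => coord_sp hj hy _ fun a => by simp [iL]
    have h3 : (fun i : ι => x (.inr i)) = 0 := funext fun i => coord_sp hj hx _ fun a => by simp [iL]
    rw [H221.Nf.hf_hyp, h3, hf_zero_left]
    simp [h1, h2]) (sp (cf (k := k) (iL ι hj) (iL_inj hj))).2

theorem mem_cPo (hj : j ≤ r) {x : Idx r ι → k} :
    x ∈ (cPo hj : SGr σ (hyp r ε J₀) j).S ↔ ∀ i, (∀ a, iL ι hj a ≠ i) → x i = 0 :=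
  ⟨fun hx i hi => coord_sp hj hx i hi, fun hx => mem_cf (iL_inj hj) hx⟩

variable [ProperSpace k]

/-- **(K1) FRAMES** in the standard form: `X = κ⁻¹ ⟨e_1, …, e_j⟩`. -/
theorem exists_frame_std (hF : Fo σ ε (hyp r ε J₀)) (hσ : Continuous σ) (hj : j ≤ r) :
    ∃ C : ℝ, 0 < C ∧ ∀ X : SGr σ (hyp r ε J₀) j, ∃ κ κ' : Matrix (Idx r ι) (Idx r ι) k,
      κ' * κ = 1 ∧ κ * κ' = 1 ∧ κ.det = 1 ∧ κ'.det = 1 ∧
      (∀ a b, ‖κ a b‖ ≤ C) ∧ (∀ a b, ‖κ' a b‖ ≤ C) ∧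
      (∀ x y, hf σ (hyp r ε J₀) (κ *ᵥ x) (κ *ᵥ y) = hf σ (hyp r ε J₀) x y) ∧
      (∀ x y, hf σ (hyp r ε J₀) (κ' *ᵥ x) (κ' *ᵥ y) = hf σ (hyp r ε J₀) x y) ∧
      (∀ x, x ∈ X.S ↔ ∀ i, (∀ a, iL ι hj a ≠ i) → (κ *ᵥ x) i = 0) ∧
      (∀ x, (∀ i, (∀ a, iL ι hj a ≠ i) → x i = 0) ↔ κ' *ᵥ x ∈ X.S) := by
  obtain ⟨C, hC0, hC⟩ := exists_frame hF hσ (cPo hj)
  refine ⟨C, hC0, fun X => ?_⟩
  obtain ⟨κ, κ', h1, h2, h3, h4, h5, h6, h7, h8, h9, h10⟩ := hC X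
  exact ⟨κ, κ', h1, h2, h3, h4, h5, h6, h7, h8, fun x => (h9 x).trans (mem_cPo hj),
    fun x => (mem_cPo hj).symm.trans (h10 x)⟩

/-- `j = r`: the maximal singular spaces -/
theorem exists_frame_max (hF : Fo σ ε (hyp r ε J₀)) (hσ : Continuous σ) :
    ∃ C : ℝ, 0 < C ∧ ∀ X : SGr σ (hyp r ε J₀) r, ∃ κ κ' : Matrix (Idx r ι) (Idx r ι) k,
      κ' * κ = 1 ∧ κ * κ' = 1 ∧ κ.det = 1 ∧ κ'.det = 1 ∧
      (∀ a b, ‖κ a b‖ ≤ C) ∧ (∀ a b, ‖κ' a b‖ ≤ C) ∧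
      (∀ x y, hf σ (hyp r ε J₀) (κ *ᵥ x) (κ *ᵥ y) = hf σ (hyp r ε J₀) x y) ∧
      (∀ x y, hf σ (hyp r ε J₀) (κ' *ᵥ x) (κ' *ᵥ y) = hf σ (hyp r ε J₀) x y) ∧
      (∀ x, x ∈ X.S ↔ (∀ a : Fin r, (κ *ᵥ x) (.inl (.inr a)) = 0) ∧
        ∀ w : ι, (κ *ᵥ x) (.inr w) = 0) ∧
      (∀ x : Idx r ι → k, ((∀ a : Fin r, x (.inl (.inr a)) = 0) ∧ ∀ w : ι, x (.inr w) = 0) →
        κ' *ᵥ x ∈ X.S) := by
  obtain ⟨C, hC0, hC⟩ := exists_frame_std hF hσ (le_refl r)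
  have key : ∀ x : Idx r ι → k, (∀ i, (∀ a, iL ι (le_refl r) a ≠ i) → x i = 0) ↔
      (∀ a : Fin r, x (.inl (.inr a)) = 0) ∧ ∀ w : ι, x (.inr w) = 0 := by
    intro x
    constructor
    · intro h
      exact ⟨fun a => h _ fun b => by simp [iL], fun w => h _ fun b => by simp [iL]⟩
    · rintro ⟨h1, h2⟩ i hi
      rcases i with (a | a) | w
      · exact absurd rfl (hi a)
      · exact h1 a
      · exact h2 w
  refine ⟨C, hC0, fun X => ?_⟩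
  obtain ⟨κ, κ', h1, h2, h3, h4, h5, h6, h7, h8, h9, h10⟩ := hC X
  exact ⟨κ, κ', h1, h2, h3, h4, h5, h6, h7, h8, fun x => (h9 x).trans (key _),
    fun x hx => (h10 x).1 ((key x).2 hx)⟩

end std

end Vale.Agent.P092.H221.Fro
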