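import Vale.Agent.P092.H337.Fr2
import Vale.Agent.P092.H221.Fro

/-!
P092 (helper221), [CLO-C2], part 1: helper337's Fr2 for forms of every kind (`Fm`, `Fo`).
-/

set_option linter.all false

open Matrix Module Set Topology Filter

namespace Vale.Agent.P092.H221.Fro

open Vale.Agent.P092.H303 (FormGroup Idx hyp)
open Vale.Agent.P092.H714.Cl
open Vale.Agent.P092.H714.Sg (Fm)
open Vale.Agent.P092.H370.Po (SGr Sing Inc)
open Vale.Agent.P092.H370.Fo (Fo)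
open Vale.Agent.P092.H631.P2 (iL iL_inj hf_eL)
open Vale.Agent.P092.H337.Fr (norm_sig norm_eps aniso_bd le3_hyp an_hyp wt_ne_two)
open Vale.Agent.P092.H464.QF (Ix wt Bd eb Sf Fr)

variable {ω : Type} [Fintype ω] [DecidableEq ω] {k : Type} [NontriviallyNormedField k]
  {σ : k →+* k} {ε : k} {J₀ : Matrix ω ω k}

/-- **(K4)**: the form `hyp 2 ε J₀` is standard -/
theorem sf_hyp_o [ProperSpace k] (hF : Fm σ ε (hyp 2 ε J₀)) (hσ : Continuous σ)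
    (han : ∀ w, hf σ J₀ w w = 0 → w = 0) : ∃ C : ℝ, Sf (hf σ (hyp 2 ε J₀)) C := by
  have hs : ∀ x, ‖σ x‖ = ‖x‖ := norm_sig hF.inv hσ
  have he : ‖ε‖ = 1 := norm_eps hF.eps
  obtain ⟨c, hc, hcw⟩ := aniso_bd hσ hs han
  set B : ℝ := ∑ i, ∑ j, ‖J₀ i j‖ with hB
  have hB0 : 0 ≤ B := Finset.sum_nonneg fun _ _ => Finset.sum_nonneg fun _ _ => norm_nonneg _
  have h4c : 0 < 4 / c := by positivity
  refine ⟨2 + B + 4 / c, ?_, fun x y z => hf_add_left σ _ x y z, fun a x z => hf_smul_left σ _ a x z,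
    fun x y z => hf_add_right σ _ z x y, fun a x z => ?_, fun x y => ?_, ?_, fun x b => ?_, ?_⟩
  · linarith
  · rw [hf_smul_right, norm_mul, hs]
  · rw [hF.herm x y, norm_mul, he, one_mul, hs]
  · intro x y a0 a1 a2 b0 b1 b2 ha1 hb1 hx hy
    have ha0 : 0 ≤ a0 := (norm_nonneg _).trans (hx.m 0)
    have ha2 : 0 ≤ a2 := (norm_nonneg _).trans (hx.p 0)
    have hb0 : 0 ≤ b0 := (norm_nonneg _).trans (hy.m 0)
    have hb2 : 0 ≤ b2 := (norm_nonneg _).trans (hy.p 0)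
    refine (le3_hyp hs he ha1 hb1 hx hy).trans ?_
    have e1 : 0 ≤ a0 * b2 + a2 * b0 := by positivity
    have e2 : 0 ≤ a1 * b1 := by positivity
    nlinarith
  · have e : (eb (.inl (.inl b)) : Ix ω → k) = Pi.single (.inl (.inl b)) 1 := rfl
    rw [e, hf_eL, norm_mul, he, mul_one]
  · intro x a0 a2 hxx h0 h2 w
    have ha0 : 0 ≤ a0 := (norm_nonneg _).trans (h0 0)
    have ha2 : 0 ≤ a2 := (norm_nonneg _).trans (h2 0)
    refine (an_hyp hs he hc hcw hxx h0 h2 w).trans ?_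
    have e1 : 0 ≤ a0 * a2 := by positivity
    nlinarith

/-- **(K1)**: bounded frames of the maximal singular spaces -/
theorem fr_hyp_o [ProperSpace k] (hF : Fo σ ε (hyp 2 ε J₀)) (hσ : Continuous σ) :
    ∃ C : ℝ, 0 < C ∧ ∀ X : SGr σ (hyp 2 ε J₀) 2, ∃ κ κ' : Matrix (Ix ω) (Ix ω) k,
      Fr (hf σ (hyp 2 ε J₀)) C κ κ' ∧ (∀ x, x ∈ X.S ↔ ∀ i, wt i ≠ 2 → (κ *ᵥ x) i = 0) ∧
      ∀ x : Ix ω → k, (∀ i, wt i ≠ 2 → x i = 0) ↔ κ' *ᵥ x ∈ X.S := by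
  obtain ⟨C, hC0, hC⟩ := H221.Fro.exists_frame_std (ι := ω) (J₀ := J₀) hF hσ (le_refl 2)
  have key : ∀ x : Ix ω → k, (∀ i, (∀ a, iL ω (le_refl 2) a ≠ i) → x i = 0) ↔
      ∀ i, wt i ≠ 2 → x i = 0 := fun x =>
    forall_congr' fun i => imp_congr_left (wt_ne_two i).symm
  refine ⟨C, hC0, fun X => ?_⟩
  obtain ⟨κ, κ', h1, h2, h3, h4, h5, h6, h7, h8, h9, h10⟩ := hC X
  exact ⟨κ, κ', ⟨h1, h2, h5, h6, h7⟩, fun x => (h9 x).trans (key _),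
    fun x => (key x).symm.trans (h10 x)⟩

/-- one constant for both -/
theorem sf_fr_o [ProperSpace k] (hF : Fo σ ε (hyp 2 ε J₀)) (hσ : Continuous σ)
    (han : ∀ w, hf σ J₀ w w = 0 → w = 0) : ∃ C : ℝ, Sf (hf σ (hyp 2 ε J₀)) C ∧
    ∀ X : SGr σ (hyp 2 ε J₀) 2, ∃ κ κ' : Matrix (Ix ω) (Ix ω) k,
      Fr (hf σ (hyp 2 ε J₀)) C κ κ' ∧ (∀ x, x ∈ X.S ↔ ∀ i, wt i ≠ 2 → (κ *ᵥ x) i = 0) ∧
      ∀ x : Ix ω → k, (∀ i, wt i ≠ 2 → x i = 0) ↔ κ' *ᵥ x ∈ X.S := by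
  obtain ⟨C1, h1⟩ := sf_hyp_o hF.fm hσ han
  obtain ⟨C2, hC2, h2⟩ := fr_hyp_o hF hσ
  refine ⟨max C1 C2, ?_, fun X => ?_⟩
  · refine ⟨h1.one.trans (le_max_left _ _), h1.add, h1.smul, h1.add', h1.smul', h1.sym, ?_,
      h1.dual, ?_⟩
    · intro x y a0 a1 a2 b0 b1 b2 ha1 hb1 hx hy
      have ha0 : 0 ≤ a0 := (norm_nonneg _).trans (hx.m 0)
      have ha2 : 0 ≤ a2 := (norm_nonneg _).trans (hx.p 0)
      have hb0 : 0 ≤ b0 := (norm_nonneg _).trans (hy.m 0)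
      have hb2 : 0 ≤ b2 := (norm_nonneg _).trans (hy.p 0)
      exact (h1.le3 ha1 hb1 hx hy).trans
        (mul_le_mul_of_nonneg_right (le_max_left _ _) (by positivity))
    · intro x a0 a2 hxx h0 h2 w
      have ha0 : 0 ≤ a0 := (norm_nonneg _).trans (h0 0)
      have ha2 : 0 ≤ a2 := (norm_nonneg _).trans (h2 0)
      exact (h1.an hxx h0 h2 w).trans
        (mul_le_mul_of_nonneg_right (le_max_left _ _) (by positivity))
  · obtain ⟨κ, κ', hf, h3, h4⟩ := h2 X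
    exact ⟨κ, κ', ⟨hf.l, hf.r, fun i j => (hf.le i j).trans (le_max_right _ _),
      fun i j => (hf.le' i j).trans (le_max_right _ _), hf.iso⟩, h3, h4⟩

end Vale.Agent.P092.H221.Fro
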