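import Vale.Agent.P092.H337.C3d
import Vale.Agent.P092.H315P.G6
import Vale.Agent.P092.H221.Nfo
import Vale.Agent.P092.H221.Fro2
import Vale.Agent.P092.CL.LtO2

/-!
P092 (helper221), [CLO-C2]: `Dat` for forms of every kind (`Fo`, Witt index 2, anisotropic kernel),
and **COUNT_2 in the letters of CL/LtO** (orthogonal groups of Witt index 2, every local field with
`2 ≠ 0`).
-/

set_option linter.all false

open scoped InnerProductSpace ENNReal LinearAlgebra.Projectivization ZeroAtInfty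
open Matrix Module Set Topology TopologicalSpace Filter MeasureTheory ContinuousLinearMap

namespace Vale.Agent.P092.H221.CO

open Vale.Agent.P092.H303 (FormGroup Idx hyp)
open Vale.Agent.P092.H714.Cl (hf hf_smul_left hf_smul_right)
open Vale.Agent.P092.H714.Sg (Fm)
open Vale.Agent.P092.H370.Po
open Vale.Agent.P092.H370.Fo (Fo)
open Vale.Agent.P092.H464.QF (Ix wt Dt Sf Ln)
open Vale.Agent.P092.CL (ta nmM NWr AttS act OF ltO EUF)
open Vale.Agent.P092.H315P.GO (inv_of exists_fb locS shellr opp_of2)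
open Vale.Agent.P092.H337.C3 (Dat NF2 div_le TDs tds_dense' count3' nmM_nonneg)

section inv

variable {k : Type} [NontriviallyNormedField k] {n : Type} [Fintype n] [DecidableEq n]
  {σ : k →+* k} {ε : k} {J : Matrix n n k}

theorem ball_card (hF : Fm σ ε J) (hσn : ∀ x, ‖σ x‖ = ‖x‖) {Γ : Type} {q : Γ → FormGroup σ J}
    (hud : ∀ C : ℝ, ∃ N : ℕ, ∀ T : Finset Γ,
      (∀ γ ∈ T, ∀ γ' ∈ T, nmM (ta (q γ' * (q γ)⁻¹).1) ≤ C) → T.card ≤ N) (R : ℝ) :
    ∃ M₀ : ℕ, ∀ S : Finset Γ, (∀ γ ∈ S, nmM (ta (q γ).1) ≤ R) → S.card ≤ M₀ := by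
  obtain ⟨D, hD⟩ := exists_fb hF hσn (inv_of hF) 0
  have hD0 := hD.pos
  obtain ⟨N, hN⟩ := hud (Fintype.card n * (|R| * (D ^ 3 * |R|)))
  refine ⟨N, fun S hS => hN S fun γ hγ γ' hγ' => (div_le hD _ _).trans ?_⟩
  have h1 := (hS γ hγ).trans (le_abs_self R)
  have h2 := (hS γ' hγ').trans (le_abs_self R)
  have h3 := nmM_nonneg (ta (q γ).1)
  have h4 := nmM_nonneg (ta (q γ').1)
  gcongr

end inv

section count

variable {k : Type} [NontriviallyNormedField k] [ProperSpace k] {ω : Type} [Fintype ω]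
  [DecidableEq ω] {σ : k →+* k} {ε : k} {J₀ : Matrix ω ω k}

/-- the data of the count, forms of every kind -/
theorem dat_fo (hF : Fo σ ε (hyp 2 ε J₀)) (hW : WI σ (hyp 2 ε J₀) 2) (hσ : Continuous σ)
    (han : ∀ w, hf σ J₀ w w = 0 → w = 0) : Dat σ ε J₀ := by
  haveI : Nonempty (Idx 2 ω) := ⟨.inl (.inl 0)⟩
  have hσn : ∀ x, ‖σ x‖ = ‖x‖ := H337.Fr.norm_sig hF.fm.inv hσ
  refine ⟨?_, ?_, ?_, ?_, ?_⟩
  · obtain ⟨C, h1, h2⟩ := H221.Fro.sf_fr_o (J₀ := J₀) hF hσ han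
    refine ⟨C, h1, fun X => ?_⟩
    obtain ⟨κ, κ', h3, h4, -⟩ := h2 X
    exact ⟨κ, κ', h3, h4⟩
  · exact H221.Nf.nf2_QFo hF hσn fun x hx h => hx (han x h)
  · intro A B hB hAB R
    exact locS hF.fm hσn hB (fun X hX Y hY => opp_of2 hF hW (hAB X hX Y hY)) R
  · intro Γ q hud C
    exact shellr hF hσn hW hud C
  · intro Γ q hud R
    exact ball_card hF.fm hσn hud R

/-- the orthogonal letters -/
theorem dat_o {J₀ : Matrix ω ω k} (h : OF J₀) : Dat (RingHom.id k) 1 J₀ :=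
  dat_fo (h.wf 0).fo (h.wi 0) continuous_id fun w hw => by
    by_contra hne
    exact h.an w hne hw

/-- **COUNT_2 in the letters of `H99.CL` for `ltO`**, every local field with `2 ≠ 0` -/
theorem count2StmtO [MeasurableSpace k] [BorelSpace k] (hk : H933.LocK k) {J₀ : Matrix ω ω k}
    (h : OF J₀) {a : k} (ha : a ≠ 0) (μ₁ : Measure k) (μ₂ : Measure (ω → k)) :
    H99.CL.Count2Stmt (ltO h 0 ha μ₁ μ₂) := by
  refine ⟨TDs (RingHom.id k) (hyp 2 1 J₀), tds_dense' hk, ?_⟩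
  intro Γ K _ _ _ q hud E B G G' hEG hEG' hBG' R A f₁ f hf' hA
  exact count3' hk (dat_o h) (fun γ => (q γ).1) hud E B G G' hEG hEG' hBG' R A f₁ f hf' hA

end count

end Vale.Agent.P092.H221.CO
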