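import Vale.Agent.P092.H534.CartN
import Vale.Agent.P092.H933.Cart

/-!
P092 (helper221), Team N, [N-GAPB]: the system of gauges over a local field together with Cartan
decompositions with factors with entries of norm at most one, with TWO-SIDED comparison of the gaps, and
the dual side (inverse transpose).
-/

set_option linter.all false

open Matrix
open scoped ComplexOrder

namespace Vale.Agent.P092.H221.GapsC

open Vale.Agent.P092.H515 (GSys place_gsys gsys_all)
open Vale.Agent.P092.H933 (LocK rea IsSVDC exists_svdC svd_rea svd_cmp_log PEmb)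
open Vale.Agent.P092.H534.GK (Crt orth_entry unit_entry)

/-- The `i`-th gap of a sequence of numbers. -/
noncomputable def lg {k : Type} [NormedField k] {n : ℕ} (a : Fin n → k) (i : Fin (n - 1)) : ℝ :=
  Real.log ‖a ⟨i, by have := i.2; omega⟩‖ - Real.log ‖a ⟨(i : ℕ) + 1, by have := i.2; omega⟩‖

/-! ### The three cases -/

section real

variable {n : ℕ}

theorem crt_real2 {h : Matrix (Fin n) (Fin n) ℝ} (hd : h.det ≠ 0) :
    ∃ a U U' V V', Crt h a U U' V V' ∧ ∀ i : Fin (n - 1), H944.gap i h = 2 * lg a i := by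
  have S := H944.isSVD hd
  refine ⟨H944.sv h, H944.kA h, (H944.kA h)ᵀ, H944.kB h, (H944.kB h)ᵀ,
    ⟨orth_entry S.o1', orth_entry (by rw [transpose_transpose]; exact S.o1),
      orth_entry S.o2', orth_entry (by rw [transpose_transpose]; exact S.o2), S.o1', S.o2',
      fun i j hij => ?_, S.eq⟩, fun i => ?_⟩
  · change ‖H944.sv h j‖ ≤ ‖H944.sv h i‖
    rw [Real.norm_of_nonneg (S.pos _).le, Real.norm_of_nonneg (S.pos _).le]
    exact S.anti hij
  · have hi : (i : ℕ) + 1 < n := by have := i.2; omega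
    rw [lg, Real.norm_of_nonneg (S.pos _).le, Real.norm_of_nonneg (S.pos _).le]
    rw [H944.gap, if_pos hi, H944.la, dif_pos (by omega), H944.la, dif_pos hi]

end real

section cplx

variable {n : ℕ}

theorem crt_cplx2 (n : ℕ) : ∃ C : ℝ, ∀ h : Matrix (Fin n) (Fin n) ℂ, h.det ≠ 0 →
    ∃ a U U' V V', Crt h a U U' V V' ∧ ∀ i : Fin (n - 1),
      |H944.gap (2 * (i : ℕ) + 1) (rea h) - 2 * lg a i| ≤ C := by
  obtain ⟨C, hC0, hC⟩ := svd_cmp_log (N := n + n)
  refine ⟨4 * C, fun h hd => ?_⟩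
  obtain ⟨U, a, V, S⟩ := exists_svdC h hd
  have na : ∀ i, ‖((a i : ℝ) : ℂ)‖ = a i := fun i => by
    rw [Complex.norm_real, Real.norm_of_nonneg (S.pos i).le]
  refine ⟨fun i => (a i : ℂ), U, Uᴴ, V, Vᴴ,
    ⟨unit_entry S.o1', unit_entry (by rw [conjTranspose_conjTranspose]; exact S.o1),
      unit_entry S.o2', unit_entry (by rw [conjTranspose_conjTranspose]; exact S.o2), S.o1',
      S.o2', fun i j hij => ?_, S.eq⟩, fun i => ?_⟩
  · change ‖((a j : ℝ) : ℂ)‖ ≤ ‖((a i : ℝ) : ℂ)‖
    rw [na, na]; exact S.anti hij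
  · have hi : (i : ℕ) + 1 < n := by have := i.2; omega
    have hdr : (rea h).det ≠ 0 := by
      intro h0
      have e := H933.det_rea h
      rw [h0] at e
      have e' : h.det * (starRingEnd ℂ) h.det = 0 := by rw [← e]; simp
      rcases mul_eq_zero.mp e' with h1 | h1
      · exact hd h1
      · exact hd ((map_eq_zero _).mp h1)
    have T := svd_rea S
    have R := H944.isSVD hdr
    have c1 := hC T R ⟨2 * (i : ℕ) + 1, by omega⟩
    have c2 := hC T R ⟨2 * (i : ℕ) + 2, by omega⟩
    have t1 : (⟨(2 * (i : ℕ) + 1) / 2, by omega⟩ : Fin n) = ⟨i, by omega⟩ :=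
      Fin.ext (by change (2 * (i : ℕ) + 1) / 2 = i; omega)
    have t2 : (⟨(2 * (i : ℕ) + 2) / 2, by omega⟩ : Fin n) = ⟨(i : ℕ) + 1, hi⟩ :=
      Fin.ext (by change (2 * (i : ℕ) + 2) / 2 = (i : ℕ) + 1; omega)
    simp only [t1, t2] at c1 c2
    have e0 : H944.gap (2 * (i : ℕ) + 1) (rea h) =
        2 * (Real.log (H944.sv (rea h) ⟨2 * (i : ℕ) + 1, by omega⟩) -
        Real.log (H944.sv (rea h) ⟨2 * (i : ℕ) + 2, by omega⟩)) := by
      rw [H944.gap, if_pos (by omega), H944.la, dif_pos (by omega), H944.la,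
        dif_pos (by omega)]
    rw [lg, na, na, e0]
    rw [abs_le] at c1 c2 ⊢
    constructor <;> linarith [c1.1, c1.2, c2.1, c2.2]

end cplx

section ultra

variable {k : Type} [NontriviallyNormedField k] [IsUltrametricDist k] {n : ℕ}

theorem crt_ultra2 (h : Matrix (Fin n) (Fin n) k) :
    ∃ a U U' V V', Crt h a U U' V V' ∧ ∀ i : Fin (n - 1), H933.gap i h = lg a i := by
  refine ⟨(H933.car h).a, (H933.car h).u, (H933.car h).ui, (H933.car h).v, (H933.car h).vi,
    ⟨(H933.car h).hu.le, (H933.car h).hu.lei, (H933.car h).hv.le, (H933.car h).hv.lei,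
      (H933.car h).hu.mul, (H933.car h).hv.mul, (H933.car h).anti, (H933.car h).eq⟩,
    fun i => ?_⟩
  have hi : (i : ℕ) + 1 < n := by have := i.2; omega
  rw [lg, H933.gap, if_pos hi, H933.la, dif_pos (by omega), H933.la, dif_pos hi]
  rfl

end ultra

/-! ### All together -/

section all

variable {G : Type} [Group G] {k : Type} [NontriviallyNormedField k] {n : ℕ}

/-- **Gauges of matrix groups over a local field, with two-sided comparison with the Cartan
decompositions.** -/
theorem gsys_crt2 [ProperSpace k] (hk : LocK k) (hn : 0 < n) {m : G → Matrix (Fin n) (Fin n) k}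
    (hmul : ∀ g h, m (g * h) = m g * m h) (hdet : ∀ g, ‖(m g).det‖ = 1) :
    ∃ (gap : Fin (n - 1) → G → ℝ) (w : G → ℝ) (c C : ℝ), 0 < c ∧ GSys gap w ∧
      (∀ R : ℝ, ∃ R' : ℝ, ∀ g, w g ≤ R → ∀ i j, ‖m g i j‖ ≤ R') ∧
      ∀ g, ∃ a U U' V V', Crt (m g) a U U' V V' ∧
        ∀ i : Fin (n - 1), |gap i g - c * lg a i| ≤ C := by
  rcases hk with ⟨φ, h⟩ | ⟨φ, h⟩ | h
  · -- real
    have hsy : ∀ x, ‖φ.symm x‖ = ‖x‖ := fun x => by rw [← h, φ.apply_symm_apply]
    have hE : H515.EmbW fun g => (m g).map φ := by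
      refine ⟨fun a b => Or.inl ?_, fun g => ?_⟩
      · rw [hmul]
        exact Matrix.map_mul
      · have h1 := RingHom.map_det (φ : k →+* ℝ) (m g)
        have h2 : ‖((m g).map φ).det‖ = 1 := by
          have e : ((m g).map φ).det = φ (m g).det := h1.symm
          rw [e, h, hdet]
        rw [Real.norm_eq_abs] at h2
        rw [← sq_abs, h2, one_pow]
    refine ⟨_, _, 2, 0, two_pos, gsys_all hn hE, fun R => ⟨|R| + 1, fun g hg i j => ?_⟩,
      fun g => ?_⟩
    · rw [← h]
      exact H933.abs_entry_le hg i j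
    · obtain ⟨a, U, U', V, V', H, hg⟩ := crt_real2 (hE.ne g)
      refine ⟨_, _, _, _, _, H.of_map h, fun i => ?_⟩
      have e : lg (fun i => φ.symm (a i)) i = lg a i := by
        unfold lg
        rw [hsy, hsy]
      rw [e]
      exact (abs_eq_zero.2 (sub_eq_zero.2 (hg i))).le
  · -- complex
    have hsy : ∀ x, ‖φ.symm x‖ = ‖x‖ := fun x => by rw [← h, φ.apply_symm_apply]
    obtain ⟨M, hM⟩ : ∃ M : G → Matrix (Fin n) (Fin n) ℂ, M = fun g => (m g).map φ := ⟨_, rfl⟩
    have hMm : ∀ g h, M (g * h) = M g * M h := fun g h => by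
      rw [hM]
      dsimp only
      rw [hmul]
      exact Matrix.map_mul
    have hMd : ∀ g, ‖(M g).det‖ = 1 := fun g => by
      have h1 := RingHom.map_det (φ : k →+* ℂ) (m g)
      have e : (M g).det = φ (m g).det := by rw [hM]; exact h1.symm
      rw [e, h, hdet]
    obtain ⟨C, hC⟩ := crt_cplx2 n
    refine ⟨_, _, 2, C, two_pos, H933.gsys_cplx' hn hMm hMd,
      fun R => ⟨(|R| + 1) + (|R| + 1), fun g hg i j => ?_⟩, fun g => ?_⟩
    · have e : φ (m g i j) = M g i j := by rw [hM]; rfl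
      rw [← h, e]
      have h1 := H933.abs_entry_le hg (finSumFinEquiv (Sum.inl i)) (finSumFinEquiv (Sum.inl j))
      have h2 := H933.abs_entry_le hg (finSumFinEquiv (Sum.inr i)) (finSumFinEquiv (Sum.inl j))
      rw [(H933.re_im_rea _ i j).1] at h1
      rw [(H933.re_im_rea _ i j).2] at h2
      exact (Complex.norm_le_abs_re_add_abs_im _).trans (add_le_add h1 h2)
    · have hMd0 : (M g).det ≠ 0 := by
        intro h0
        have := hMd g
        rw [h0, norm_zero] at this
        exact zero_ne_one this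
      obtain ⟨a, U, U', V, V', H, hg⟩ := hC _ hMd0
      have eM : M g = (m g).map φ := by rw [hM]
      rw [eM] at H
      refine ⟨_, _, _, _, _, H.of_map h, fun i => ?_⟩
      have e : lg (fun i => φ.symm (a i)) i = lg a i := by
        unfold lg
        rw [hsy, hsy]
      rw [e]
      exact hg i
  · -- non-archimedean
    have hE : PEmb m := by
      refine ⟨fun a b => ⟨1, one_ne_zero, ?_⟩, fun g h0 => ?_⟩
      · rw [hmul, one_smul]
      · have := hdet g
        rw [h0, norm_zero] at this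
        exact zero_ne_one this
    have hP := H933.place hn hE (H515.finEmb n) (R0 := 0) fun l hl hj =>
      absurd rfl (hj ⟨l, by omega⟩)
    refine ⟨_, _, 1, 0, one_pos, place_gsys hP, fun R => ⟨R, fun g hg i j => ?_⟩, fun g => ?_⟩
    · refine (H933.entry_le_nr _ i j).trans ?_
      have e : H933.sz (m g) = H933.nr (m g) := by
        unfold H933.sz H933.nu
        rw [hdet g, Real.one_rpow, div_one]
      rw [← e]
      exact hg
    · obtain ⟨a, U, U', V, V', H, hg⟩ := crt_ultra2 (m g)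
      refine ⟨a, U, U', V, V', H, fun i => ?_⟩
      rw [one_mul]
      exact (abs_eq_zero.2 (sub_eq_zero.2 (hg i))).le

/-- **The system of gauges of a homomorphism to `SL_n` of a local field**, with two-sided
comparison with the Cartan decompositions. -/
theorem gsys_crt2_sl [ProperSpace k] (hk : LocK k) (hn : 0 < n)
    (q : G →* SpecialLinearGroup (Fin n) k) :
    ∃ (gap : Fin (n - 1) → G → ℝ) (w : G → ℝ) (c C : ℝ), 0 < c ∧ GSys gap w ∧
      (∀ R : ℝ, ∃ R' : ℝ, ∀ g, w g ≤ R → ∀ i j, ‖(q g).1 i j‖ ≤ R') ∧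
      ∀ g, ∃ a U U' V V', Crt (q g).1 a U U' V V' ∧
        ∀ i : Fin (n - 1), |gap i g - c * lg a i| ≤ C :=
  gsys_crt2 (m := fun g => (q g).1) hk hn
    (fun g h => by rw [map_mul]; exact Matrix.SpecialLinearGroup.coe_mul _ _)
    (fun g => by rw [(q g).2, norm_one])

end all

/-! ### The dual side -/

section dual

variable {k : Type} [NontriviallyNormedField k] {n : ℕ}

/-- The numbers of the inverse transpose. -/
noncomputable def da (a : Fin n → k) (i : Fin n) : k := (a i.rev)⁻¹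

/-- The opposite index of a gap. -/
def ri (i : Fin (n - 1)) : Fin (n - 1) := i.rev

theorem lg_da {a : Fin n → k} (ha : ∀ i, a i ≠ 0) (i : Fin (n - 1)) :
    lg (da a) i = lg a i.rev := by
  have hi := i.2
  have e1 : (Fin.rev ⟨(i : ℕ), by omega⟩ : Fin n) = ⟨(i.rev : ℕ) + 1, by
      have := i.rev.2; omega⟩ := by
    apply Fin.ext
    rw [Fin.val_rev]
    simp only [Fin.val_rev]
    omega
  have e2 : (Fin.rev ⟨(i : ℕ) + 1, by omega⟩ : Fin n) = ⟨(i.rev : ℕ), by
      have := i.rev.2; omega⟩ := by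
    apply Fin.ext
    rw [Fin.val_rev]
    simp only [Fin.val_rev]
    omega
  unfold lg da
  rw [e1, e2, norm_inv, norm_inv, Real.log_inv, Real.log_inv]
  ring

/-- **The dual decomposition**: if `h' h = 1` then the transpose of `h'` has the Cartan
decomposition with the numbers `(a (rev i))⁻¹`. -/
theorem crt_dual {h h' : Matrix (Fin n) (Fin n) k} {a : Fin n → k}
    {U U' V V' : Matrix (Fin n) (Fin n) k} (H : Crt h a U U' V V') (ha : ∀ i, a i ≠ 0)
    (hh : h' * h = 1) :
    Crt h'ᵀ (da a) (U'ᵀ.submatrix id Fin.rev) (Uᵀ.submatrix Fin.rev id)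
      (V'ᵀ.submatrix Fin.rev id) (Vᵀ.submatrix id Fin.rev) := by
  have hd : h.det ≠ 0 := by
    intro h0
    have e := congrArg Matrix.det hh
    rw [det_mul, h0, mul_zero, det_one] at e
    exact zero_ne_one e
  have hrev : Function.Bijective (Fin.rev : Fin n → Fin n) := Fin.rev_bijective
  have hinv := H.inv hd hh
  refine ⟨fun i j => H.hU' _ _, fun i j => H.hU _ _, fun i j => H.hV' _ _, fun i j => H.hV _ _,
    ?_, ?_, fun i j hij => ?_, ?_⟩
  · rw [← Matrix.submatrix_mul U'ᵀ Uᵀ id Fin.rev id hrev, ← Matrix.transpose_mul, H.uu,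
      Matrix.transpose_one]
    exact Matrix.submatrix_one id Function.injective_id
  · have e : V'ᵀ * Vᵀ = 1 := by rw [← Matrix.transpose_mul, H.vv, Matrix.transpose_one]
    have e2 : (V'ᵀ.submatrix Fin.rev id) * (Vᵀ.submatrix id Fin.rev) =
        (V'ᵀ * Vᵀ).submatrix Fin.rev Fin.rev := by
      rw [Matrix.submatrix_mul V'ᵀ Vᵀ Fin.rev id Fin.rev Function.bijective_id]
    rw [e2, e]
    exact Matrix.submatrix_one _ hrev.1
  · change ‖(a j.rev)⁻¹‖ ≤ ‖(a i.rev)⁻¹‖
    rw [norm_inv, norm_inv]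
    exact inv_anti₀ (norm_pos_iff.2 (ha _)) (H.anti (Fin.rev_le_rev.2 hij))
  · have e : diagonal (da a) = (diagonal fun i => (a i)⁻¹).submatrix Fin.rev Fin.rev := by
      rw [Matrix.submatrix_diagonal _ _ hrev.1]
      rfl
    rw [hinv, e, Matrix.transpose_mul, Matrix.transpose_mul, Matrix.diagonal_transpose]
    rw [← Matrix.submatrix_mul U'ᵀ _ id Fin.rev Fin.rev hrev]
    rw [← Matrix.submatrix_mul _ V'ᵀ id Fin.rev id hrev]
    rw [Matrix.submatrix_id_id, Matrix.mul_assoc]

/-- The inverse transpose, both comparisons. -/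
theorem crt_dual_gap {h h' : Matrix (Fin n) (Fin n) k} {a : Fin n → k}
    {U U' V V' : Matrix (Fin n) (Fin n) k} (H : Crt h a U U' V V') (hd : h.det ≠ 0)
    (hh : h' * h = 1) {gap : Fin (n - 1) → ℝ} {c C : ℝ}
    (hg : ∀ i : Fin (n - 1), |gap i - c * lg a i| ≤ C) :
    ∃ b W W' X X', Crt h'ᵀ b W W' X X' ∧ ∀ i : Fin (n - 1), |gap i.rev - c * lg b i| ≤ C := by
  refine ⟨_, _, _, _, _, crt_dual H (H.ne hd) hh, fun i => ?_⟩
  rw [lg_da (H.ne hd)]
  exact hg i.rev

end dual

end Vale.Agent.P092.H221.GapsC
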