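import Vale.Agent.P092.H221.GapsC
import Vale.Agent.P092.H776.NG4

/-!
P092 (helper221), Team N, [N-GAPB]: the set `{G2 A > r, G2 A⁻¹ > r}` in terms of the gaps, and the
gauges with two-sided comparison for maps which are homomorphisms modulo scalars.
-/

set_option linter.all false

open Matrix

namespace Vale.Agent.P092.H221.GapsC

open Vale.Agent.P092.H515 (GSys)
open Vale.Agent.P092.H933 (LocK BCart)
open Vale.Agent.P092.H534.GK (Crt)
open Vale.Agent.P092.H776.NG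

section bc

variable {k : Type} [NontriviallyNormedField k] {n : ℕ}

theorem bcart_of_crt {h : Matrix (Fin n) (Fin n) k} {a : Fin n → k}
    {U U' V V' : Matrix (Fin n) (Fin n) k} (H : Crt h a U U' V V') (ha : ∀ i, a i ≠ 0)
    {x : Fin (n - 1) → ℝ} {c C : ℝ} (hC : 1 ≤ C) (hx : ∀ i, |x i - c * lg a i| ≤ C) :
    BCart h x c C :=
  ⟨U, U', V, V', a, H.uu, H.vv, fun i j => ⟨(H.hU i j).trans hC, (H.hU' i j).trans hC,
    (H.hV i j).trans hC, (H.hV' i j).trans hC⟩, ha, H.anti, H.eq, hx⟩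

theorem BCart.mono {h : Matrix (Fin n) (Fin n) k} {x : Fin (n - 1) → ℝ} {c C C' : ℝ}
    (H : BCart h x c C) (hC : C ≤ C') : BCart h x c C' := by
  obtain ⟨κ, κi, κ', κi', a, h1, h2, h3, h4, h5, h6, h7⟩ := H
  exact ⟨κ, κi, κ', κi', a, h1, h2, fun i j => ⟨(h3 i j).1.trans hC, (h3 i j).2.1.trans hC,
    (h3 i j).2.2.1.trans hC, (h3 i j).2.2.2.trans hC⟩, h4, h5, h6, fun j => (h7 j).trans hC⟩

/-- **`G2` large**: a gap which is not the first one is large. -/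
theorem far_gap (hn : 2 ≤ n) {c : ℝ} (hc : 0 < c) (C R : ℝ) :
    ∃ r : ℝ, ∀ (A : Matrix (Fin n) (Fin n) k) (x : Fin (n - 1) → ℝ), ‖A.det‖ = 1 →
      BCart A x c C → r < G2 A → ∃ i : Fin (n - 1), (i : ℕ) ≠ 0 ∧ R ≤ x i := by
  obtain ⟨C', hC'⟩ : ∃ C', C' = max C 1 := ⟨_, rfl⟩
  have hC1 : 1 ≤ C' := hC' ▸ le_max_right _ _
  have hCC : C ≤ C' := hC' ▸ le_max_left _ _
  obtain ⟨K2, hK2⟩ : ∃ K2 : ℝ, K2 = ((n : ℝ) - 1) * Real.log (n * C' ^ 2) +
      Real.log (n ^ 2 * C' ^ 2) + 2 * Real.log ((n.factorial : ℝ) * C' ^ n) := ⟨_, rfl⟩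
  obtain ⟨s, hs⟩ : ∃ s : ℝ, s = max ((R + C) / c) 0 := ⟨_, rfl⟩
  have hs0 : 0 ≤ s := hs ▸ le_max_right _ _
  have hs1 : ∀ y, s < y → R + C ≤ c * y := by
    intro y hy
    have h1 : (R + C) / c ≤ y := (le_max_left _ _).trans (hs ▸ hy.le)
    rw [div_le_iff₀ hc] at h1
    linarith
  have hnR : (2 : ℝ) ≤ n := by exact_mod_cast hn
  refine ⟨((n : ℝ) - 1) * (((n : ℝ) - 1) * s) + K2, ?_⟩
  intro A x hdet hB g2
  obtain ⟨κ, κi, κ', κi', a, o1, o2, hb, ha, hanti, hA, hx⟩ := hB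
  have hdec : Dec A a C' := ⟨κ, κi, κ', κi', o1, o2, fun i j => ⟨(hb i j).1.trans hCC,
    (hb i j).2.1.trans hCC, (hb i j).2.2.1.trans hCC, (hb i j).2.2.2.trans hCC⟩, ha, hA⟩
  have hap : ∀ i, 0 < ‖a i‖ := fun i => norm_pos_iff.2 (ha i)
  -- the function of the logarithms
  obtain ⟨f, hf⟩ : ∃ f : ℕ → ℝ, f = fun i => if h : i < n then Real.log ‖a ⟨i, h⟩‖ else 0 :=
    ⟨_, rfl⟩
  have hfi : ∀ i (h : i < n), f i = Real.log ‖a ⟨i, h⟩‖ := fun i h => by
    rw [hf]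
    exact dif_pos h
  have hfa : ∀ i j, i ≤ j → j < n → f j ≤ f i := by
    intro i j hij hj
    rw [hfi i (by omega), hfi j hj]
    exact Real.log_le_log (hap _) (hanti (show (⟨i, by omega⟩ : Fin n) ≤ ⟨j, hj⟩ from hij))
  have hxj : ∀ j (hj : j + 1 < n), s < f j - f (j + 1) → R ≤ x ⟨j, by omega⟩ := by
    intro j hj h
    have h1 := hx ⟨j, by omega⟩
    have h2 := (abs_le.1 h1).1
    have h3 := hs1 _ h
    rw [hfi j (by omega), hfi (j + 1) hj] at h3
    dsimp only at h2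
    linarith
  have u2 := hdec.G2_le hC1 (by omega) hdet (p := ⟨0, by omega⟩) (l := ⟨n - 1, by omega⟩)
    (fun i => hanti (show i ≤ (⟨n - 1, by omega⟩ : Fin n) from by
      have := i.2
      change (i : ℕ) ≤ n - 1
      omega))
  rw [← hK2, ← hfi (n - 1) (by omega)] at u2
  have v2 : ∑ i ∈ Finset.univ.erase (⟨0, by omega⟩ : Fin n), (Real.log ‖a i‖ - f (n - 1)) ≤
      ((n : ℝ) - 1) * (f 1 - f (n - 1)) := by
    have h2 : ∀ i ∈ Finset.univ.erase (⟨0, by omega⟩ : Fin n),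
        Real.log ‖a i‖ - f (n - 1) ≤ f 1 - f (n - 1) := by
      intro i hi
      have h3 : (i : ℕ) ≠ 0 := fun h => (Finset.mem_erase.1 hi).1 (Fin.ext h)
      have h4 := hfa 1 i (by omega) i.2
      rw [hfi i i.2] at h4
      exact sub_le_sub_right h4 _
    refine (Finset.sum_le_sum h2).trans ?_
    rw [Finset.sum_const, Finset.card_erase_of_mem (Finset.mem_univ _), Finset.card_univ,
      Fintype.card_fin, nsmul_eq_mul, Nat.cast_sub (by omega), Nat.cast_one]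
  have v3 : ((n : ℝ) - 1) * s < f 1 - f (n - 1) := by
    have h6 : ((n : ℝ) - 1) * (((n : ℝ) - 1) * s) < ((n : ℝ) - 1) * (f 1 - f (n - 1)) := by
      linarith
    exact lt_of_mul_lt_mul_left h6 (by linarith)
  obtain ⟨j, hj1, hj2, hj3⟩ := pig f (a := 1) (b := n - 1) (by omega) (s := s) (by
    rw [Nat.cast_sub (by omega)]
    push_cast
    nlinarith)
  exact ⟨⟨j, by omega⟩, by dsimp only; omega, hxj j (by omega) hj3⟩

/-- **`G2` of the inverse large**: a gap which is not the last one is large. -/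
theorem far_gap_inv (hn : 2 ≤ n) {c : ℝ} (hc : 0 < c) (C R : ℝ) :
    ∃ r : ℝ, ∀ (A : Matrix (Fin n) (Fin n) k) (x : Fin (n - 1) → ℝ), ‖A.det‖ = 1 →
      BCart A x c C → r < G2 A⁻¹ → ∃ i : Fin (n - 1), (i : ℕ) ≠ n - 2 ∧ R ≤ x i := by
  obtain ⟨C', hC'⟩ : ∃ C', C' = max C 1 := ⟨_, rfl⟩
  have hC1 : 1 ≤ C' := hC' ▸ le_max_right _ _
  have hCC : C ≤ C' := hC' ▸ le_max_left _ _
  obtain ⟨K2, hK2⟩ : ∃ K2 : ℝ, K2 = ((n : ℝ) - 1) * Real.log (n * C' ^ 2) +
      Real.log (n ^ 2 * C' ^ 2) + 2 * Real.log ((n.factorial : ℝ) * C' ^ n) := ⟨_, rfl⟩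
  obtain ⟨s, hs⟩ : ∃ s : ℝ, s = max ((R + C) / c) 0 := ⟨_, rfl⟩
  have hs0 : 0 ≤ s := hs ▸ le_max_right _ _
  have hs1 : ∀ y, s < y → R + C ≤ c * y := by
    intro y hy
    have h1 : (R + C) / c ≤ y := (le_max_left _ _).trans (hs ▸ hy.le)
    rw [div_le_iff₀ hc] at h1
    linarith
  have hnR : (2 : ℝ) ≤ n := by exact_mod_cast hn
  refine ⟨((n : ℝ) - 1) * (((n : ℝ) - 1) * s) + K2, ?_⟩
  intro A x hdet hB g2
  obtain ⟨κ, κi, κ', κi', a, o1, o2, hb, ha, hanti, hA, hx⟩ := hB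
  have hdec : Dec A a C' := ⟨κ, κi, κ', κi', o1, o2, fun i j => ⟨(hb i j).1.trans hCC,
    (hb i j).2.1.trans hCC, (hb i j).2.2.1.trans hCC, (hb i j).2.2.2.trans hCC⟩, ha, hA⟩
  have hap : ∀ i, 0 < ‖a i‖ := fun i => norm_pos_iff.2 (ha i)
  have hdeti : ‖A⁻¹.det‖ = 1 := by
    have h1 : A⁻¹.det = (A.det)⁻¹ := by
      rw [Matrix.det_nonsing_inv, Ring.inverse_eq_inv']
    rw [h1, norm_inv, hdet, inv_one]
  -- the function of the logarithms
  obtain ⟨f, hf⟩ : ∃ f : ℕ → ℝ, f = fun i => if h : i < n then Real.log ‖a ⟨i, h⟩‖ else 0 :=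
    ⟨_, rfl⟩
  have hfi : ∀ i (h : i < n), f i = Real.log ‖a ⟨i, h⟩‖ := fun i h => by
    rw [hf]
    exact dif_pos h
  have hfa : ∀ i j, i ≤ j → j < n → f j ≤ f i := by
    intro i j hij hj
    rw [hfi i (by omega), hfi j hj]
    exact Real.log_le_log (hap _) (hanti (show (⟨i, by omega⟩ : Fin n) ≤ ⟨j, hj⟩ from hij))
  have hxj : ∀ j (hj : j + 1 < n), s < f j - f (j + 1) → R ≤ x ⟨j, by omega⟩ := by
    intro j hj h
    have h1 := hx ⟨j, by omega⟩
    have h2 := (abs_le.1 h1).1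
    have h3 := hs1 _ h
    rw [hfi j (by omega), hfi (j + 1) hj] at h3
    dsimp only at h2
    linarith
  have hinv : ∀ i, ‖(a i)⁻¹‖ = ‖a i‖⁻¹ := fun i => norm_inv _
  have u2 := hdec.inv.G2_le hC1 (by omega) hdeti (p := ⟨n - 1, by omega⟩)
    (l := ⟨0, by omega⟩) (fun i => by
      rw [hinv, hinv]
      exact inv_anti₀ (hap _) (hanti (show (⟨0, by omega⟩ : Fin n) ≤ i from Nat.zero_le _)))
  simp only [hinv, Real.log_inv] at u2
  rw [← hK2, ← hfi 0 (by omega)] at u2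
  have v2 : ∑ i ∈ Finset.univ.erase (⟨n - 1, by omega⟩ : Fin n), (-Real.log ‖a i‖ - -f 0) ≤
      ((n : ℝ) - 1) * (f 0 - f (n - 2)) := by
    have h2 : ∀ i ∈ Finset.univ.erase (⟨n - 1, by omega⟩ : Fin n),
        -Real.log ‖a i‖ - -f 0 ≤ f 0 - f (n - 2) := by
      intro i hi
      have h3 : (i : ℕ) ≠ n - 1 := fun h => (Finset.mem_erase.1 hi).1 (Fin.ext h)
      have h4 := hfa i (n - 2) (by have := i.2; omega) (by omega)
      rw [hfi i i.2] at h4
      linarith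
    refine (Finset.sum_le_sum h2).trans ?_
    rw [Finset.sum_const, Finset.card_erase_of_mem (Finset.mem_univ _), Finset.card_univ,
      Fintype.card_fin, nsmul_eq_mul, Nat.cast_sub (by omega), Nat.cast_one]
  have v3 : ((n : ℝ) - 1) * s < f 0 - f (n - 2) := by
    have h6 : ((n : ℝ) - 1) * (((n : ℝ) - 1) * s) < ((n : ℝ) - 1) * (f 0 - f (n - 2)) := by
      linarith
    exact lt_of_mul_lt_mul_left h6 (by linarith)
  obtain ⟨j, hj1, hj2, hj3⟩ := pig f (a := 0) (b := n - 2) (by omega) (s := s) (by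
    rw [Nat.cast_sub (by omega)]
    push_cast
    nlinarith)
  exact ⟨⟨j, by omega⟩, by dsimp only; omega, hxj j (by omega) hj3⟩

/-- **The set of the position row in terms of the gaps**: two large gaps, or one large gap which is
neither the first nor the last. -/
theorem pos_gap (hn : 2 ≤ n) {c : ℝ} (hc : 0 < c) (C R : ℝ) :
    ∃ r : ℝ, ∀ (A : Matrix (Fin n) (Fin n) k) (x : Fin (n - 1) → ℝ), ‖A.det‖ = 1 →
      BCart A x c C → r < G2 A → r < G2 A⁻¹ →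
      (∃ i j : Fin (n - 1), i ≠ j ∧ R ≤ x i ∧ R ≤ x j) ∨
        ∃ i : Fin (n - 1), (i : ℕ) ≠ 0 ∧ (i : ℕ) ≠ n - 2 ∧ R ≤ x i := by
  obtain ⟨r1, h1⟩ := far_gap (k := k) hn hc C R
  obtain ⟨r2, h2⟩ := far_gap_inv (k := k) hn hc C R
  refine ⟨max r1 r2, fun A x hdet hB ha hb => ?_⟩
  obtain ⟨i, hi0, hi⟩ := h1 A x hdet hB ((le_max_left _ _).trans_lt ha)
  obtain ⟨j, hj0, hj⟩ := h2 A x hdet hB ((le_max_right _ _).trans_lt hb)
  by_cases hij : i = j
  · subst hij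
    exact Or.inr ⟨i, hi0, hj0, hi⟩
  · exact Or.inl ⟨i, j, hij, hi, hj⟩

end bc

/-! ### Maps modulo scalars -/

section ph

variable {k : Type} [NontriviallyNormedField k] {n : ℕ}

theorem crt_smul {h : Matrix (Fin n) (Fin n) k} {a : Fin n → k}
    {U U' V V' : Matrix (Fin n) (Fin n) k} {z : k} (H : Crt h a U U' V V') :
    Crt (z • h) (fun i => z * a i) U U' V V' := by
  refine ⟨H.hU, H.hU', H.hV, H.hV', H.uu, H.vv, fun i j hij => ?_, ?_⟩
  · change ‖z * a j‖ ≤ ‖z * a i‖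
    rw [norm_mul, norm_mul]
    exact mul_le_mul_of_nonneg_left (H.anti hij) (norm_nonneg _)
  · have e : (diagonal fun i => z * a i) = z • diagonal a := by
      ext i j
      simp [diagonal_apply]
    rw [e, H.eq, Matrix.mul_smul, Matrix.smul_mul]

theorem lg_smul {a : Fin n → k} (ha : ∀ i, a i ≠ 0) {z : k} (hz : z ≠ 0) (i : Fin (n - 1)) :
    lg (fun i => z * a i) i = lg a i := by
  have e : ∀ i, Real.log ‖z * a i‖ = Real.log ‖z‖ + Real.log ‖a i‖ := fun i => by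
    rw [norm_mul, Real.log_mul (norm_pos_iff.2 hz).ne' (norm_ne_zero_iff.2 (ha i))]
  unfold lg
  rw [e, e]
  ring

variable {Γ : Type} [Group Γ]

/-- **Gauges of a homomorphism modulo scalars**, with Cartan decompositions and two-sided
comparison. -/
theorem gsys_crt2_ph [ProperSpace k] (hk : LocK k) (hn : 0 < n)
    (q : Γ → SpecialLinearGroup (Fin n) k)
    (hq : ∀ γ γ', ∃ c : k, (q (γ * γ')).1 = c • (q γ * q γ').1) :
    ∃ (gap : Fin (n - 1) → Γ → ℝ) (w : Γ → ℝ) (c C : ℝ), 0 < c ∧ GSys gap w ∧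
      (∀ R : ℝ, ∃ R' : ℝ, ∀ γ, w γ ≤ R → ∀ i j, ‖(q γ).1 i j‖ ≤ R') ∧
      ∀ γ, ∃ a U U' V V', Crt (q γ).1 a U U' V V' ∧
        ∀ i : Fin (n - 1), |gap i γ - c * lg a i| ≤ C := by
  classical
  obtain ⟨gap, w, c, C, hc, hs, hw, hB⟩ := gsys_crt2 (G := SpecialLinearGroup (Fin n) k)
    (m := fun g => g.1) hk hn (fun g h => rfl) (fun g => by rw [g.2, norm_one])
  have hfin : Finite (Subgroup.center (SpecialLinearGroup (Fin n) k)) := finite_ctr hn
  obtain ⟨inst⟩ := nonempty_fintype (Subgroup.center (SpecialLinearGroup (Fin n) k))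
  obtain ⟨s, hsec⟩ : ∃ s : SpecialLinearGroup (Fin n) k ⧸
      Subgroup.center (SpecialLinearGroup (Fin n) k) → SpecialLinearGroup (Fin n) k,
      ∀ x, QuotientGroup.mk' (Subgroup.center (SpecialLinearGroup (Fin n) k)) (s x) = x :=
    ⟨Quotient.out, fun x => QuotientGroup.out_eq' x⟩
  have hsys := (H387.Qt.gsys_quo hs (π := QuotientGroup.mk'
    (Subgroup.center (SpecialLinearGroup (Fin n) k))) (QuotientGroup.ker_mk' _) le_rfl s
      hsec).comap (phom hn q hq)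
  -- the representative differs by a scalar
  have hrep : ∀ γ, ∃ z : k, (q γ).1 = z • (s (phom hn q hq γ)).1 := fun γ => by
    have h1 := hsec (phom hn q hq γ)
    have h2 : (QuotientGroup.mk (s (phom hn q hq γ)) : SpecialLinearGroup (Fin n) k ⧸
      Subgroup.center (SpecialLinearGroup (Fin n) k)) = QuotientGroup.mk (q γ) := h1
    exact scal_of_mem _ _ (QuotientGroup.eq.1 h2)
  refine ⟨_, _, c, C, hc, hsys, fun R => ?_, fun γ => ?_⟩
  · obtain ⟨R', hR'⟩ := hw R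
    refine ⟨R', fun γ hγ i j => ?_⟩
    obtain ⟨z, hz⟩ := hrep γ
    have h1 : w (s (phom hn q hq γ)) ≤ R := by
      refine le_trans ?_ hγ
      have := Finset.single_le_sum (f := fun z : Subgroup.center (SpecialLinearGroup (Fin n) k) =>
        w (s (phom hn q hq γ) * z)) (fun z _ => (hs.pos _).le)
        (Finset.mem_univ (1 : Subgroup.center (SpecialLinearGroup (Fin n) k)))
      simpa using this
    rw [hz, Matrix.smul_apply, norm_smul, scal_norm hn _ _ hz, one_mul]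
    exact hR' _ h1 i j
  · obtain ⟨z, hz⟩ := hrep γ
    obtain ⟨a, U, U', V, V', H, hg⟩ := hB (s (phom hn q hq γ))
    have hd : (s (phom hn q hq γ)).1.det ≠ 0 := by
      rw [(s (phom hn q hq γ)).2]
      exact one_ne_zero
    refine ⟨_, _, _, _, _, by rw [hz]; exact crt_smul H, fun i => ?_⟩
    rw [lg_smul (H.ne hd) (scal_ne hn _ _ hz)]
    exact hg i

end ph

end Vale.Agent.P092.H221.GapsC
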