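import Vale.Agent.P092.PA.Defs
import Vale.Agent.P092.H156.Tr
import Mathlib.MeasureTheory.Integral.Prod
import Mathlib.MeasureTheory.Measure.Haar.Basic

/-!
P092 (helper221), block [A-CS]: equality in the Cauchy–Schwarz inequality for the pairing
`Θ(a,b) = ∫∫ ⟪a x (b y ω), b y (a x ω)⟫` of two families of operators forces `a x b y = b y a x`.
-/

set_option linter.all false

open MeasureTheory Filter Topology ContinuousLinearMap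
open scoped InnerProductSpace ENNReal

namespace Vale.Agent.P092.H221

section plain

variable {G₁ G₂ K : Type*} [TopologicalSpace G₁] [TopologicalSpace G₂]
  [SecondCountableTopology G₁] [SecondCountableTopology G₂]
  [MeasurableSpace G₁] [MeasurableSpace G₂] [BorelSpace G₁] [BorelSpace G₂]
  [NormedAddCommGroup K] [InnerProductSpace ℂ K]
  {μ₁ : Measure G₁} {μ₂ : Measure G₂} [SFinite μ₁] [SFinite μ₂]
  {a : G₁ → (K →L[ℂ] K)} {b : G₂ → (K →L[ℂ] K)} {ω : K}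

theorem cont_ab (ha : Continuous a) (hb : Continuous b) :
    Continuous fun z : G₁ × G₂ => a z.1 (b z.2 ω) :=
  (ha.comp continuous_fst).clm_apply ((hb.comp continuous_snd).clm_apply continuous_const)

theorem cont_ba (ha : Continuous a) (hb : Continuous b) :
    Continuous fun z : G₁ × G₂ => b z.2 (a z.1 ω) :=
  (hb.comp continuous_snd).clm_apply ((ha.comp continuous_fst).clm_apply continuous_const)

theorem lint_ab {A B : ℝ≥0∞} (hac : Continuous a) (hbc : Continuous b)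
    (ha : ∀ ζ, ∫⁻ x, ‖a x ζ‖ₑ ^ 2 ∂μ₁ = A * ‖ζ‖ₑ ^ 2)
    (hb : ∫⁻ y, ‖b y ω‖ₑ ^ 2 ∂μ₂ = B) :
    ∫⁻ z, ‖a z.1 (b z.2 ω)‖ₑ ^ 2 ∂(μ₁.prod μ₂) = A * B := by
  have hm : Measurable fun z : G₁ × G₂ => ‖a z.1 (b z.2 ω)‖ₑ ^ 2 :=
    (cont_ab hac hbc).enorm.measurable.pow_const 2
  rw [lintegral_prod_symm' _ hm]
  have h1 : ∀ y, ∫⁻ x, ‖a x (b y ω)‖ₑ ^ 2 ∂μ₁ = A * ‖b y ω‖ₑ ^ 2 := fun y => ha _
  simp only [h1]
  rw [lintegral_const_mul _ ((hbc.clm_apply continuous_const).enorm.measurable.pow_const 2), hb]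

theorem lint_ba {A B : ℝ≥0∞} (hac : Continuous a) (hbc : Continuous b)
    (ha : ∫⁻ x, ‖a x ω‖ₑ ^ 2 ∂μ₁ = A)
    (hb : ∀ ζ, ∫⁻ y, ‖b y ζ‖ₑ ^ 2 ∂μ₂ = B * ‖ζ‖ₑ ^ 2) :
    ∫⁻ z, ‖b z.2 (a z.1 ω)‖ₑ ^ 2 ∂(μ₁.prod μ₂) = A * B := by
  have hm : Measurable fun z : G₁ × G₂ => ‖b z.2 (a z.1 ω)‖ₑ ^ 2 :=
    (cont_ba hac hbc).enorm.measurable.pow_const 2
  rw [lintegral_prod _ hm.aemeasurable]
  have h1 : ∀ x, ∫⁻ y, ‖b y (a x ω)‖ₑ ^ 2 ∂μ₂ = B * ‖a x ω‖ₑ ^ 2 := fun y => hb _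
  simp only [h1]
  rw [lintegral_const_mul _ ((hac.clm_apply continuous_const).enorm.measurable.pow_const 2), ha, mul_comm]

theorem memLp_two_of_lint {X : Type*} [MeasurableSpace X] {μ : Measure X} {u : X → K}
    (hu : AEStronglyMeasurable u μ) {C : ℝ≥0∞} (hC : C ≠ ∞) (h : ∫⁻ x, ‖u x‖ₑ ^ 2 ∂μ = C) :
    MemLp u 2 μ := by
  refine ⟨hu, ?_⟩
  rw [eLpNorm_lt_top_iff_lintegral_rpow_enorm_lt_top two_ne_zero ENNReal.ofNat_ne_top]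
  simp only [ENNReal.toReal_ofNat, ENNReal.rpow_ofNat]
  rw [h]
  exact hC.lt_top

theorem integral_norm_sq_of_lint {X : Type*} [MeasurableSpace X] {μ : Measure X} {u : X → K}
    (hu : AEStronglyMeasurable u μ) {C : ℝ≥0∞} (h : ∫⁻ x, ‖u x‖ₑ ^ 2 ∂μ = C) :
    ∫ x, ‖u x‖ ^ 2 ∂μ = C.toReal := by
  have hm : AEStronglyMeasurable (fun x => ‖u x‖ ^ 2) μ := hu.norm.pow 2
  rw [integral_eq_lintegral_of_nonneg_ae (Eventually.of_forall fun x => by positivity) hm, ← h]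
  congr 1
  refine lintegral_congr fun x => ?_
  rw [ENNReal.ofReal_pow (norm_nonneg _), ofReal_norm_eq_enorm]

/-- The pairing is integrable on the product, bounded, and close to its bound when the two vectors
are close. -/
theorem pairing {A B : ℝ≥0∞}
    (hA : A ≠ ∞) (hB : B ≠ ∞) (hac : Continuous a) (hbc : Continuous b)
    (ha : ∀ ζ, ∫⁻ x, ‖a x ζ‖ₑ ^ 2 ∂μ₁ = A * ‖ζ‖ₑ ^ 2)
    (hb : ∀ ζ, ∫⁻ y, ‖b y ζ‖ₑ ^ 2 ∂μ₂ = B * ‖ζ‖ₑ ^ 2) (hω : ‖ω‖ = 1) :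
    Integrable (fun z : G₁ × G₂ => ⟪a z.1 (b z.2 ω), b z.2 (a z.1 ω)⟫_ℂ) (μ₁.prod μ₂) ∧
    ‖∫ x, ∫ y, ⟪a x (b y ω), b y (a x ω)⟫_ℂ ∂μ₂ ∂μ₁‖ ≤ A.toReal * B.toReal ∧
    Integrable (fun z : G₁ × G₂ => ‖a z.1 (b z.2 ω) - b z.2 (a z.1 ω)‖ ^ 2) (μ₁.prod μ₂) ∧
    ∫ z : G₁ × G₂, ‖a z.1 (b z.2 ω) - b z.2 (a z.1 ω)‖ ^ 2 ∂(μ₁.prod μ₂) =
      2 * (A.toReal * B.toReal) -
        2 * (∫ x, ∫ y, ⟪a x (b y ω), b y (a x ω)⟫_ℂ ∂μ₂ ∂μ₁).re := by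
  have hωe : ‖ω‖ₑ ^ 2 = 1 := by
    rw [← ofReal_norm_eq_enorm, hω]; simp
  have ha1 : ∫⁻ x, ‖a x ω‖ₑ ^ 2 ∂μ₁ = A := by rw [ha, hωe, mul_one]
  have hb1 : ∫⁻ x, ‖b x ω‖ₑ ^ 2 ∂μ₂ = B := by rw [hb, hωe, mul_one]
  set u : G₁ × G₂ → K := fun z => a z.1 (b z.2 ω) with hu
  set v : G₁ × G₂ → K := fun z => b z.2 (a z.1 ω) with hv
  have cu : Continuous u := cont_ab hac hbc
  have cv : Continuous v := cont_ba hac hbc
  have mu : AEStronglyMeasurable u (μ₁.prod μ₂) := cu.stronglyMeasurable.aestronglyMeasurable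
  have mv : AEStronglyMeasurable v (μ₁.prod μ₂) := cv.stronglyMeasurable.aestronglyMeasurable
  have hAB : A * B ≠ ∞ := ENNReal.mul_ne_top hA hB
  have lu := lint_ab (μ₁ := μ₁) (μ₂ := μ₂) hac hbc ha hb1
  have lv := lint_ba (μ₁ := μ₁) (μ₂ := μ₂) hac hbc ha1 hb
  have Lu : MemLp u 2 (μ₁.prod μ₂) := memLp_two_of_lint mu hAB lu
  have Lv : MemLp v 2 (μ₁.prod μ₂) := memLp_two_of_lint mv hAB lv
  have iu := integral_norm_sq_of_lint mu lu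
  have iv := integral_norm_sq_of_lint mv lv
  have i1 : Integrable (fun z => ‖u z‖ ^ 2) (μ₁.prod μ₂) := Lu.integrable_norm_pow two_ne_zero
  have i2 : Integrable (fun z => ‖v z‖ ^ 2) (μ₁.prod μ₂) := Lv.integrable_norm_pow two_ne_zero
  have hbd : ∀ z, ‖⟪u z, v z⟫_ℂ‖ ≤ (‖u z‖ ^ 2 + ‖v z‖ ^ 2) / 2 := fun z => by
    refine (norm_inner_le_norm _ _).trans ?_
    nlinarith [sq_nonneg (‖u z‖ - ‖v z‖), norm_nonneg (u z), norm_nonneg (v z)]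
  have i6 : Integrable (fun z => (‖u z‖ ^ 2 + ‖v z‖ ^ 2) / 2) (μ₁.prod μ₂) :=
    (i1.add i2).div_const 2
  have hint : Integrable (fun z => ⟪u z, v z⟫_ℂ) (μ₁.prod μ₂) :=
    i6.mono' (mu.inner mv) (Eventually.of_forall hbd)
  have hfub : ∫ z, ⟪u z, v z⟫_ℂ ∂(μ₁.prod μ₂) = ∫ x, ∫ y, ⟪a x (b y ω), b y (a x ω)⟫_ℂ ∂μ₂ ∂μ₁ :=
    integral_prod _ hint
  have i4 : Integrable (fun z => ‖u z - v z‖ ^ 2) (μ₁.prod μ₂) :=
    (Lu.sub Lv).integrable_norm_pow two_ne_zero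
  refine ⟨hint, ?_, i4, ?_⟩
  · rw [← hfub]
    refine (norm_integral_le_integral_norm _).trans ((integral_mono hint.norm i6 hbd).trans ?_)
    rw [integral_div, integral_add i1 i2, iu, iv, ENNReal.toReal_mul]
    linarith
  · have e : ∀ z, ‖u z - v z‖ ^ 2 = ‖u z‖ ^ 2 - 2 * (⟪u z, v z⟫_ℂ).re + ‖v z‖ ^ 2 := fun z => by
      have := norm_sub_sq (𝕜 := ℂ) (u z) (v z)
      simpa using this
    change ∫ z, ‖u z - v z‖ ^ 2 ∂(μ₁.prod μ₂) = _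
    simp only [e]
    have i3 : Integrable (fun z => 2 * (⟪u z, v z⟫_ℂ).re) (μ₁.prod μ₂) := hint.re.const_mul 2
    have i5 : Integrable (fun z => ‖u z‖ ^ 2 - 2 * (⟪u z, v z⟫_ℂ).re) (μ₁.prod μ₂) := i1.sub i3
    rw [integral_add i5 i2, integral_sub i1 i3, iu, iv, integral_const_mul]
    have e3 : ∫ z, (⟪u z, v z⟫_ℂ).re ∂(μ₁.prod μ₂) = (∫ z, ⟪u z, v z⟫_ℂ ∂(μ₁.prod μ₂)).re :=
      integral_re hint
    rw [e3, hfub, ENNReal.toReal_mul]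
    ring

/-- Equality in the Cauchy–Schwarz inequality. -/
theorem eq_of_re {A B : ℝ≥0∞} [μ₁.IsOpenPosMeasure] [μ₂.IsOpenPosMeasure]
    (hA : A ≠ ∞) (hB : B ≠ ∞) (hac : Continuous a) (hbc : Continuous b)
    (ha : ∀ ζ, ∫⁻ x, ‖a x ζ‖ₑ ^ 2 ∂μ₁ = A * ‖ζ‖ₑ ^ 2)
    (hb : ∀ ζ, ∫⁻ y, ‖b y ζ‖ₑ ^ 2 ∂μ₂ = B * ‖ζ‖ₑ ^ 2) (hω : ‖ω‖ = 1)
    (hre : A.toReal * B.toReal ≤ (∫ x, ∫ y, ⟪a x (b y ω), b y (a x ω)⟫_ℂ ∂μ₂ ∂μ₁).re) :
    ∀ x y, a x (b y ω) = b y (a x ω) := by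
  obtain ⟨_, _, i4, e⟩ := pairing (μ₁ := μ₁) (μ₂ := μ₂) hA hB hac hbc ha hb hω
  have h1 : (fun z : G₁ × G₂ => ‖a z.1 (b z.2 ω) - b z.2 (a z.1 ω)‖ ^ 2) =ᵐ[μ₁.prod μ₂] 0 := by
    refine (integral_eq_zero_iff_of_nonneg (fun z => by positivity) i4).mp (le_antisymm ?_ ?_)
    · rw [e]; linarith
    · exact integral_nonneg fun z => by positivity
  have h2 : (fun z : G₁ × G₂ => ‖a z.1 (b z.2 ω) - b z.2 (a z.1 ω)‖ ^ 2) = 0 := by
    refine (Continuous.ae_eq_iff_eq (μ₁.prod μ₂)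
      (((cont_ab hac hbc).sub (cont_ba hac hbc)).norm.pow 2) continuous_const).mp ?_
    exact h1
  intro x y
  have h3 := congrFun h2 (x, y)
  simp only [Pi.zero_apply, ne_eq, OfNat.ofNat_ne_zero, not_false_eq_true, pow_eq_zero_iff,
    norm_eq_zero] at h3
  exact sub_eq_zero.mp h3

end plain

/-! ### In the interface `PA` -/

open Vale.Agent.P092.PA Vale.Agent.P092.H156
open Vale.Agent.P092.H160 (RegRep mul_ap)

section pa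

variable {Γ Λ K : Type} [Group Γ] [Group Λ] [NormedAddCommGroup K] [InnerProductSpace ℂ K]
  [CompleteSpace K] {D : Pic Γ Λ K}

/-- The square integrals of a field at all vectors, in the form used above. -/
theorem lint_of_F1 {G H : Type} [Group G] [TopologicalSpace G] [Group H] [TopologicalSpace H]
    [MeasurableSpace G] {p : Γ →* G} {q : Λ →* H} {μ : Measure G} (h1 : F1 D p q μ)
    {a : G → (K →L[ℂ] K)} (ha : PA.Smo D p q μ a) (ζ : K) :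
    ∫⁻ x, ‖a x ζ‖ₑ ^ 2 ∂μ = ENNReal.ofReal (Sm.ip D.Ω μ a a).re * ‖ζ‖ₑ ^ 2 := by
  obtain ⟨hL, he⟩ := h1 a a ha ha ζ ζ
  have hi : Integrable (fun x => ‖a x ζ‖ ^ 2) μ := hL.integrable_norm_pow two_ne_zero
  have h2 : ∫ x, ‖a x ζ‖ ^ 2 ∂μ = (Sm.ip D.Ω μ a a).re * ‖ζ‖ ^ 2 := by
    have h3 := congrArg Complex.re he
    have hint : Integrable (fun x => ⟪a x ζ, a x ζ⟫_ℂ) μ := by
      refine hi.mono' (hL.1.inner hL.1) (Eventually.of_forall fun x => ?_)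
      rw [sq]
      exact norm_inner_le_norm _ _
    have h4 : (∫ x, ⟪a x ζ, a x ζ⟫_ℂ ∂μ).re = ∫ x, (⟪a x ζ, a x ζ⟫_ℂ).re ∂μ :=
      (integral_re hint).symm
    rw [h4] at h3
    have h5 : ∀ w : K, (⟪w, w⟫_ℂ).re = ‖w‖ ^ 2 := fun w => by
      have := inner_self_eq_norm_sq (𝕜 := ℂ) w
      simpa using this
    have h6 : (⟪ζ, ζ⟫_ℂ).im = 0 := by
      have := inner_self_im (𝕜 := ℂ) ζ
      simpa using this
    simp only [h5] at h3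
    rw [h3, Complex.mul_re, h5, h6, mul_zero, sub_zero]
  have h3 : ∫⁻ x, ‖a x ζ‖ₑ ^ 2 ∂μ = ENNReal.ofReal (∫ x, ‖a x ζ‖ ^ 2 ∂μ) := by
    rw [ofReal_integral_eq_lintegral_ofReal hi (Eventually.of_forall fun x => by positivity)]
    refine lintegral_congr fun x => ?_
    rw [ENNReal.ofReal_pow (norm_nonneg _), ofReal_norm_eq_enorm]
  rw [h3, h2, ENNReal.ofReal_mul' (by positivity), ENNReal.ofReal_pow (norm_nonneg _),
    ofReal_norm_eq_enorm]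

theorem ip_self_nonneg {G : Type} [MeasurableSpace G] {μ : Measure G} (a : G → (K →L[ℂ] K)) :
    0 ≤ (Sm.ip D.Ω μ a a).re := by
  unfold Sm.ip
  by_cases hint : Integrable (fun x => ⟪a x D.Ω, a x D.Ω⟫_ℂ) μ
  · have h4 : (∫ x, ⟪a x D.Ω, a x D.Ω⟫_ℂ ∂μ).re = ∫ x, (⟪a x D.Ω, a x D.Ω⟫_ℂ).re ∂μ :=
      (integral_re hint).symm
    rw [h4]
    refine integral_nonneg fun x => ?_
    have := inner_self_nonneg (𝕜 := ℂ) (x := a x D.Ω)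
    simpa using this
  · rw [integral_undef hint]; simp

variable {G₁ G₂ H₁ H₂ : Type} [Group G₁] [TopologicalSpace G₁] [IsTopologicalGroup G₁]
  [MeasurableSpace G₁] [BorelSpace G₁] [SecondCountableTopology G₁]
  [Group G₂] [TopologicalSpace G₂] [IsTopologicalGroup G₂] [MeasurableSpace G₂] [BorelSpace G₂]
  [SecondCountableTopology G₂]
  [Group H₁] [TopologicalSpace H₁] [Group H₂] [TopologicalSpace H₂] [IsTopologicalGroup H₂]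
  {p₁ : Γ →* G₁} {p₂ : Γ →* G₂} {q₁ : Λ →* H₁} {q₂ : Λ →* H₂}
  {μ₁ : Measure G₁} {μ₂ : Measure G₂} [SFinite μ₁] [SFinite μ₂]
  {a : G₁ → (K →L[ℂ] K)} {b : G₂ → (K →L[ℂ] K)}

/-- The Cauchy–Schwarz bound for the pairing. -/
theorem norm_pairing_le (hF1 : F1 D p₁ q₁ μ₁) (hF2 : F1 D p₂ q₂ μ₂) (ha : PA.Smo D p₁ q₁ μ₁ a)
    (hb : PA.Smo D p₂ q₂ μ₂ b) :
    ‖∫ x, ∫ y, ⟪a x (b y D.Ω), b y (a x D.Ω)⟫_ℂ ∂μ₂ ∂μ₁‖ ≤
      (Sm.ip D.Ω μ₁ a a).re * (Sm.ip D.Ω μ₂ b b).re := by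
  have h := (pairing (μ₁ := μ₁) (μ₂ := μ₂) (ω := D.Ω) ENNReal.ofReal_ne_top ENNReal.ofReal_ne_top
    ha.continuous hb.continuous (lint_of_F1 hF1 ha) (lint_of_F1 hF2 hb) D.hρ.norm_one).2.1
  rwa [ENNReal.toReal_ofReal (ip_self_nonneg a), ENNReal.toReal_ofReal (ip_self_nonneg b)] at h

/-- Fields which commute on `Ω` at all places commute. -/
theorem comm_of_omega {a : G₁ → (K →L[ℂ] K)} {b : G₂ → (K →L[ℂ] K)} (ha : Sm.Fd p₁ D.ρ a)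
    (hb : Sm.Fd p₂ D.ρ b) (h : ∀ x y, a x (b y D.Ω) = b y (a x D.Ω)) (x : G₁) (y : G₂) :
    a x * b y = b y * a x := by
  have key : ∀ {G : Type} [Group G] {p : Γ →* G} {c : G → (K →L[ℂ] K)},
      (∀ g x, c (p g * x) = D.ρ g * c x * D.ρ g⁻¹) →
      ∀ (g : Γ) (z : G) (w : K), c z (D.ρ g w) = D.ρ g (c (p g⁻¹ * z) w) := by
    intro G _ p c hc g z w
    rw [hc]
    simp only [inv_inv, mul_ap]
    rw [D.hρ.apply_inv]
  refine D.hρ.ext_op fun g => ?_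
  rw [mul_ap, mul_ap, key hb.equiv, key ha.equiv, key ha.equiv, key hb.equiv, h]

/-- [CS]: if the pairing attains its bound, `a` and `b` commute. -/
theorem comm_of_re [μ₁.IsOpenPosMeasure] [μ₂.IsOpenPosMeasure] (hF1 : F1 D p₁ q₁ μ₁)
    (hF2 : F1 D p₂ q₂ μ₂) (ha : PA.Smo D p₁ q₁ μ₁ a) (hb : PA.Smo D p₂ q₂ μ₂ b)
    (hre : (Sm.ip D.Ω μ₁ a a).re * (Sm.ip D.Ω μ₂ b b).re ≤
      (∫ x, ∫ y, ⟪a x (b y D.Ω), b y (a x D.Ω)⟫_ℂ ∂μ₂ ∂μ₁).re) (x : G₁) (y : G₂) :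
    a x * b y = b y * a x := by
  refine comm_of_omega ha.toFd hb.toFd ?_ x y
  refine eq_of_re (μ₁ := μ₁) (μ₂ := μ₂) ENNReal.ofReal_ne_top ENNReal.ofReal_ne_top
    ha.continuous hb.continuous (lint_of_F1 hF1 ha) (lint_of_F1 hF2 hb)
    D.hρ.norm_one ?_
  rw [ENNReal.toReal_ofReal (ip_self_nonneg a), ENNReal.toReal_ofReal (ip_self_nonneg b)]
  exact hre

/-- [A-CS]: two families `α h`, `β h` (`h` in `E`, e.g. `E = H₁ × H₂`) of smooth fields of constant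
norms whose pairings `T h` have average at least the Cauchy–Schwarz bound commute, for each `h`. -/
theorem comm_of_average [μ₁.IsOpenPosMeasure] [μ₂.IsOpenPosMeasure] (hF1 : F1 D p₁ q₁ μ₁)
    (hF2 : F1 D p₂ q₂ μ₂) {E : Type} [Group E] [TopologicalSpace E] [MeasurableSpace E]
    [BorelSpace E] {q : Λ →* E} {m : Measure E} (hm : Lat q m)
    {α : E → G₁ → (K →L[ℂ] K)} {β : E → G₂ → (K →L[ℂ] K)} {A B : ℝ}
    (hα : ∀ h, PA.Smo D p₁ q₁ μ₁ (α h)) (hβ : ∀ h, PA.Smo D p₂ q₂ μ₂ (β h))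
    (hA : ∀ h, (Sm.ip D.Ω μ₁ (α h) (α h)).re = A) (hB : ∀ h, (Sm.ip D.Ω μ₂ (β h) (β h)).re = B)
    {T : E → ℂ}
    (hT : ∀ h, T h = ∫ x, ∫ y, ⟪α h x (β h y D.Ω), β h y (α h x D.Ω)⟫_ℂ ∂μ₂ ∂μ₁)
    (hc : Continuous T) (hinv : ∀ v h, T (q v * h) = T h)
    (havg : A * B ≤ (∫ h, T h ∂m).re) (h : E) (x : G₁) (y : G₂) :
    α h x * β h y = β h y * α h x := by
  haveI := hm.prob
  have hbd : ∀ h, ‖T h‖ ≤ A * B := fun h => by
    have h1 := norm_pairing_le hF1 hF2 (hα h) (hβ h)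
    rwa [hA, hB, ← hT] at h1
  have hint : Integrable (fun h => T h) m :=
    (integrable_const (A * B)).mono' hc.aestronglyMeasurable (Eventually.of_forall hbd)
  have hF := hm.faith (fun h => A * B - (T h).re)
    (continuous_const.sub (Complex.continuous_re.comp hc)) ⟨2 * (A * B), fun h => ?_⟩
    (fun h => ?_) (fun v h => ?_) ?_ h
  · refine comm_of_re hF1 hF2 (hα h) (hβ h) ?_ x y
    rw [hA, hB, ← hT]
    linarith
  · have h1 := (Complex.abs_re_le_norm _).trans (hbd h)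
    have h2 := (abs_le.mp h1).1
    linarith
  · have h1 := (Complex.abs_re_le_norm _).trans (hbd h)
    have h2 := (abs_le.mp h1).2
    linarith
  · simp only [hinv]
  · have e1 : ∫ h, (T h).re ∂m = (∫ h, T h ∂m).re := integral_re hint
    have i7 : Integrable (fun h => (T h).re) m := hint.re
    rw [integral_sub (integrable_const _) i7, e1]
    have h3 : (∫ h, T h ∂m).re ≤ A * B := by
      refine (Complex.re_le_norm _).trans ((norm_integral_le_of_norm_le_const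
        (Eventually.of_forall hbd)).trans ?_)
      simp
    simp only [integral_const, probReal_univ, smul_eq_mul, one_mul]
    linarith

theorem smo_adj [Countable Γ] [μ₂.IsMulLeftInvariant] (hb : PA.Smo D p₂ q₂ μ₂ b) :
    PA.Smo D p₂ q₂ μ₂ (fun y => adjoint (b y)) where
  toFd := hb.toFd.adj D.hρ
  acont := hb.acont.adj D.frm
  l2 := Sm.L2.adj D.hρ hb.toFd hb.l2

theorem ip_adj_self [Countable Γ] [μ₂.IsMulLeftInvariant] (hb : PA.Smo D p₂ q₂ μ₂ b) :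
    Sm.ip D.Ω μ₂ (fun y => adjoint (b y)) (fun y => adjoint (b y)) = Sm.ip D.Ω μ₂ b b :=
  Sm.ip_adj D.hρ hb.toFd hb.toFd hb.l2 hb.l2

/-- [A-CS] in the form of helper76's pairing
`Th a b a' b' = ∫∫ ⟪(b' y)* (a' x Ω), a x ((b y)* Ω)⟫` at `a' = a`, `b' = b`. -/
theorem comm_of_average' [Countable Γ] [μ₂.IsMulLeftInvariant] [μ₁.IsOpenPosMeasure]
    [μ₂.IsOpenPosMeasure] (hF1 : F1 D p₁ q₁ μ₁)
    (hF2 : F1 D p₂ q₂ μ₂) {E : Type} [Group E] [TopologicalSpace E] [MeasurableSpace E]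
    [BorelSpace E] {q : Λ →* E} {m : Measure E} (hm : Lat q m)
    {α : E → G₁ → (K →L[ℂ] K)} {β : E → G₂ → (K →L[ℂ] K)} {A B : ℝ}
    (hα : ∀ h, PA.Smo D p₁ q₁ μ₁ (α h)) (hβ : ∀ h, PA.Smo D p₂ q₂ μ₂ (β h))
    (hA : ∀ h, (Sm.ip D.Ω μ₁ (α h) (α h)).re = A) (hB : ∀ h, (Sm.ip D.Ω μ₂ (β h) (β h)).re = B)
    {T : E → ℂ}
    (hT : ∀ h, T h =
      ∫ x, ∫ y, ⟪adjoint (β h y) (α h x D.Ω), α h x (adjoint (β h y) D.Ω)⟫_ℂ ∂μ₂ ∂μ₁)
    (hc : Continuous T) (hinv : ∀ v h, T (q v * h) = T h)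
    (havg : A * B ≤ (∫ h, T h ∂m).re) (h : E) (x : G₁) (y : G₂) :
    α h x * adjoint (β h y) = adjoint (β h y) * α h x := by
  have hT' : ∀ h, (starRingEnd ℂ) (T h) =
      ∫ x, ∫ y, ⟪α h x (adjoint (β h y) D.Ω), adjoint (β h y) (α h x D.Ω)⟫_ℂ ∂μ₂ ∂μ₁ := fun h => by
    rw [hT, ← integral_conj]
    congr 1
    funext x
    rw [← integral_conj]
    congr 1
    funext y
    exact inner_conj_symm _ _
  refine comm_of_average (α := α) (β := fun h y => adjoint (β h y)) (B := B) hF1 hF2 hm hα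
    (fun h => smo_adj (hβ h)) hA (fun h => ?_) hT' (Complex.continuous_conj.comp hc) (fun v h => ?_)
    ?_ h x y
  · rw [ip_adj_self (hβ h), hB]
  · rw [hinv]
  · rw [integral_conj, Complex.conj_re]
    exact havg

end pa

end Vale.Agent.P092.H221
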