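import Vale.Agent.P092.H221.GapsP

/-!
P092 (helper221), Team N, [N-GAPB], products: the system of gauges of a jointly proper family of
homomorphisms modulo scalars (`H776.NG.gsys_fam`) together with the two-sided comparison of the gaps
of every coordinate with Cartan decompositions.
-/

set_option linter.all false

open Matrix

namespace Vale.Agent.P092.H221.GapsC

open Vale.Agent.P092.H515 (GSys)
open Vale.Agent.P092.H933 (LocK BCart)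
open Vale.Agent.P092.H534.GK (Crt)
open Vale.Agent.P092.H776.NG

variable {Γ I : Type} [Group Γ] [Fintype I] [Nonempty I] {n : I → ℕ} {k : I → Type}
  [∀ i, NontriviallyNormedField (k i)] [∀ i, ProperSpace (k i)]

/-- **Gauges of a jointly proper family of homomorphisms modulo scalars**, with Cartan
decompositions and two-sided comparison of the gaps for every coordinate. -/
theorem gsys_crt2_fam (hk : ∀ i, LocK (k i)) (hn : ∀ i, 2 ≤ n i)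
    (q : ∀ i, Γ → SpecialLinearGroup (Fin (n i)) (k i))
    (hq : ∀ i, ∀ γ γ', ∃ c : k i, (q i (γ * γ')).1 = c • (q i γ * q i γ').1)
    (disc : ∀ C : ℝ, {γ : Γ | ∀ i, nmx (q i γ).1 ≤ C}.Finite) :
    ∃ (gap : (Σ i, Fin (n i - 1)) → Γ → ℝ) (w : Γ → ℝ), GSys gap w ∧
      (∀ R : ℝ, {γ | w γ ≤ R}.Finite) ∧
      (∀ i (r : ℝ), ∃ r' : ℝ, ∀ γ, r' < G1 (q i γ).1 → r' < G2 (q i γ).1 → γ ∈ Bg gap r) ∧
      (∀ i (r : ℝ), ∃ r' : ℝ, ∀ γ, r' < G1 ((q i γ).1)⁻¹ → r' < G2 ((q i γ).1)⁻¹ →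
        γ ∈ Bg gap r) ∧
      (∀ i j, i ≠ j → ∀ r : ℝ, ∃ r' : ℝ, ∀ γ, r' < nmx (q i γ).1 → r' < nmx (q j γ).1 →
        γ ∈ Bg gap r) ∧
      (∀ i, ∃ c C : ℝ, 0 < c ∧ ∀ γ, ∃ a U U' V V', Crt (q i γ).1 a U U' V V' ∧
        ∀ j : Fin (n i - 1), |gap ⟨i, j⟩ γ - c * lg a j| ≤ C) ∧
      (∀ i (R : ℝ), ∃ R' : ℝ, ∀ γ, (∀ j : Fin (n i - 1), gap ⟨i, j⟩ γ ≤ R) →
        nmx (q i γ).1 ≤ R') := by
  have hn0 : ∀ i, 0 < n i := fun i => by have := hn i; omega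
  choose gap w c C hc hs hw hB using fun i => gsys_crt2_ph (hk i) (hn0 i) (q i) (hq i)
  have hB' : ∀ i γ, BCart (q i γ).1 (fun j => gap i j γ) (c i) (max (C i) 1) := by
    intro i γ
    obtain ⟨a, U, U', V, V', H, hx⟩ := hB i γ
    have hd : (q i γ).1.det ≠ 0 := by
      rw [(q i γ).2]
      exact one_ne_zero
    exact bcart_of_crt H (H.ne hd) (le_max_right _ _) fun j => (hx j).trans (le_max_left _ _)
  have two : ∀ i (r : ℝ), ∃ r' : ℝ, ∀ γ, (r' < G1 (q i γ).1 ∧ r' < G2 (q i γ).1) ∨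
      (r' < G1 ((q i γ).1)⁻¹ ∧ r' < G2 ((q i γ).1)⁻¹) →
      γ ∈ Bg (fun (j : Σ i, Fin (n i - 1)) g => gap j.1 j.2 g) r := by
    intro i r
    obtain ⟨r', hr'⟩ := two_gaps (k := k i) (hn i) (hc i) (max (C i) 1) (r + 1)
    refine ⟨r', fun γ hγ => ?_⟩
    obtain ⟨a, b, hab, h1, h2⟩ := hr' (q i γ).1 (fun j => gap i j γ)
      (by rw [(q i γ).2, norm_one]) (hB' i γ) hγ
    refine ⟨⟨i, a⟩, ⟨i, b⟩, fun h => hab ?_, ?_, ?_⟩
    · exact eq_of_heq (Sigma.mk.inj_iff.1 h).2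
    · exact lt_of_lt_of_le (lt_add_one r) h1
    · exact lt_of_lt_of_le (lt_add_one r) h2
  have bd : ∀ i (R : ℝ), ∃ R' : ℝ, 0 ≤ R' ∧ ∀ γ, (∀ j, gap i j γ ≤ R) → nmx (q i γ).1 ≤ R' := by
    intro i r
    obtain ⟨R1, h1⟩ := (hs i).bdd r
    obtain ⟨R2, h2⟩ := hw i R1
    exact ⟨max R2 0, le_max_right _ _, fun γ hγ => nmx_le (le_max_right _ _) fun a b =>
      (h2 γ (h1 γ hγ) a b).trans (le_max_left _ _)⟩
  have one : ∀ i (r : ℝ), ∃ r' : ℝ, ∀ γ, r' < nmx (q i γ).1 → ∃ a, r < gap i a γ := by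
    intro i r
    obtain ⟨R', -, h⟩ := bd i r
    refine ⟨R', fun γ hγ => ?_⟩
    by_contra hc
    push Not at hc
    exact absurd (h γ hc) (not_le.2 hγ)
  refine ⟨fun j g => gap j.1 j.2 g, _, GSys.pi hs,
    H515.fin_sum (fun i => (hs i).pos) fun R => ?_, fun i r => ?_, fun i r => ?_,
    fun i j hij r => ?_, fun i => ⟨c i, C i, hc i, hB i⟩, fun i R => ?_⟩
  · choose R' hR' using fun i => hw i R
    refine (disc (∑ i, |R' i|)).subset fun γ hγ i => ?_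
    refine nmx_le (Finset.sum_nonneg fun i _ => abs_nonneg _) fun a b => ?_
    exact ((hR' i γ (hγ i) a b).trans (le_abs_self _)).trans
      (Finset.single_le_sum (f := fun i => |R' i|) (fun i _ => abs_nonneg _) (Finset.mem_univ i))
  · obtain ⟨r', hr'⟩ := two i r
    exact ⟨r', fun γ h1 h2 => hr' γ (Or.inl ⟨h1, h2⟩)⟩
  · obtain ⟨r', hr'⟩ := two i r
    exact ⟨r', fun γ h1 h2 => hr' γ (Or.inr ⟨h1, h2⟩)⟩
  · obtain ⟨r1, h1⟩ := one i r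
    obtain ⟨r2, h2⟩ := one j r
    refine ⟨max r1 r2, fun γ a1 a2 => ?_⟩
    obtain ⟨a, ha⟩ := h1 γ ((le_max_left _ _).trans_lt a1)
    obtain ⟨b, hb⟩ := h2 γ ((le_max_right _ _).trans_lt a2)
    exact ⟨⟨i, a⟩, ⟨j, b⟩, fun h => hij (Sigma.mk.inj_iff.1 h).1, ha, hb⟩
  · obtain ⟨R', -, h⟩ := bd i R
    exact ⟨R', h⟩

end Vale.Agent.P092.H221.GapsC
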