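import Mathlib.Analysis.InnerProductSpace.Adjoint
import Mathlib.Analysis.InnerProductSpace.StarOrder
import Mathlib.Tactic.NoncommRing

/-!
P092 (helper221), team D, block [D-GL]: the growth lemma, abstract form.

`π` is a unitary representation of `H`, `M` a `*`-algebra with trace vector `Ω`, `F J` the vectors
of size at most `J`.  If a finite mean of conjugations by elements which commute with `a` is close
to the trace, then the vectors `π (a ^ 2 ^ k) Ω` have size at most `C * 6 ^ k` up to a small error.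
-/

set_option linter.all false

open ContinuousLinearMap
open scoped InnerProductSpace

namespace Vale.Agent.P092.H221.Gr

section op

variable {K : Type*} [NormedAddCommGroup K] [InnerProductSpace ℂ K] [CompleteSpace K]

/-- The Newton step `(3/2) x - (1/2) x x* x`. -/
noncomputable def nw (x : K →L[ℂ] K) : K →L[ℂ] K :=
  ((3 : ℂ) / 2) • x - ((1 : ℂ) / 2) • (x * star x * x)

theorem star_nw_mul (x : K →L[ℂ] K) :
    star (nw x) * nw x =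
      1 - (1 - star x * x) * (1 - ((1 : ℂ) / 4) • (star x * x)) * (1 - star x * x) := by
  have e1 : star (nw x) = ((3 : ℂ) / 2) • star x - ((1 : ℂ) / 2) • (star x * x * star x) := by
    rw [nw, star_sub, star_smul, star_smul, star_mul, star_mul, star_star, mul_assoc]
    simp
  rw [e1, nw]
  simp only [mul_sub, sub_mul, smul_mul_assoc, mul_smul_comm, smul_sub, smul_smul, mul_one,
    one_mul, mul_assoc]
  module

theorem norm_star_mul_apply_le {x : K →L[ℂ] K} (hx : ‖x‖ ≤ 1) (ξ : K) :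
    ‖(star x * x) ξ‖ ≤ ‖ξ‖ := by
  have h1 : ‖star x * x‖ ≤ 1 := by
    rw [CStarRing.norm_star_mul_self]
    nlinarith [norm_nonneg x]
  refine ((star x * x).le_opNorm ξ).trans ?_
  exact mul_le_of_le_one_left (norm_nonneg _) h1

theorem norm_nw_le {x : K →L[ℂ] K} (hx : ‖x‖ ≤ 1) : ‖nw x‖ ≤ 1 := by
  refine ContinuousLinearMap.opNorm_le_bound _ zero_le_one fun ξ => ?_
  rw [one_mul]
  set a := star x * x with ha
  set η := (1 - a) ξ with hη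
  have hsa : adjoint a = a := by
    rw [← star_eq_adjoint, ha, star_mul, star_star]
  have h1 : ⟪nw x ξ, nw x ξ⟫_ℂ = ⟪ξ, ξ⟫_ℂ - ⟪η, η - ((1 : ℂ) / 4) • a η⟫_ℂ := by
    have h2 : ⟪nw x ξ, nw x ξ⟫_ℂ = ⟪ξ, (star (nw x) * nw x) ξ⟫_ℂ := by
      rw [ContinuousLinearMap.mul_apply, star_eq_adjoint, adjoint_inner_right]
    rw [h2, star_nw_mul, ← ha]
    have h3 : (1 - (1 - a) * (1 - ((1 : ℂ) / 4) • a) * (1 - a)) ξ =
        ξ - (1 - a) (η - ((1 : ℂ) / 4) • a η) := by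
      have h31 : ((1 - a) * (1 - ((1 : ℂ) / 4) • a) * (1 - a)) ξ =
          (1 - a) ((1 - ((1 : ℂ) / 4) • a) η) := by
        rw [mul_assoc, ContinuousLinearMap.mul_apply, ContinuousLinearMap.mul_apply, ← hη]
      have h32 : (1 - ((1 : ℂ) / 4) • a) η = η - ((1 : ℂ) / 4) • a η := by
        rw [sub_apply, one_apply_eq_self, smul_apply]
      rw [sub_apply, one_apply_eq_self, h31, h32]
    rw [h3, inner_sub_right]
    congr 1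
    have h4 : adjoint (1 - a) = 1 - a := by
      rw [map_sub, hsa, ← star_eq_adjoint, star_one]
    rw [← h4, adjoint_inner_right, ← hη]
  have h5 : ‖nw x ξ‖ ^ 2 = ‖ξ‖ ^ 2 - (‖η‖ ^ 2 - ((1 : ℝ) / 4) * (⟪η, a η⟫_ℂ).re) := by
    have h6 := congrArg Complex.re h1
    have h7 : ∀ w : K, (⟪w, w⟫_ℂ).re = ‖w‖ ^ 2 := fun w => by
      have := inner_self_eq_norm_sq (𝕜 := ℂ) w
      simpa using this
    rw [inner_sub_right, inner_smul_right, Complex.sub_re, Complex.sub_re, h7, h7, h7] at h6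
    rw [h6]
    have h8 : ((1 : ℂ) / 4 * ⟪η, a η⟫_ℂ).re = 1 / 4 * (⟪η, a η⟫_ℂ).re := by
      rw [Complex.mul_re]
      norm_num
    rw [h8]
  have h9 : (⟪η, a η⟫_ℂ).re ≤ ‖η‖ ^ 2 := by
    refine (Complex.re_le_norm _).trans ((norm_inner_le_norm _ _).trans ?_)
    rw [sq]
    exact mul_le_mul_of_nonneg_left (norm_star_mul_apply_le hx η) (norm_nonneg _)
  have h10 : ‖nw x ξ‖ ^ 2 ≤ ‖ξ‖ ^ 2 := by nlinarith [sq_nonneg ‖η‖]
  exact le_of_pow_le_pow_left₀ two_ne_zero (norm_nonneg _) h10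

end op

/-! ### The data -/

section data

variable {K : Type*} [NormedAddCommGroup K] [InnerProductSpace ℂ K] [CompleteSpace K]
  {H : Type*} [Group H]

/-- The data of the growth lemma. -/
structure GrD (π : H →* (K →L[ℂ] K)) (M : StarSubalgebra ℂ (K →L[ℂ] K)) (Ω : K)
    (F : ℕ → Submodule ℂ K) : Prop where
  adj : ∀ h, adjoint (π h) = π h⁻¹
  Ad : ∀ h, ∀ x ∈ M, π h * x * π h⁻¹ ∈ M
  one : ‖Ω‖ = 1
  tr : ∀ x ∈ M, ∀ y ∈ M, ⟪Ω, (x * y) Ω⟫_ℂ = ⟪Ω, (y * x) Ω⟫_ℂ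
  inv : ∀ h, ∀ x ∈ M, ⟪Ω, (π h * x * π h⁻¹) Ω⟫_ℂ = ⟪Ω, x Ω⟫_ℂ
  un : ∀ h, ∃ u ∈ M, star u * u = 1 ∧ u * star u = 1 ∧ u Ω = π h Ω
  mono : Monotone F
  sh : ∀ h, ∀ Z ∈ M, ∀ z' ∈ M, ∀ J J', Z (π h Ω) ∈ F J → z' Ω ∈ F J' →
    Z (π h (z' Ω)) ∈ F (J + J')
  st : ∀ z ∈ M, ∀ J, z Ω ∈ F J → (star z) Ω ∈ F J

/-- The contractions `Z` of `M` such that `Z π(h) Ω` has size at most `J`. -/
def CC (π : H →* (K →L[ℂ] K)) (M : StarSubalgebra ℂ (K →L[ℂ] K)) (Ω : K)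
    (F : ℕ → Submodule ℂ K) (J : ℕ) (h : H) : Set (K →L[ℂ] K) :=
  {Z | Z ∈ M ∧ ‖Z‖ ≤ 1 ∧ Z (π h Ω) ∈ F J}

variable {π : H →* (K →L[ℂ] K)} {M : StarSubalgebra ℂ (K →L[ℂ] K)} {Ω : K}
  {F : ℕ → Submodule ℂ K}

namespace GrD

variable (D : GrD π M Ω F)

include D

theorem pi_mul_inv (h : H) : π h * π h⁻¹ = 1 := by rw [← map_mul, mul_inv_cancel, map_one]

theorem pi_inv_mul (h : H) : π h⁻¹ * π h = 1 := by rw [← map_mul, inv_mul_cancel, map_one]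

theorem norm_pi (h : H) (ξ : K) : ‖π h ξ‖ = ‖ξ‖ := by
  have h1 : ⟪π h ξ, π h ξ⟫_ℂ = ⟪ξ, ξ⟫_ℂ := by
    rw [← adjoint_inner_right, D.adj, ← ContinuousLinearMap.mul_apply, D.pi_inv_mul,
      one_apply_eq_self]
  rw [inner_self_eq_norm_sq_to_K, inner_self_eq_norm_sq_to_K] at h1
  have h2 : ‖π h ξ‖ ^ 2 = ‖ξ‖ ^ 2 := by exact_mod_cast h1
  exact (pow_left_inj₀ (norm_nonneg _) (norm_nonneg _) two_ne_zero).mp h2

theorem norm_pi_le (h : H) : ‖π h‖ ≤ 1 :=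
  ContinuousLinearMap.opNorm_le_bound _ zero_le_one fun ξ => by rw [D.norm_pi, one_mul]

theorem norm_Ad_le (h : H) (x : K →L[ℂ] K) : ‖π h * x * π h⁻¹‖ ≤ ‖x‖ := by
  calc ‖π h * x * π h⁻¹‖ ≤ ‖π h‖ * ‖x‖ * ‖π h⁻¹‖ :=
        (norm_mul_le _ _).trans (by gcongr; exact norm_mul_le _ _)
    _ ≤ 1 * ‖x‖ * 1 := by
        gcongr
        · exact D.norm_pi_le h
        · exact D.norm_pi_le _
    _ = ‖x‖ := by ring

/-- The two norm is the same for the adjoint. -/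
theorem norm_star {x : K →L[ℂ] K} (hx : x ∈ M) : ‖(star x) Ω‖ = ‖x Ω‖ := by
  have h1 : ⟪(star x) Ω, (star x) Ω⟫_ℂ = ⟪x Ω, x Ω⟫_ℂ := by
    have e1 : ⟪(star x) Ω, (star x) Ω⟫_ℂ = ⟪Ω, (x * star x) Ω⟫_ℂ := by
      rw [star_eq_adjoint, adjoint_inner_left, ContinuousLinearMap.mul_apply]
    have e2 : ⟪x Ω, x Ω⟫_ℂ = ⟪Ω, (star x * x) Ω⟫_ℂ := by
      rw [ContinuousLinearMap.mul_apply, star_eq_adjoint, adjoint_inner_right]
    rw [e1, e2, D.tr x hx (star x) (star_mem hx)]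
  rw [inner_self_eq_norm_sq_to_K, inner_self_eq_norm_sq_to_K] at h1
  have h2 : ‖(star x) Ω‖ ^ 2 = ‖x Ω‖ ^ 2 := by exact_mod_cast h1
  exact (pow_left_inj₀ (norm_nonneg _) (norm_nonneg _) two_ne_zero).mp h2

/-- `‖x y Ω‖ ≤ ‖x Ω‖ ‖y‖`. -/
theorem norm_mul_le_right {x y : K →L[ℂ] K} (hx : x ∈ M) (hy : y ∈ M) :
    ‖(x * y) Ω‖ ≤ ‖x Ω‖ * ‖y‖ := by
  rw [← D.norm_star (mul_mem hx hy), star_mul, ContinuousLinearMap.mul_apply]
  refine ((star y).le_opNorm _).trans ?_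
  rw [_root_.norm_star, D.norm_star hx, mul_comm]

theorem norm_mul_le_left (x y : K →L[ℂ] K) : ‖(x * y) Ω‖ ≤ ‖x‖ * ‖y Ω‖ := by
  rw [ContinuousLinearMap.mul_apply]
  exact x.le_opNorm _

/-- The two norm is invariant. -/
theorem norm_Ad {x : K →L[ℂ] K} (hx : x ∈ M) (h : H) : ‖(π h * x * π h⁻¹) Ω‖ = ‖x Ω‖ := by
  have h1 : ⟪(π h * x * π h⁻¹) Ω, (π h * x * π h⁻¹) Ω⟫_ℂ = ⟪x Ω, x Ω⟫_ℂ := by
    have e1 : ⟪(π h * x * π h⁻¹) Ω, (π h * x * π h⁻¹) Ω⟫_ℂ =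
        ⟪Ω, (π h * (star x * x) * π h⁻¹) Ω⟫_ℂ := by
      rw [← adjoint_inner_right, ← star_eq_adjoint, ← ContinuousLinearMap.mul_apply]
      congr 2
      rw [star_mul, star_mul, star_eq_adjoint (π h⁻¹), D.adj, inv_inv, star_eq_adjoint (π h),
        D.adj]
      calc π h * (star x * π h⁻¹) * (π h * x * π h⁻¹)
          = π h * star x * (π h⁻¹ * π h) * x * π h⁻¹ := by simp only [mul_assoc]
        _ = _ := by rw [D.pi_inv_mul, mul_one]; simp only [mul_assoc]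
    have e2 : ⟪x Ω, x Ω⟫_ℂ = ⟪Ω, (star x * x) Ω⟫_ℂ := by
      rw [ContinuousLinearMap.mul_apply, star_eq_adjoint, adjoint_inner_right]
    rw [e1, e2, D.inv h _ (mul_mem (star_mem hx) hx)]
  rw [inner_self_eq_norm_sq_to_K, inner_self_eq_norm_sq_to_K] at h1
  have h2 : ‖(π h * x * π h⁻¹) Ω‖ ^ 2 = ‖x Ω‖ ^ 2 := by exact_mod_cast h1
  exact (pow_left_inj₀ (norm_nonneg _) (norm_nonneg _) two_ne_zero).mp h2

/-! ### The sets `CC` -/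

theorem cc_mono {J J' : ℕ} (hJ : J ≤ J') {h : H} {Z : K →L[ℂ] K} (hZ : Z ∈ CC π M Ω F J h) :
    Z ∈ CC π M Ω F J' h := ⟨hZ.1, hZ.2.1, D.mono hJ hZ.2.2⟩

theorem cc_mul {J J' : ℕ} {h h' : H} {Z Z' : K →L[ℂ] K} (hZ : Z ∈ CC π M Ω F J h)
    (hZ' : Z' ∈ CC π M Ω F J' h') : Z * (π h * Z' * π h⁻¹) ∈ CC π M Ω F (J + J') (h * h') := by
  refine ⟨mul_mem hZ.1 (D.Ad h Z' hZ'.1), ?_, ?_⟩
  · refine (norm_mul_le _ _).trans ?_
    exact mul_le_one₀ hZ.2.1 (norm_nonneg _) ((D.norm_Ad_le h Z').trans hZ'.2.1)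
  · obtain ⟨u, hu, hu1, hu2, hu3⟩ := D.un h'
    have e1 : (Z * (π h * Z' * π h⁻¹)) (π (h * h') Ω) = Z (π h ((Z' * u) Ω)) := by
      simp only [ContinuousLinearMap.mul_apply]
      rw [← ContinuousLinearMap.mul_apply (π h⁻¹), ← map_mul, inv_mul_cancel_left, ← hu3]
    rw [e1]
    refine D.sh h Z hZ.1 (Z' * u) (mul_mem hZ'.1 hu) J J' hZ.2.2 ?_
    rw [ContinuousLinearMap.mul_apply, hu3]
    exact hZ'.2.2

theorem cc_smul {J : ℕ} {h : H} {Z : K →L[ℂ] K} (hZ : Z ∈ CC π M Ω F J h) {c : ℂ}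
    (hc : ‖c‖ ≤ 1) : c • Z ∈ CC π M Ω F J h := by
  refine ⟨M.smul_mem hZ.1 c, ?_, ?_⟩
  · rw [norm_smul]
    exact mul_le_one₀ hc (norm_nonneg _) hZ.2.1
  · rw [smul_apply]
    exact Submodule.smul_mem _ _ hZ.2.2

theorem cc_mean {J : ℕ} {h : H} {ι : Type*} [Fintype ι] [Nonempty ι] {Z : ι → K →L[ℂ] K}
    (hZ : ∀ i, Z i ∈ CC π M Ω F J h) :
    ((Fintype.card ι : ℂ)⁻¹) • ∑ i, Z i ∈ CC π M Ω F J h := by
  have hc : (0 : ℝ) < Fintype.card ι := by exact_mod_cast Fintype.card_pos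
  refine ⟨M.smul_mem (sum_mem fun i _ => (hZ i).1) _, ?_, ?_⟩
  · rw [norm_smul, norm_inv, Complex.norm_natCast]
    rw [inv_mul_le_iff₀ hc, mul_one]
    refine (norm_sum_le _ _).trans ?_
    refine (Finset.sum_le_sum fun i _ => (hZ i).2.1).trans ?_
    simp
  · rw [smul_apply, sum_apply]
    exact Submodule.smul_mem _ _ (Submodule.sum_mem _ fun i _ => (hZ i).2.2)

theorem mul_F {J J' : ℕ} {z z' : K →L[ℂ] K} (hz : z ∈ M) (hz' : z' ∈ M) (h1 : z Ω ∈ F J)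
    (h2 : z' Ω ∈ F J') : (z * z') Ω ∈ F (J + J') := by
  have h3 := D.sh 1 z hz z' hz' J J' (by rw [map_one]; exact h1) h2
  rw [map_one] at h3
  exact h3

theorem cc_nw {J : ℕ} {h : H} {Z : K →L[ℂ] K} (hZ : Z ∈ CC π M Ω F J h) :
    nw Z ∈ CC π M Ω F (3 * J) h := by
  refine ⟨?_, norm_nw_le hZ.2.1, ?_⟩
  · exact sub_mem (M.smul_mem hZ.1 _) (M.smul_mem (mul_mem (mul_mem hZ.1 (star_mem hZ.1)) hZ.1) _)
  · obtain ⟨u, hu, hu1, hu2, hu3⟩ := D.un h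
    set z := Z * u with hz
    have hzM : z ∈ M := mul_mem hZ.1 hu
    have hzF : z Ω ∈ F J := by
      rw [hz, ContinuousLinearMap.mul_apply, hu3]; exact hZ.2.2
    have e1 : nw Z (π h Ω) = ((3 : ℂ) / 2) • z Ω - ((1 : ℂ) / 2) • (z * (star z * z)) Ω := by
      have e2 : z * (star z * z) = Z * star Z * Z * u := by
        rw [hz, star_mul]
        calc Z * u * (star u * star Z * (Z * u)) = Z * (u * star u) * star Z * Z * u := by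
              simp only [mul_assoc]
          _ = _ := by rw [hu2, mul_one]
      rw [e2, ← hu3, nw]
      simp only [sub_apply, smul_apply, ContinuousLinearMap.mul_apply, hz]
    rw [e1]
    refine Submodule.sub_mem _ (Submodule.smul_mem _ _ (D.mono (by omega) hzF))
      (Submodule.smul_mem _ _ ?_)
    have h4 := D.mul_F hzM (mul_mem (star_mem hzM) hzM) hzF
      (D.mul_F (star_mem hzM) hzM (D.st z hzM J hzF) hzF)
    exact D.mono (by omega) h4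

/-! ### Lipschitz estimates -/

theorem norm_sub_one {x : K →L[ℂ] K} (hx : ‖x‖ ≤ 1) :
    ‖(x - 1) Ω‖ ^ 2 ≤ 2 - 2 * (⟪Ω, x Ω⟫_ℂ).re := by
  have h1 : (x - 1) Ω = x Ω - Ω := by rw [sub_apply, one_apply_eq_self]
  rw [h1, norm_sub_sq (𝕜 := ℂ), D.one]
  have h2 : ‖x Ω‖ ≤ 1 := by
    refine (x.le_opNorm _).trans ?_
    rw [D.one, mul_one]; exact hx
  have h3 : RCLike.re ⟪x Ω, Ω⟫_ℂ = (⟪Ω, x Ω⟫_ℂ).re := by
    rw [← inner_conj_symm, RCLike.conj_re]; rfl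
  rw [h3]
  nlinarith [norm_nonneg (x Ω)]

/-- The Newton step is Lipschitz near a scalar. -/
theorem norm_nw_sub {x : K →L[ℂ] K} (hx : x ∈ M) (hx1 : ‖x‖ ≤ 1) {s : ℝ} (hs0 : 0 ≤ s)
    (hs1 : s ≤ 1) :
    ‖(nw x - ((3 / 2 * s - 1 / 2 * s ^ 3 : ℝ) : ℂ) • (1 : K →L[ℂ] K)) Ω‖ ≤
      3 * ‖(x - (s : ℂ) • (1 : K →L[ℂ] K)) Ω‖ := by
  set S : K →L[ℂ] K := (s : ℂ) • (1 : K →L[ℂ] K) with hS
  have hSM : S ∈ M := M.smul_mem (one_mem _) _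
  have hSn : ‖S‖ ≤ 1 := by
    refine ContinuousLinearMap.opNorm_le_bound _ zero_le_one fun ξ => ?_
    rw [hS, smul_apply, one_apply_eq_self, norm_smul, Complex.norm_real, Real.norm_of_nonneg hs0]
    exact mul_le_mul_of_nonneg_right hs1 (norm_nonneg _)
  have hSs : star S = S := by
    rw [hS, star_smul, star_one]
    simp
  have hd : x - S ∈ M := sub_mem hx hSM
  have e1 : nw x - ((3 / 2 * s - 1 / 2 * s ^ 3 : ℝ) : ℂ) • (1 : K →L[ℂ] K) =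
      ((3 : ℂ) / 2) • (x - S) - ((1 : ℂ) / 2) • (x * star x * (x - S) + x * star (x - S) * S +
        (x - S) * S * S) := by
    rw [nw, star_sub, hSs]
    have e2 : S * S * S = ((s ^ 3 : ℝ) : ℂ) • (1 : K →L[ℂ] K) := by
      rw [hS]
      simp only [smul_mul_assoc, mul_smul_comm, one_mul, mul_one, smul_smul]
      congr 1
      push_cast
      ring
    have e3 : ((3 / 2 * s - 1 / 2 * s ^ 3 : ℝ) : ℂ) • (1 : K →L[ℂ] K) =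
        ((3 : ℂ) / 2) • S - ((1 : ℂ) / 2) • (S * S * S) := by
      rw [e2, hS, smul_smul, smul_smul, ← sub_smul]
      congr 1
      push_cast
      ring
    rw [e3]
    simp only [mul_sub, sub_mul, mul_assoc]
    module
  rw [e1]
  have n0 := norm_nonneg ((x - S) Ω)
  have n1 : ‖(x * star x * (x - S)) Ω‖ ≤ ‖(x - S) Ω‖ := by
    refine (D.norm_mul_le_left _ _).trans (mul_le_of_le_one_left n0 ?_)
    refine (norm_mul_le _ _).trans (mul_le_one₀ hx1 (norm_nonneg _) ?_)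
    rwa [_root_.norm_star]
  have n2 : ‖(x * star (x - S) * S) Ω‖ ≤ ‖(x - S) Ω‖ := by
    refine (D.norm_mul_le_right (mul_mem hx (star_mem hd)) hSM).trans ?_
    refine (mul_le_of_le_one_right (norm_nonneg _) hSn).trans ?_
    refine (D.norm_mul_le_left _ _).trans ?_
    rw [D.norm_star hd]
    exact mul_le_of_le_one_left n0 hx1
  have n3 : ‖((x - S) * S * S) Ω‖ ≤ ‖(x - S) Ω‖ := by
    refine (D.norm_mul_le_right (mul_mem hd hSM) hSM).trans ?_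
    refine (mul_le_of_le_one_right (norm_nonneg _) hSn).trans ?_
    refine (D.norm_mul_le_right hd hSM).trans ?_
    exact mul_le_of_le_one_right (norm_nonneg _) hSn
  rw [sub_apply, smul_apply, smul_apply, add_apply, add_apply]
  refine (norm_sub_le _ _).trans ?_
  rw [norm_smul, norm_smul]
  have n4 := norm_add₃_le (a := (x * star x * (x - S)) Ω) (b := (x * star (x - S) * S) Ω)
    (c := ((x - S) * S * S) Ω)
  have c1 : ‖(3 : ℂ) / 2‖ = 3 / 2 := by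
    rw [norm_div]; simp
  have c2 : ‖(1 : ℂ) / 2‖ = 1 / 2 := by
    rw [norm_div]; simp
  rw [c1, c2]
  linarith

/-! ### The growth lemma -/

theorem norm_sub_scalar_mul {x y : K →L[ℂ] K} (hx : x ∈ M) (hy : y ∈ M) (hy1 : ‖y‖ ≤ 1) {t : ℝ}
    (ht0 : 0 ≤ t) (ht1 : t ≤ 1) {r : ℝ}
    (h1 : ‖(x - (t : ℂ) • (1 : K →L[ℂ] K)) Ω‖ ≤ r) (h2 : ‖(y - (t : ℂ) • (1 : K →L[ℂ] K)) Ω‖ ≤ r) :
    ‖(x * y - ((t ^ 2 : ℝ) : ℂ) • (1 : K →L[ℂ] K)) Ω‖ ≤ 2 * r := by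
  have hSM : (t : ℂ) • (1 : K →L[ℂ] K) ∈ M := M.smul_mem (one_mem _) _
  have e1 : x * y - ((t ^ 2 : ℝ) : ℂ) • (1 : K →L[ℂ] K) =
      (x - (t : ℂ) • (1 : K →L[ℂ] K)) * y + (t : ℂ) • (y - (t : ℂ) • (1 : K →L[ℂ] K)) := by
    rw [sub_mul, smul_mul_assoc, one_mul, smul_sub, smul_smul]
    have : ((t ^ 2 : ℝ) : ℂ) = (t : ℂ) * (t : ℂ) := by push_cast; ring
    rw [this]
    abel
  rw [e1, add_apply, smul_apply]
  refine (norm_add_le _ _).trans ?_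
  have n1 : ‖((x - (t : ℂ) • (1 : K →L[ℂ] K)) * y) Ω‖ ≤ r := by
    refine (D.norm_mul_le_right (sub_mem hx hSM) hy).trans ?_
    exact (mul_le_of_le_one_right (norm_nonneg _) hy1).trans h1
  have n2 : ‖(t : ℂ) • (y - (t : ℂ) • (1 : K →L[ℂ] K)) Ω‖ ≤ r := by
    rw [norm_smul, Complex.norm_real, Real.norm_of_nonneg ht0]
    exact (mul_le_of_le_one_left (norm_nonneg _) ht1).trans h2
  linarith

theorem norm_trace_le {x : K →L[ℂ] K} (hx : ‖x‖ ≤ 1) : ‖⟪Ω, x Ω⟫_ℂ‖ ≤ 1 := by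
  refine (norm_inner_le_norm _ _).trans ?_
  rw [D.one, one_mul]
  refine (x.le_opNorm _).trans ?_
  rw [D.one, mul_one]; exact hx

/-- One doubling. -/
theorem double {b : H} {ι : Type*} [Fintype ι] [Nonempty ι] {l : ι → H}
    (hl : ∀ i, Commute (l i) b) {δ η ε : ℝ} (hδ0 : 0 ≤ δ) (hδ : δ ≤ 1 / 12)
    (hη : η + 2 * ε ≤ δ / 12)
    (gap : ∀ x ∈ M, ‖x‖ ≤ 1 → ‖(((Fintype.card ι : ℂ)⁻¹) • ∑ i, π (l i) * x * π (l i)⁻¹) Ω -
      ⟪Ω, x Ω⟫_ℂ • Ω‖ ≤ η)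
    {J₀ : ℕ} (hK : ∀ i, ∃ Z ∈ CC π M Ω F J₀ (l i), ‖(Z - 1) Ω‖ ≤ ε)
    (hK' : ∀ i, ∃ Z ∈ CC π M Ω F J₀ (l i)⁻¹, ‖(Z - 1) Ω‖ ≤ ε)
    {J : ℕ} {Z : K →L[ℂ] K} (hZ : Z ∈ CC π M Ω F J b) (hZ1 : 1 - δ ≤ (⟪Ω, Z Ω⟫_ℂ).re) :
    ∃ Y ∈ CC π M Ω F (6 * J + 12 * J₀) (b * b), 1 - δ ≤ (⟪Ω, Y Ω⟫_ℂ).re := by
  classical
  have hcard : (0 : ℝ) < Fintype.card ι := by exact_mod_cast Fintype.card_pos
  have hcard' : (Fintype.card ι : ℂ) ≠ 0 := by exact_mod_cast Fintype.card_ne_zero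
  -- rotate the phase
  set τ := ⟪Ω, Z Ω⟫_ℂ with hτ
  set t : ℝ := ‖τ‖ with ht
  have ht1 : t ≤ 1 := D.norm_trace_le hZ.2.1
  have htδ : 1 - δ ≤ t := hZ1.trans (Complex.re_le_norm _)
  have ht0 : 0 < t := by linarith
  have hc : ‖(starRingEnd ℂ) τ / (t : ℂ)‖ ≤ 1 := by
    rw [norm_div, RCLike.norm_conj, Complex.norm_real, Real.norm_of_nonneg ht0.le, ← ht,
      div_self ht0.ne']
  set Z₁ := ((starRingEnd ℂ) τ / (t : ℂ)) • Z with hZ₁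
  have hZ₁m : Z₁ ∈ CC π M Ω F J b := D.cc_smul hZ hc
  have hτ1 : ⟪Ω, Z₁ Ω⟫_ℂ = (t : ℂ) := by
    rw [hZ₁, smul_apply, inner_smul_right, ← hτ]
    have h1 : (starRingEnd ℂ) τ * τ = ((t : ℂ)) ^ 2 := by
      rw [mul_comm, Complex.mul_conj, Complex.normSq_eq_norm_sq, ← ht]
      push_cast
      rfl
    have h2 : (t : ℂ) ≠ 0 := by exact_mod_cast ht0.ne'
    rw [div_mul_eq_mul_div, h1]
    field_simp
  -- conjugate
  choose A hA hA1 using hK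
  choose B hB hB1 using hK'
  set W : ι → K →L[ℂ] K := fun i => A i * (π (l i) * (Z₁ * (π b * B i * π b⁻¹)) * π (l i)⁻¹)
    with hW
  have hWc : ∀ i, W i ∈ CC π M Ω F (J + 2 * J₀) b := fun i => by
    have h1 := D.cc_mul (hA i) (D.cc_mul hZ₁m (hB i))
    have h2 : l i * (b * (l i)⁻¹) = b := by
      rw [← mul_assoc, (hl i).eq, mul_inv_cancel_right]
    rw [h2] at h1
    exact D.cc_mono (by omega) h1
  have hWn : ∀ i, ‖(W i - π (l i) * Z₁ * π (l i)⁻¹) Ω‖ ≤ 2 * ε := fun i => by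
    have hb1 : π b * (1 : K →L[ℂ] K) * π b⁻¹ = 1 := by rw [mul_one, D.pi_mul_inv]
    have e1 : W i - π (l i) * Z₁ * π (l i)⁻¹ =
        (A i - 1) * (π (l i) * (Z₁ * (π b * B i * π b⁻¹)) * π (l i)⁻¹) +
          π (l i) * (Z₁ * (π b * (B i - 1) * π b⁻¹)) * π (l i)⁻¹ := by
      rw [hW]
      simp only [mul_sub, sub_mul]
      rw [hb1]
      simp only [mul_one, one_mul]
      abel
    have hB1M : B i - 1 ∈ M := sub_mem (hB i).1 (one_mem _)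
    rw [e1, add_apply]
    refine (norm_add_le _ _).trans ?_
    have m1 : π b * B i * π b⁻¹ ∈ M := D.Ad _ _ (hB i).1
    have m2 : π (l i) * (Z₁ * (π b * B i * π b⁻¹)) * π (l i)⁻¹ ∈ M :=
      D.Ad _ _ (mul_mem hZ₁m.1 m1)
    have c1 : ‖π (l i) * (Z₁ * (π b * B i * π b⁻¹)) * π (l i)⁻¹‖ ≤ 1 := by
      refine (D.norm_Ad_le _ _).trans ((norm_mul_le _ _).trans ?_)
      exact mul_le_one₀ hZ₁m.2.1 (norm_nonneg _) ((D.norm_Ad_le _ _).trans (hB i).2.1)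
    have n1 : ‖((A i - 1) * (π (l i) * (Z₁ * (π b * B i * π b⁻¹)) * π (l i)⁻¹)) Ω‖ ≤ ε := by
      refine (D.norm_mul_le_right (sub_mem (hA i).1 (one_mem _)) m2).trans ?_
      exact (mul_le_of_le_one_right (norm_nonneg _) c1).trans (hA1 i)
    have n2 : ‖(π (l i) * (Z₁ * (π b * (B i - 1) * π b⁻¹)) * π (l i)⁻¹) Ω‖ ≤ ε := by
      rw [D.norm_Ad (mul_mem hZ₁m.1 (D.Ad _ _ hB1M))]
      refine (D.norm_mul_le_left _ _).trans ?_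
      rw [D.norm_Ad hB1M]
      exact (mul_le_of_le_one_left (norm_nonneg _) hZ₁m.2.1).trans (hB1 i)
    linarith
  -- the mean
  set X := ((Fintype.card ι : ℂ)⁻¹) • ∑ i, W i with hX
  have hXc : X ∈ CC π M Ω F (J + 2 * J₀) b := D.cc_mean hWc
  have hXn : ‖(X - (t : ℂ) • (1 : K →L[ℂ] K)) Ω‖ ≤ η + 2 * ε := by
    have e1 : (X - (t : ℂ) • (1 : K →L[ℂ] K)) Ω =
        (((Fintype.card ι : ℂ)⁻¹) • ∑ i, (W i - π (l i) * Z₁ * π (l i)⁻¹)) Ω +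
        ((((Fintype.card ι : ℂ)⁻¹) • ∑ i, π (l i) * Z₁ * π (l i)⁻¹) Ω - ⟪Ω, Z₁ Ω⟫_ℂ • Ω) := by
      rw [hτ1, Finset.sum_sub_distrib, smul_sub, ← hX]
      simp only [sub_apply, smul_apply, one_apply_eq_self]
      abel
    rw [e1]
    refine (norm_add_le _ _).trans ?_
    have n1 := gap Z₁ hZ₁m.1 hZ₁m.2.1
    have n2 : ‖(((Fintype.card ι : ℂ)⁻¹) • ∑ i, (W i - π (l i) * Z₁ * π (l i)⁻¹)) Ω‖ ≤ 2 * ε := by
      rw [smul_apply, sum_apply, norm_smul, norm_inv, Complex.norm_natCast,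
        inv_mul_le_iff₀ hcard]
      refine (norm_sum_le _ _).trans ((Finset.sum_le_sum fun i _ => hWn i).trans ?_)
      simp
    linarith
  -- the product
  have hXb : ‖(π b * X * π b⁻¹ - (t : ℂ) • (1 : K →L[ℂ] K)) Ω‖ ≤ η + 2 * ε := by
    have e1 : π b * X * π b⁻¹ - (t : ℂ) • (1 : K →L[ℂ] K) =
        π b * (X - (t : ℂ) • (1 : K →L[ℂ] K)) * π b⁻¹ := by
      have e2 : π b * ((t : ℂ) • (1 : K →L[ℂ] K)) * π b⁻¹ = (t : ℂ) • (1 : K →L[ℂ] K) := by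
        rw [mul_smul_comm, smul_mul_assoc, mul_one, D.pi_mul_inv]
      rw [mul_sub, sub_mul, e2]
    rw [e1, D.norm_Ad (sub_mem hXc.1 (M.smul_mem (one_mem _) _))]
    exact hXn
  have hPc := D.cc_mul hXc hXc
  have hPn := D.norm_sub_scalar_mul hXc.1 (D.Ad b X hXc.1) ((D.norm_Ad_le b X).trans hXc.2.1)
    ht0.le ht1 hXn hXb
  -- Newton
  have hs0 : 0 ≤ t ^ 2 := sq_nonneg _
  have hs1 : t ^ 2 ≤ 1 := by nlinarith
  have hYn := D.norm_nw_sub hPc.1 hPc.2.1 hs0 hs1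
  have hYc := D.cc_nw hPc
  refine ⟨_, D.cc_mono (by omega) hYc, ?_⟩
  set Y := nw (X * (π b * X * π b⁻¹)) with hY
  set f : ℝ := 3 / 2 * t ^ 2 - 1 / 2 * (t ^ 2) ^ 3 with hf
  have r1 : |(⟪Ω, (Y - (f : ℂ) • (1 : K →L[ℂ] K)) Ω⟫_ℂ).re| ≤ 6 * (η + 2 * ε) := by
    refine (Complex.abs_re_le_norm _).trans ((norm_inner_le_norm _ _).trans ?_)
    rw [D.one, one_mul]
    linarith
  have r2 : (⟪Ω, (Y - (f : ℂ) • (1 : K →L[ℂ] K)) Ω⟫_ℂ).re = (⟪Ω, Y Ω⟫_ℂ).re - f := by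
    rw [sub_apply, smul_apply, one_apply_eq_self, inner_sub_right, inner_smul_right,
      inner_self_eq_norm_sq_to_K, D.one]
    simp
  rw [r2] at r1
  have r3 := (abs_le.mp r1).1
  have s1 : 1 - 2 * δ ≤ t ^ 2 := by nlinarith
  have r4 : 1 - 6 * δ ^ 2 ≤ f := by
    have h1 : 1 - f = (1 - t ^ 2) ^ 2 * (1 + t ^ 2 / 2) := by rw [hf]; ring
    have h2 : (1 - t ^ 2) ^ 2 ≤ (2 * δ) ^ 2 := by
      apply pow_le_pow_left₀ (by linarith)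
      linarith
    have h3 : (1 - t ^ 2) ^ 2 * (1 + t ^ 2 / 2) ≤ (2 * δ) ^ 2 * (3 / 2) := by
      apply mul_le_mul h2 (by linarith) (by positivity) (by positivity)
    nlinarith
  nlinarith

/-- **The growth lemma**, iterated. -/
theorem growth_iter {a : H} {ι : Type*} [Fintype ι] [Nonempty ι] {l : ι → H}
    (hl : ∀ i, Commute (l i) a) {δ η ε : ℝ} (hδ0 : 0 ≤ δ) (hδ : δ ≤ 1 / 12)
    (hη : η + 2 * ε ≤ δ / 12)
    (gap : ∀ x ∈ M, ‖x‖ ≤ 1 → ‖(((Fintype.card ι : ℂ)⁻¹) • ∑ i, π (l i) * x * π (l i)⁻¹) Ω -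
      ⟪Ω, x Ω⟫_ℂ • Ω‖ ≤ η)
    {J₀ : ℕ} (hK : ∀ i, ∃ Z ∈ CC π M Ω F J₀ (l i), ‖(Z - 1) Ω‖ ≤ ε)
    (hK' : ∀ i, ∃ Z ∈ CC π M Ω F J₀ (l i)⁻¹, ‖(Z - 1) Ω‖ ≤ ε)
    {J₁ : ℕ} {Z : K →L[ℂ] K} (hZ : Z ∈ CC π M Ω F J₁ a) (hZ1 : 1 - δ ≤ (⟪Ω, Z Ω⟫_ℂ).re) (k : ℕ) :
    ∃ J, J + 3 * J₀ ≤ (J₁ + 3 * J₀) * 6 ^ k ∧
      ∃ Y ∈ CC π M Ω F J (a ^ 2 ^ k), 1 - δ ≤ (⟪Ω, Y Ω⟫_ℂ).re := by
  induction k with
  | zero => exact ⟨J₁, by simp, Z, by simpa using hZ, hZ1⟩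
  | succ k ih =>
    obtain ⟨J, hJ, Y, hY, hY1⟩ := ih
    have hl' : ∀ i, Commute (l i) (a ^ 2 ^ k) := fun i => (hl i).pow_right _
    obtain ⟨Y', hY', hY'1⟩ := D.double hl' hδ0 hδ hη gap hK hK' hY hY1
    refine ⟨6 * J + 12 * J₀, ?_, Y', ?_, hY'1⟩
    · have : (J₁ + 3 * J₀) * 6 ^ (k + 1) = 6 * ((J₁ + 3 * J₀) * 6 ^ k) := by ring
      omega
    · rwa [← pow_add, ← two_mul, ← pow_succ'] at hY'

/-- **The growth lemma**: if `a` commutes with finite families whose mean conjugation is close to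
the trace, and every single element is approximated by finite sizes, then the elements
`a ^ 2 ^ k` have size `C * 6 ^ k` up to a small error. -/
theorem growth {a : H}
    (gap : ∀ η : ℝ, 0 < η → ∃ p : ℕ, 0 < p ∧ ∃ l : Fin p → H, (∀ i, Commute (l i) a) ∧
      ∀ x ∈ M, ‖x‖ ≤ 1 → ‖(((p : ℂ)⁻¹) • ∑ i, π (l i) * x * π (l i)⁻¹) Ω -
        ⟪Ω, x Ω⟫_ℂ • Ω‖ ≤ η)
    (kap : ∀ h : H, ∀ ε : ℝ, 0 < ε → ∃ J, ∃ Z ∈ CC π M Ω F J h, ‖(Z - 1) Ω‖ ≤ ε)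
    {ε : ℝ} (hε : 0 < ε) :
    ∃ C : ℕ, ∀ k : ℕ, ∃ Z ∈ CC π M Ω F (C * 6 ^ k) (a ^ 2 ^ k), ‖(Z - 1) Ω‖ ≤ ε := by
  classical
  obtain ⟨δ, hδ0, hδ, hδε⟩ : ∃ δ : ℝ, 0 < δ ∧ δ ≤ 1 / 12 ∧ 2 * δ ≤ ε ^ 2 := by
    refine ⟨min (1 / 12) (ε ^ 2 / 2), by positivity, min_le_left _ _, ?_⟩
    have := min_le_right (1 / 12 : ℝ) (ε ^ 2 / 2)
    linarith
  obtain ⟨p, hp, l, hl, hgap⟩ := gap (δ / 24) (by positivity)
  haveI : Nonempty (Fin p) := ⟨⟨0, hp⟩⟩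
  have hk : ∀ h, ∃ J, ∃ Z ∈ CC π M Ω F J h, ‖(Z - 1) Ω‖ ≤ δ / 48 := fun h =>
    kap h _ (by positivity)
  choose Jf Zf hZf hZf1 using hk
  set J₀ : ℕ := ∑ i, (Jf (l i) + Jf (l i)⁻¹) with hJ₀
  have hJ : ∀ i, Jf (l i) + Jf (l i)⁻¹ ≤ J₀ := fun i =>
    Finset.single_le_sum (f := fun i => Jf (l i) + Jf (l i)⁻¹) (fun _ _ => Nat.zero_le _)
      (Finset.mem_univ i)
  have hZa : 1 - δ ≤ (⟪Ω, Zf a Ω⟫_ℂ).re := by
    have h1 : ⟪Ω, Zf a Ω⟫_ℂ = 1 + ⟪Ω, (Zf a - 1) Ω⟫_ℂ := by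
      rw [sub_apply, one_apply_eq_self, inner_sub_right, inner_self_eq_norm_sq_to_K, D.one]
      simp
    have h2 : |(⟪Ω, (Zf a - 1) Ω⟫_ℂ).re| ≤ δ / 48 := by
      refine (Complex.abs_re_le_norm _).trans ((norm_inner_le_norm _ _).trans ?_)
      rw [D.one, one_mul]
      exact hZf1 a
    rw [h1, Complex.add_re, Complex.one_re]
    have := (abs_le.mp h2).1
    linarith
  refine ⟨Jf a + 3 * J₀, fun k => ?_⟩
  obtain ⟨J, hJk, Y, hY, hY1⟩ := D.growth_iter (ι := Fin p) (l := l) hl hδ0.le hδ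
    (η := δ / 24) (ε := δ / 48) (by linarith) (by simpa using hgap) (J₀ := J₀)
    (fun i => ⟨Zf (l i), D.cc_mono ((Nat.le_add_right _ _).trans (hJ i)) (hZf _), hZf1 _⟩)
    (fun i => ⟨Zf (l i)⁻¹, D.cc_mono ((Nat.le_add_left _ _).trans (hJ i)) (hZf _), hZf1 _⟩)
    (hZf a) hZa k
  refine ⟨Y, D.cc_mono (by omega) hY, ?_⟩
  have h3 := D.norm_sub_one hY.2.1
  have h4 : ‖(Y - 1) Ω‖ ^ 2 ≤ ε ^ 2 := by linarith
  exact le_of_pow_le_pow_left₀ two_ne_zero hε.le h4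

/-- The growth lemma for vectors: `π (a ^ 2 ^ k) Ω` is close to a vector of size `C * 6 ^ k`. -/
theorem growth_vec {a : H}
    (gap : ∀ η : ℝ, 0 < η → ∃ p : ℕ, 0 < p ∧ ∃ l : Fin p → H, (∀ i, Commute (l i) a) ∧
      ∀ x ∈ M, ‖x‖ ≤ 1 → ‖(((p : ℂ)⁻¹) • ∑ i, π (l i) * x * π (l i)⁻¹) Ω -
        ⟪Ω, x Ω⟫_ℂ • Ω‖ ≤ η)
    (kap : ∀ h : H, ∀ ε : ℝ, 0 < ε → ∃ J, ∃ Z ∈ CC π M Ω F J h, ‖(Z - 1) Ω‖ ≤ ε)
    {ε : ℝ} (hε : 0 < ε) :
    ∃ C : ℕ, ∀ k : ℕ, ∃ v ∈ F (C * 6 ^ k), ‖π (a ^ 2 ^ k) Ω - v‖ ≤ ε := by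
  obtain ⟨C, hC⟩ := D.growth gap kap hε
  refine ⟨C, fun k => ?_⟩
  obtain ⟨Z, hZ, hZ1⟩ := hC k
  refine ⟨Z (π (a ^ 2 ^ k) Ω), hZ.2.2, ?_⟩
  obtain ⟨u, hu, hu1, hu2, hu3⟩ := D.un (a ^ 2 ^ k)
  have hun : ‖u‖ ≤ 1 := by
    have h1 : ‖u‖ * ‖u‖ ≤ 1 := by
      rw [← CStarRing.norm_star_mul_self, hu1]
      exact ContinuousLinearMap.norm_id_le
    nlinarith [norm_nonneg u]
  have e1 : π (a ^ 2 ^ k) Ω - Z (π (a ^ 2 ^ k) Ω) = -(((Z - 1) * u) Ω) := by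
    rw [ContinuousLinearMap.mul_apply, hu3, sub_apply, one_apply_eq_self]
    abel
  rw [e1, norm_neg]
  refine (D.norm_mul_le_right (sub_mem hZ.1 (one_mem _)) hu).trans ?_
  exact (mul_le_of_le_one_right (norm_nonneg _) hun).trans hZ1

end GrD

end data

end Vale.Agent.P092.H221.Gr
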