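import Vale.Agent.P092.H34.Ind
import Vale.Agent.P092.H221.Gr1

/-!
P092 (helper221), team D, block [D-GL]: the data of the growth lemma for the induced picture
`K = L²(X; ℋ)` over a cocycle datum.
-/

set_option linter.all false

open scoped InnerProductSpace ENNReal
open MeasureTheory Filter Topology ContinuousLinearMap

namespace Vale.Agent.P092.H221.Gr

open Vale.Agent.P092.H790 Vale.Agent.P092.H160 Vale.Agent.P092.H34 Vale.Agent.P092.H34.Ind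

section abs

variable {K : Type*} [NormedAddCommGroup K] [InnerProductSpace ℂ K] [CompleteSpace K]

theorem tr_of_norm (M : StarSubalgebra ℂ (K →L[ℂ] K)) (Ω : K)
    (h : ∀ x ∈ M, ‖(star x) Ω‖ = ‖x Ω‖) {x y : K →L[ℂ] K} (hx : x ∈ M) (hy : y ∈ M) :
    ⟪Ω, (x * y) Ω⟫_ℂ = ⟪Ω, (y * x) Ω⟫_ℂ := by
  have e1 : ⟪Ω, (x * y) Ω⟫_ℂ = ⟪(star x) Ω, y Ω⟫_ℂ := by
    rw [star_eq_adjoint, adjoint_inner_left]; rfl
  have e2 : ⟪Ω, (y * x) Ω⟫_ℂ = ⟪(star y) Ω, x Ω⟫_ℂ := by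
    rw [star_eq_adjoint, adjoint_inner_left]; rfl
  rw [e1, e2, inner_eq_sum_norm_sq_div_four, inner_eq_sum_norm_sq_div_four]
  have n1 : ‖(star x) Ω + y Ω‖ = ‖(star y) Ω + x Ω‖ := by
    have h1 := h _ (add_mem hx (star_mem hy))
    rw [star_add, star_star, add_apply, add_apply] at h1
    rw [h1, add_comm]
  have n2 : ‖(star x) Ω - y Ω‖ = ‖(star y) Ω - x Ω‖ := by
    have h1 := h _ (sub_mem hx (star_mem hy))
    rw [star_sub, star_star, sub_apply, sub_apply] at h1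
    rw [h1, norm_sub_rev]
  have n3 : ‖(star x) Ω - (RCLike.I : ℂ) • y Ω‖ = ‖(star y) Ω - (RCLike.I : ℂ) • x Ω‖ := by
    have h1 := h _ (sub_mem (star_mem hx) (M.smul_mem hy (Complex.I)))
    have h2 : star (star x - Complex.I • y) = Complex.I • (star y - Complex.I • x) := by
      rw [star_sub, star_star, star_smul, smul_sub, smul_smul]
      simp
      abel
    rw [h2, smul_apply, norm_smul, Complex.norm_I, one_mul] at h1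
    simp only [sub_apply, smul_apply] at h1
    exact h1.symm
  have n4 : ‖(star x) Ω + (RCLike.I : ℂ) • y Ω‖ = ‖(star y) Ω + (RCLike.I : ℂ) • x Ω‖ := by
    have h1 := h _ (add_mem (star_mem hx) (M.smul_mem hy (Complex.I)))
    have h2 : star (star x + Complex.I • y) = (-Complex.I) • (star y + Complex.I • x) := by
      rw [star_add, star_star, star_smul, smul_add, smul_smul]
      simp
      abel
    rw [h2, smul_apply, norm_smul, norm_neg, Complex.norm_I, one_mul] at h1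
    simp only [add_apply, smul_apply] at h1
    exact h1.symm
  rw [n1, n2, n3, n4]

end abs

section inst

variable {D Λ Γ₁ Γ₂ : Type} [Group D] [Group Λ] [Group Γ₁] [Group Γ₂]
  {ℋ : Type} [NormedAddCommGroup ℋ] [InnerProductSpace ℂ ℋ] [CompleteSpace ℋ]

open Classical in
/-- The fibre data: `V` commutes with the two legs `R₁`, `R₂`; the vectors `R₁ k (R₂ g ω)` form a
Parseval frame, `m S` is the projection on the positions in `S` of the first leg, `B J` is the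
ball of size `J`. -/
structure FibD (V : Λ →* (ℋ →L[ℂ] ℋ)) (R₁ : Γ₁ →* (ℋ →L[ℂ] ℋ)) (R₂ : Γ₂ →* (ℋ →L[ℂ] ℋ)) (ω : ℋ)
    (m : Set Γ₁ → ℋ →L[ℂ] ℋ) (B : ℕ → Set Γ₁) : Prop where
  adjV : ∀ v, adjoint (V v) = V v⁻¹
  adj₁ : ∀ k, adjoint (R₁ k) = R₁ k⁻¹
  adj₂ : ∀ g, adjoint (R₂ g) = R₂ g⁻¹
  com₁ : ∀ v k, V v * R₁ k = R₁ k * V v
  com₂ : ∀ v g, V v * R₂ g = R₂ g * V v
  com₁₂ : ∀ k g, R₁ k * R₂ g = R₂ g * R₁ k
  one : ‖ω‖ = 1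
  par : ∀ η, HasSum (fun p : Γ₁ × Γ₂ => ‖⟪R₁ p.1 (R₂ p.2 ω), η⟫_ℂ‖ ^ 2) (‖η‖ ^ 2)
  madj : ∀ S, adjoint (m S) = m S
  msk : ∀ S k g, m S (R₁ k (R₂ g ω)) = if k ∈ S then R₁ k (R₂ g ω) else 0
  bmono : Monotone B
  bmul : ∀ J J' x y, x ∈ B J → y ∈ B J' → x * y ∈ B (J + J')
  binv : ∀ J x, x ∈ B J → x⁻¹ ∈ B J

variable {V : Λ →* (ℋ →L[ℂ] ℋ)} {R₁ : Γ₁ →* (ℋ →L[ℂ] ℋ)} {R₂ : Γ₂ →* (ℋ →L[ℂ] ℋ)} {ω : ℋ}
    {m : Set Γ₁ → ℋ →L[ℂ] ℋ} {B : ℕ → Set Γ₁}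

/-- The two legs. -/
def legs (R₁ : Γ₁ →* (ℋ →L[ℂ] ℋ)) (R₂ : Γ₂ →* (ℋ →L[ℂ] ℋ)) : Set (ℋ →L[ℂ] ℋ) :=
  Set.range R₁ ∪ Set.range R₂

namespace FibD

variable (F : FibD V R₁ R₂ ω m B)

include F

theorem legs_adj : ∀ a ∈ legs R₁ R₂, adjoint a ∈ legs R₁ R₂ := by
  rintro a (⟨k, rfl⟩ | ⟨g, rfl⟩)
  · exact Or.inl ⟨k⁻¹, (F.adj₁ k).symm⟩
  · exact Or.inr ⟨g⁻¹, (F.adj₂ g).symm⟩

theorem legs_V : ∀ a ∈ legs R₁ R₂, ∀ v, a * V v = V v * a := by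
  rintro a (⟨k, rfl⟩ | ⟨g, rfl⟩) v
  · exact (F.com₁ v k).symm
  · exact (F.com₂ v g).symm

/-- Total set in the fibre. -/
theorem ext_fib {G : Type*} [NormedAddCommGroup G] [NormedSpace ℂ G] {S T : ℋ →L[ℂ] G}
    (h : ∀ k g, S (R₁ k (R₂ g ω)) = T (R₁ k (R₂ g ω))) : S = T := by
  have h1 : (Submodule.span ℂ (Set.range fun p : Γ₁ × Γ₂ => R₁ p.1 (R₂ p.2 ω))).topologicalClosure =
      ⊤ := by
    rw [Submodule.topologicalClosure_eq_top_iff, Submodule.eq_bot_iff]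
    intro η hη
    rw [Submodule.mem_orthogonal] at hη
    have h2 : ∀ p : Γ₁ × Γ₂, ‖⟪R₁ p.1 (R₂ p.2 ω), η⟫_ℂ‖ ^ 2 = 0 := fun p => by
      rw [hη _ (Submodule.subset_span ⟨p, rfl⟩), norm_zero]
      norm_num
    have h3 := F.par η
    simp only [h2] at h3
    have h4 : ‖η‖ ^ 2 = 0 := h3.unique hasSum_zero
    exact norm_eq_zero.mp (pow_eq_zero_iff two_ne_zero |>.mp h4)
  refine ContinuousLinearMap.ext_on (s := Set.range fun p : Γ₁ × Γ₂ => R₁ p.1 (R₂ p.2 ω)) ?_ ?_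
  · rw [dense_iff_closure_eq, ← Submodule.topologicalClosure_coe, h1]
    rfl
  · rintro _ ⟨p, rfl⟩
    exact h p.1 p.2

theorem span_fib : (Submodule.span ℂ
    (Set.range fun p : Γ₁ × Γ₂ => R₁ p.1 (R₂ p.2 ω))).topologicalClosure = ⊤ := by
  rw [Submodule.topologicalClosure_eq_top_iff, Submodule.eq_bot_iff]
  intro η hη
  rw [Submodule.mem_orthogonal] at hη
  have h2 : ∀ p : Γ₁ × Γ₂, ‖⟪R₁ p.1 (R₂ p.2 ω), η⟫_ℂ‖ ^ 2 = 0 := fun p => by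
    rw [hη _ (Submodule.subset_span ⟨p, rfl⟩), norm_zero]
    norm_num
  have h3 := F.par η
  simp only [h2] at h3
  have h4 : ‖η‖ ^ 2 = 0 := h3.unique hasSum_zero
  exact norm_eq_zero.mp (pow_eq_zero_iff two_ne_zero |>.mp h4)

theorem msk_R₂ (S : Set Γ₁) (g : Γ₂) : m S * R₂ g = R₂ g * m S := by
  refine F.ext_fib fun k g' => ?_
  have e1 : R₂ g (R₁ k (R₂ g' ω)) = R₁ k (R₂ (g * g') ω) := by
    rw [map_mul]
    change (R₂ g * R₁ k) (R₂ g' ω) = (R₁ k * R₂ g) (R₂ g' ω)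
    rw [F.com₁₂]
  change m S (R₂ g (R₁ k (R₂ g' ω))) = R₂ g (m S (R₁ k (R₂ g' ω)))
  rw [e1, F.msk, F.msk]
  split_ifs
  · exact e1.symm
  · rw [map_zero]

theorem msk_mul_R₁ {J J' : ℕ} {k : Γ₁} (hk : k ∈ B J') :
    m (B (J + J')) * (R₁ k * m (B J)) = R₁ k * m (B J) := by
  refine F.ext_fib fun k' g => ?_
  change m (B (J + J')) (R₁ k (m (B J) (R₁ k' (R₂ g ω)))) = R₁ k (m (B J) (R₁ k' (R₂ g ω)))
  rw [F.msk]
  split_ifs with h1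
  · have e1 : R₁ k (R₁ k' (R₂ g ω)) = R₁ (k * k') (R₂ g ω) := by
      rw [map_mul]; rfl
    rw [e1, F.msk, if_pos]
    rw [add_comm J J']
    exact F.bmul _ _ _ _ hk h1
  · rw [map_zero, map_zero]

theorem msk_mono {J J' : ℕ} (h : J ≤ J') : m (B J') * m (B J) = m (B J) := by
  refine F.ext_fib fun k g => ?_
  change m (B J') (m (B J) (R₁ k (R₂ g ω))) = m (B J) (R₁ k (R₂ g ω))
  rw [F.msk]
  split_ifs with h1
  · rw [F.msk, if_pos (F.bmono h h1)]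
  · rw [map_zero]

theorem msk_compl (S : Set Γ₁) : m Sᶜ = 1 - m S := by
  refine F.ext_fib fun k g => ?_
  rw [sub_apply, one_apply_eq_self, F.msk, F.msk]
  by_cases h : k ∈ S
  · rw [if_neg (by simpa using h), if_pos h, sub_self]
  · rw [if_pos (by simpa using h), if_neg h, sub_zero]

end FibD

variable [Countable Λ] (d : CData D Λ)

/-- The finite algebra: decomposable operators commuting with both legs. -/
noncomputable def MM (F : FibD V R₁ R₂ ω m B) :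
    StarSubalgebra ℂ (Lp ℋ 2 d.μ →L[ℂ] Lp ℋ 2 d.μ) where
  carrier := {T | AA d (legs R₁ R₂) T}
  mul_mem' ha hb := AA.mul ha hb
  one_mem' := AA.one
  add_mem' ha hb := AA.add ha hb
  zero_mem' := fun w _ => by rw [zero_mul, mul_zero]
  algebraMap_mem' r := by
    rw [Algebra.algebraMap_eq_smul_one]
    exact AA.smul r AA.one
  star_mem' {a} ha := by
    change AA d (legs R₁ R₂) (star a)
    rw [star_eq_adjoint]
    exact AA.adj F.legs_adj ha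

theorem mem_MM {F : FibD V R₁ R₂ ω m B} {T : Lp ℋ 2 d.μ →L[ℂ] Lp ℋ 2 d.μ} :
    T ∈ MM d F ↔ AA d (legs R₁ R₂) T := Iff.rfl

/-- The vectors of size at most `J`. -/
noncomputable def FF (m : Set Γ₁ → ℋ →L[ℂ] ℋ) (B : ℕ → Set Γ₁) (J : ℕ) :
    Submodule ℂ (Lp ℋ 2 d.μ) where
  carrier := {ξ | (m (B J)).compLpL 2 d.μ ξ = ξ}
  add_mem' {a b} ha hb := by
    change (m (B J)).compLpL 2 d.μ (a + b) = a + b
    have h1 : (m (B J)).compLpL 2 d.μ a = a := ha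
    have h2 : (m (B J)).compLpL 2 d.μ b = b := hb
    rw [map_add, h1, h2]
  zero_mem' := map_zero _
  smul_mem' c a ha := by
    change (m (B J)).compLpL 2 d.μ (c • a) = c • a
    have h1 : (m (B J)).compLpL 2 d.μ a = a := ha
    rw [map_smul, h1]

theorem mem_FF {J : ℕ} {ξ : Lp ℋ 2 d.μ} : ξ ∈ FF d m B J ↔ (m (B J)).compLpL 2 d.μ ξ = ξ := Iff.rfl

variable {d}

/-- A closed subspace containing `1_S R₁ k R₂ g Ω` is everything. -/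
theorem FibD.mem_all (F : FibD V R₁ R₂ ω m B) (N : Submodule ℂ (Lp ℋ 2 d.μ))
    (hN : IsClosed (N : Set (Lp ℋ 2 d.μ)))
    (hg : ∀ S, MeasurableSet S → ∀ k g,
      H790.ind d.μ ℋ S (Lp.const 2 d.μ (R₁ k (R₂ g ω))) ∈ N) (ξ : Lp ℋ 2 d.μ) : ξ ∈ N := by
  have h0 : ∀ S, MeasurableSet S → ∀ v : ℋ, H790.ind d.μ ℋ S (Lp.const 2 d.μ v) ∈ N := by
    intro S hS v
    set L : ℋ →L[ℂ] Lp ℋ 2 d.μ := (H790.ind d.μ ℋ S) ∘L (Lp.constL 2 d.μ ℂ : ℋ →L[ℂ] Lp ℋ 2 d.μ)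
      with hL
    have hc : IsClosed ((N.comap (L : ℋ →ₗ[ℂ] Lp ℋ 2 d.μ) : Submodule ℂ ℋ) : Set ℋ) :=
      hN.preimage L.continuous
    have h1 : (Submodule.span ℂ (Set.range fun p : Γ₁ × Γ₂ => R₁ p.1 (R₂ p.2 ω))) ≤
        N.comap (L : ℋ →ₗ[ℂ] Lp ℋ 2 d.μ) := by
      rw [Submodule.span_le]
      rintro _ ⟨p, rfl⟩
      exact hg S hS p.1 p.2
    have h2 := Submodule.topologicalClosure_minimal _ h1 hc
    rw [F.span_fib] at h2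
    exact h2 (Submodule.mem_top (x := v))
  refine Lp.induction (by norm_num) (fun ξ => ξ ∈ N) ?_ ?_ ?_ ξ
  · intro c S hS hμS
    have h1 : ((Lp.simpleFunc.indicatorConst 2 hS hμS.ne c : Lp.simpleFunc ℋ 2 d.μ) : Lp ℋ 2 d.μ) =
        H790.ind d.μ ℋ S (Lp.const 2 d.μ c) := by
      refine Lp.ext ?_
      rw [Lp.simpleFunc.coe_indicatorConst]
      filter_upwards [indicatorConstLp_coeFn (p := 2) (hs := hS) (hμs := hμS.ne) (c := c),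
        ind_ae hS (Lp.const 2 d.μ c), Lp.coeFn_const (p := 2) (μ := d.μ) c] with x h2 h3 h4
      rw [h2, h3]
      by_cases hx : x ∈ S
      · rw [Set.indicator_of_mem hx, Set.indicator_of_mem hx, h4]
        rfl
      · rw [Set.indicator_of_notMem hx, Set.indicator_of_notMem hx]
    rw [h1]
    exact h0 S hS c
  · intro f g hf hg _ h1 h2
    exact N.add_mem h1 h2
  · exact hN

theorem comp_const (A : ℋ →L[ℂ] ℋ) (v : ℋ) :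
    A.compLpL 2 d.μ (Lp.const 2 d.μ v) = Lp.const 2 d.μ (A v) := by
  refine Lp.ext ?_
  filter_upwards [A.coeFn_compLpL (p := 2) (Lp.const 2 d.μ v),
    Lp.coeFn_const (p := 2) (μ := d.μ) v, Lp.coeFn_const (p := 2) (μ := d.μ) (A v)] with x h1 h2 h3
  rw [h1, h2, h3]
  rfl

/-- generators -/
theorem gen_eq (F : FibD V R₁ R₂ ω m B) (S : Set d.X) (k : Γ₁) (g : Γ₂) :
    H790.ind d.μ ℋ S (Lp.const 2 d.μ (R₁ k (R₂ g ω))) =
      H790.ind d.μ ℋ S (lam d R₁ k (lam d R₂ g (Lp.const 2 d.μ ω))) := by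
  change _ = H790.ind d.μ ℋ S ((R₁ k).compLpL 2 d.μ ((R₂ g).compLpL 2 d.μ (Lp.const 2 d.μ ω)))
  rw [comp_const, comp_const]

theorem kp_const (g : D) (v : ℋ) : kp d ℋ g (Lp.const 2 d.μ v) = Lp.const 2 d.μ v := by
  refine Lp.ext ?_
  have h1 := ae_comp (d.mp g⁻¹) (Lp.coeFn_const (p := 2) (μ := d.μ) v)
  filter_upwards [kp_ae d g (Lp.const 2 d.μ v), h1, Lp.coeFn_const (p := 2) (μ := d.μ) v]
    with x h2 h3 h4
  rw [h2, h3, h4]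
  rfl

theorem norm_const_one (F : FibD V R₁ R₂ ω m B) : ‖(Lp.const 2 d.μ ω : Lp ℋ 2 d.μ)‖ = 1 := by
  have h1 := norm_ind_const (μ := d.μ) MeasurableSet.univ ω
  rw [ind_univ, one_apply_eq_self, F.one] at h1
  have h2 : ‖(Lp.const 2 d.μ ω : Lp ℋ 2 d.μ)‖ ^ 2 = 1 := by
    rw [h1]
    simp
  exact (pow_eq_one_iff_of_nonneg (norm_nonneg _) two_ne_zero).mp h2

theorem AA.lam₁ {T : Lp ℋ 2 d.μ →L[ℂ] Lp ℋ 2 d.μ} (hT : AA d (legs R₁ R₂) T) (k : Γ₁)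
    (ξ : Lp ℋ 2 d.μ) : T (lam d R₁ k ξ) = lam d R₁ k (T ξ) :=
  congrArg (fun S : Lp ℋ 2 d.μ →L[ℂ] Lp ℋ 2 d.μ => S ξ) (hT.coef (Or.inl ⟨k, rfl⟩))

theorem AA.lam₂ {T : Lp ℋ 2 d.μ →L[ℂ] Lp ℋ 2 d.μ} (hT : AA d (legs R₁ R₂) T) (g : Γ₂)
    (ξ : Lp ℋ 2 d.μ) : T (lam d R₂ g ξ) = lam d R₂ g (T ξ) :=
  congrArg (fun S : Lp ℋ 2 d.μ →L[ℂ] Lp ℋ 2 d.μ => S ξ) (hT.coef (Or.inr ⟨g, rfl⟩))

/-- The trace property. -/
theorem norm_adj [Countable Γ₁] [Countable Γ₂] (F : FibD V R₁ R₂ ω m B)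
    {T : Lp ℋ 2 d.μ →L[ℂ] Lp ℋ 2 d.μ} (hT : AA d (legs R₁ R₂) T) :
    ‖adjoint T (Lp.const 2 d.μ ω)‖ = ‖T (Lp.const 2 d.μ ω)‖ := by
  have hTa : AA d (legs R₁ R₂) (adjoint T) := AA.adj F.legs_adj hT
  have key : ∀ᵐ x ∂d.μ, ‖(adjoint T (Lp.const 2 d.μ ω) : Lp ℋ 2 d.μ) x‖ =
      ‖(T (Lp.const 2 d.μ ω) : Lp ℋ 2 d.μ) x‖ := by
    have h1 : ∀ᵐ x ∂d.μ, ∀ p : Γ₁ × Γ₂,
        ⟪(T (Lp.const 2 d.μ ω) : Lp ℋ 2 d.μ) x, R₁ p.1 (R₂ p.2 ω)⟫_ℂ =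
          ⟪R₁ (p⁻¹).1 (R₂ (p⁻¹).2 ω), (adjoint T (Lp.const 2 d.μ ω) : Lp ℋ 2 d.μ) x⟫_ℂ := by
      rw [ae_all_iff]
      rintro ⟨k, g⟩
      have h2 := hT.dcm.inner_const (R₁ k (R₂ g ω)) ω
      have h3 : adjoint T (Lp.const 2 d.μ (R₁ k (R₂ g ω))) =
          lam d R₁ k (lam d R₂ g (adjoint T (Lp.const 2 d.μ ω))) := by
        have h4 : (Lp.const 2 d.μ (R₁ k (R₂ g ω)) : Lp ℋ 2 d.μ) =
            lam d R₁ k (lam d R₂ g (Lp.const 2 d.μ ω)) := by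
          change _ = (R₁ k).compLpL 2 d.μ ((R₂ g).compLpL 2 d.μ (Lp.const 2 d.μ ω))
          rw [comp_const, comp_const]
        rw [h4, AA.lam₁ hTa, AA.lam₂ hTa]
      rw [h3] at h2
      have h5 := (R₁ k).coeFn_compLpL (p := 2) (μ := d.μ)
        ((R₂ g).compLpL 2 d.μ (adjoint T (Lp.const 2 d.μ ω)))
      have h6 := (R₂ g).coeFn_compLpL (p := 2) (μ := d.μ) (adjoint T (Lp.const 2 d.μ ω))
      filter_upwards [h2, h5, h6] with x a2 a5 a6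
      have a5' : (lam d R₁ k (lam d R₂ g (adjoint T (Lp.const 2 d.μ ω))) : Lp ℋ 2 d.μ) x =
          R₁ k (R₂ g ((adjoint T (Lp.const 2 d.μ ω) : Lp ℋ 2 d.μ) x)) := by
        have e1 : (lam d R₁ k (lam d R₂ g (adjoint T (Lp.const 2 d.μ ω))) : Lp ℋ 2 d.μ) x =
          R₁ k (((R₂ g).compLpL 2 d.μ (adjoint T (Lp.const 2 d.μ ω)) : Lp ℋ 2 d.μ) x) := a5
        rw [e1, a6]
      rw [a2, a5']
      change _ = ⟪R₁ k⁻¹ (R₂ g⁻¹ ω), _⟫_ℂ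
      have e2 : R₁ k⁻¹ (R₂ g⁻¹ ω) = R₂ g⁻¹ (R₁ k⁻¹ ω) :=
        congrArg (fun S : ℋ →L[ℂ] ℋ => S ω) (F.com₁₂ k⁻¹ g⁻¹)
      rw [e2, ← F.adj₂, adjoint_inner_left, ← F.adj₁, adjoint_inner_left]
    filter_upwards [h1] with x hx
    have s1 := F.par ((T (Lp.const 2 d.μ ω) : Lp ℋ 2 d.μ) x)
    have s2 := F.par ((adjoint T (Lp.const 2 d.μ ω) : Lp ℋ 2 d.μ) x)
    have s3 := (Equiv.inv (Γ₁ × Γ₂)).hasSum_iff.mpr s2
    have s4 : (fun p : Γ₁ × Γ₂ => ‖⟪R₁ p.1 (R₂ p.2 ω), (T (Lp.const 2 d.μ ω) : Lp ℋ 2 d.μ) x⟫_ℂ‖ ^ 2)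
        = (fun p : Γ₁ × Γ₂ => ‖⟪R₁ p.1 (R₂ p.2 ω),
          (adjoint T (Lp.const 2 d.μ ω) : Lp ℋ 2 d.μ) x⟫_ℂ‖ ^ 2) ∘ (Equiv.inv (Γ₁ × Γ₂)) := by
      funext p
      change _ = ‖⟪R₁ (p⁻¹).1 (R₂ (p⁻¹).2 ω), (adjoint T (Lp.const 2 d.μ ω) : Lp ℋ 2 d.μ) x⟫_ℂ‖ ^ 2
      rw [← hx p, norm_inner_symm]
    rw [s4] at s1
    have s5 := s3.unique s1
    exact (pow_left_inj₀ (norm_nonneg _) (norm_nonneg _) two_ne_zero).mp s5
  rw [Lp.norm_def, Lp.norm_def, eLpNorm_congr_norm_ae key]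

theorem tr_comm [Countable Γ₁] [Countable Γ₂] (F : FibD V R₁ R₂ ω m B)
    {x y : Lp ℋ 2 d.μ →L[ℂ] Lp ℋ 2 d.μ} (hx : AA d (legs R₁ R₂) x) (hy : AA d (legs R₁ R₂) y) :
    ⟪(Lp.const 2 d.μ ω : Lp ℋ 2 d.μ), (x * y) (Lp.const 2 d.μ ω)⟫_ℂ =
      ⟪(Lp.const 2 d.μ ω : Lp ℋ 2 d.μ), (y * x) (Lp.const 2 d.μ ω)⟫_ℂ :=
  tr_of_norm (MM d F) (Lp.const 2 d.μ ω) (fun T hT => norm_adj F hT) hx hy

/-- The unitary of the finite algebra with `u Ω = π(h) Ω`. -/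
theorem exists_un (F : FibD V R₁ R₂ ω m B) (h : D) :
    ∃ u : Lp ℋ 2 d.μ →L[ℂ] Lp ℋ 2 d.μ, AA d (legs R₁ R₂) u ∧ star u * u = 1 ∧ u * star u = 1 ∧
      u (Lp.const 2 d.μ ω) = pi d F.adjV h (Lp.const 2 d.μ ω) := by
  refine ⟨pi d F.adjV h * kp d ℋ h⁻¹, ?_, ?_, ?_, ?_⟩
  · rintro w (⟨S, hS, rfl⟩ | ⟨a, ha, rfl⟩)
    · have e1 := kp_ind d h⁻¹ hS (K := ℋ)
      have hS' : MeasurableSet (d.act h⁻¹⁻¹ ⁻¹' S) := (d.mp h⁻¹⁻¹).measurable hS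
      have e2 := pi_ind d F.adjV h hS'
      have e3 : d.act h⁻¹ ⁻¹' (d.act h⁻¹⁻¹ ⁻¹' S) = S := by
        ext x
        rw [Set.mem_preimage, Set.mem_preimage, inv_inv, act_inv]
      rw [e3] at e2
      rw [mul_assoc, e1, ← mul_assoc, e2, mul_assoc]
    · have e1 := kp_comp d h⁻¹ a
      have e2 := pi_comp d F.adjV h (F.legs_V a ha)
      rw [mul_assoc, e1, ← mul_assoc, e2, mul_assoc]
  · rw [star_mul, star_eq_adjoint, star_eq_adjoint, adjoint_kp, adjoint_pi, inv_inv]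
    calc kp d ℋ h * pi d F.adjV h⁻¹ * (pi d F.adjV h * kp d ℋ h⁻¹)
        = kp d ℋ h * (pi d F.adjV h⁻¹ * pi d F.adjV h) * kp d ℋ h⁻¹ := by simp only [mul_assoc]
      _ = 1 := by rw [pi_inv_mul, mul_one, kp_mul_inv]
  · rw [star_mul, star_eq_adjoint, star_eq_adjoint, adjoint_kp, adjoint_pi, inv_inv]
    calc pi d F.adjV h * kp d ℋ h⁻¹ * (kp d ℋ h * pi d F.adjV h⁻¹)
        = pi d F.adjV h * (kp d ℋ h⁻¹ * kp d ℋ h) * pi d F.adjV h⁻¹ := by simp only [mul_assoc]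
      _ = 1 := by rw [kp_inv_mul, mul_one, pi_mul_inv]
  · rw [ContinuousLinearMap.mul_apply, kp_const]

theorem comp_ind {S : Set d.X} (hS : MeasurableSet S) (A : ℋ →L[ℂ] ℋ) (ξ : Lp ℋ 2 d.μ) :
    A.compLpL 2 d.μ (H790.ind d.μ ℋ S ξ) = H790.ind d.μ ℋ S (A.compLpL 2 d.μ ξ) :=
  congrArg (fun T : Lp ℋ 2 d.μ →L[ℂ] Lp ℋ 2 d.μ => T ξ) (ind_comp hS A)

/-- The product rule for sizes. -/
theorem sh_FF (F : FibD V R₁ R₂ ω m B) (h : D) {Z : Lp ℋ 2 d.μ →L[ℂ] Lp ℋ 2 d.μ}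
    (hZ : AA d (legs R₁ R₂) Z) {J J' : ℕ} (h1 : Z (pi d F.adjV h (Lp.const 2 d.μ ω)) ∈ FF d m B J)
    {ζ : Lp ℋ 2 d.μ} (h2 : ζ ∈ FF d m B J') : Z (pi d F.adjV h ζ) ∈ FF d m B (J + J') := by
  set L : Lp ℋ 2 d.μ →L[ℂ] Lp ℋ 2 d.μ := Z * pi d F.adjV h * (m (B J')).compLpL 2 d.μ with hL
  have key : ∀ ξ, (m (B (J + J'))).compLpL 2 d.μ (L ξ) = L ξ := by
    intro ξ
    refine F.mem_all (LinearMap.eqLocus
      (((m (B (J + J'))).compLpL 2 d.μ ∘L L : Lp ℋ 2 d.μ →L[ℂ] Lp ℋ 2 d.μ) :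
        Lp ℋ 2 d.μ →ₗ[ℂ] Lp ℋ 2 d.μ) (L : Lp ℋ 2 d.μ →ₗ[ℂ] Lp ℋ 2 d.μ)) ?_ ?_ ξ
    · exact isClosed_eq ((m (B (J + J'))).compLpL 2 d.μ ∘L L).continuous L.continuous
    · intro S hS k g
      change (m (B (J + J'))).compLpL 2 d.μ (L (H790.ind d.μ ℋ S (Lp.const 2 d.μ (R₁ k (R₂ g ω))))) =
        L (H790.ind d.μ ℋ S (Lp.const 2 d.μ (R₁ k (R₂ g ω))))
      have e1 : L (H790.ind d.μ ℋ S (Lp.const 2 d.μ (R₁ k (R₂ g ω)))) =
          Z (pi d F.adjV h (H790.ind d.μ ℋ S (Lp.const 2 d.μ (m (B J') (R₁ k (R₂ g ω)))))) := by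
        rw [hL]
        change Z (pi d F.adjV h ((m (B J')).compLpL 2 d.μ (H790.ind d.μ ℋ S
          (Lp.const 2 d.μ (R₁ k (R₂ g ω)))))) = _
        rw [comp_ind hS, comp_const]
      rw [e1, F.msk]
      split_ifs with hk
      · have hS' : MeasurableSet (d.act h⁻¹ ⁻¹' S) := (d.mp h⁻¹).measurable hS
        have e2 : Z (pi d F.adjV h (H790.ind d.μ ℋ S (Lp.const 2 d.μ (R₁ k (R₂ g ω))))) =
            H790.ind d.μ ℋ (d.act h⁻¹ ⁻¹' S) (lam d R₁ k (lam d R₂ g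
              (Z (pi d F.adjV h (Lp.const 2 d.μ ω))))) := by
          rw [gen_eq F]
          have a1 : pi d F.adjV h (H790.ind d.μ ℋ S (lam d R₁ k (lam d R₂ g (Lp.const 2 d.μ ω)))) =
              H790.ind d.μ ℋ (d.act h⁻¹ ⁻¹' S) (pi d F.adjV h (lam d R₁ k
                (lam d R₂ g (Lp.const 2 d.μ ω)))) :=
            congrArg (fun T : Lp ℋ 2 d.μ →L[ℂ] Lp ℋ 2 d.μ => T (lam d R₁ k
              (lam d R₂ g (Lp.const 2 d.μ ω)))) (pi_ind d F.adjV h hS)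
          have a2 : ∀ ξ, pi d F.adjV h (lam d R₁ k ξ) = lam d R₁ k (pi d F.adjV h ξ) := fun ξ =>
            congrArg (fun T : Lp ℋ 2 d.μ →L[ℂ] Lp ℋ 2 d.μ => T ξ) (pi_lam d F.adjV F.com₁ h k)
          have a3 : ∀ ξ, pi d F.adjV h (lam d R₂ g ξ) = lam d R₂ g (pi d F.adjV h ξ) := fun ξ =>
            congrArg (fun T : Lp ℋ 2 d.μ →L[ℂ] Lp ℋ 2 d.μ => T ξ) (pi_lam d F.adjV F.com₂ h g)
          rw [a1, hZ.dcm.apply hS', a2, AA.lam₁ hZ, a3, AA.lam₂ hZ]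
        rw [e2]
        set ζ' := Z (pi d F.adjV h (Lp.const 2 d.μ ω)) with hζ'
        have e3 : (m (B J)).compLpL 2 d.μ ζ' = ζ' := h1
        rw [comp_ind hS']
        congr 1
        change (m (B (J + J'))).compLpL 2 d.μ ((R₁ k).compLpL 2 d.μ ((R₂ g).compLpL 2 d.μ ζ')) =
          (R₁ k).compLpL 2 d.μ ((R₂ g).compLpL 2 d.μ ζ')
        have e4 : (R₂ g).compLpL 2 d.μ ζ' = (m (B J)).compLpL 2 d.μ ((R₂ g).compLpL 2 d.μ ζ') := by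
          conv_lhs => rw [← e3]
          have := congrArg (fun T : Lp ℋ 2 d.μ →L[ℂ] Lp ℋ 2 d.μ => T ζ')
            ((comp_mul (μ := d.μ) (m (B J)) (R₂ g)).symm.trans ((congrArg
              (fun A : ℋ →L[ℂ] ℋ => A.compLpL 2 d.μ) (F.msk_R₂ (B J) g)).trans
                (comp_mul (μ := d.μ) (R₂ g) (m (B J)))))
          exact this.symm
        rw [e4]
        have e5 := congrArg (fun A : ℋ →L[ℂ] ℋ => A.compLpL 2 d.μ ((R₂ g).compLpL 2 d.μ ζ'))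
          (F.msk_mul_R₁ (J := J) (J' := J') hk)
        simp only [comp_mul] at e5
        exact e5
      · have z1 : (Lp.const 2 d.μ (0 : ℋ) : Lp ℋ 2 d.μ) = 0 := map_zero _
        rw [z1]
        simp only [map_zero]
  have e6 : L ζ = Z (pi d F.adjV h ζ) := by
    have e7 : (m (B J')).compLpL 2 d.μ ζ = ζ := h2
    change Z (pi d F.adjV h ((m (B J')).compLpL 2 d.μ ζ)) = _
    rw [e7]
  have := key ζ
  rw [e6] at this
  exact this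

/-- Sizes of adjoints. -/
theorem st_FF (F : FibD V R₁ R₂ ω m B) {z : Lp ℋ 2 d.μ →L[ℂ] Lp ℋ 2 d.μ}
    (hz : AA d (legs R₁ R₂) z) {J : ℕ} (h1 : z (Lp.const 2 d.μ ω) ∈ FF d m B J) :
    adjoint z (Lp.const 2 d.μ ω) ∈ FF d m B J := by
  set Ω : Lp ℋ 2 d.μ := Lp.const 2 d.μ ω with hΩ
  have hza := AA.adj F.legs_adj hz
  have h2 : (m (B J)).compLpL 2 d.μ (z Ω) = z Ω := h1
  have hma : adjoint ((m (B J)).compLpL 2 d.μ) = (m (B J)).compLpL 2 d.μ := by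
    have := comp_adjoint (μ := d.μ) (m (B J))
    rw [F.madj] at this
    exact this
  set δ := (m (B J)).compLpL 2 d.μ (adjoint z Ω) - adjoint z Ω with hδ
  have key : ∀ ξ, ⟪δ, ξ⟫_ℂ = 0 := by
    intro ξ
    refine F.mem_all (LinearMap.ker (innerSL ℂ δ : Lp ℋ 2 d.μ →ₗ[ℂ] ℂ)) ?_ ?_ ξ
    · exact isClosed_eq (innerSL ℂ δ).continuous continuous_const
    · intro S hS k g
      change ⟪δ, H790.ind d.μ ℋ S (Lp.const 2 d.μ (R₁ k (R₂ g ω)))⟫_ℂ = 0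
      rw [hδ, inner_sub_left]
      have e1 : ⟪(m (B J)).compLpL 2 d.μ (adjoint z Ω),
          H790.ind d.μ ℋ S (Lp.const 2 d.μ (R₁ k (R₂ g ω)))⟫_ℂ =
          ⟪adjoint z Ω, H790.ind d.μ ℋ S (Lp.const 2 d.μ (m (B J) (R₁ k (R₂ g ω))))⟫_ℂ := by
        rw [← adjoint_inner_right, hma, comp_ind hS, comp_const]
      rw [e1, F.msk]
      split_ifs with hk
      · rw [sub_self]
      · have z1 : (Lp.const 2 d.μ (0 : ℋ) : Lp ℋ 2 d.μ) = 0 := map_zero _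
        rw [z1, map_zero, inner_zero_right, zero_sub, neg_eq_zero]
        rw [adjoint_inner_left, gen_eq F, hz.dcm.apply hS, AA.lam₁ hz, AA.lam₂ hz]
        -- move everything to the other side
        have a1 : ⟪Ω, H790.ind d.μ ℋ S (lam d R₁ k (lam d R₂ g (z Ω)))⟫_ℂ =
            ⟪H790.ind d.μ ℋ S (Lp.const 2 d.μ (R₁ k⁻¹ (R₂ g⁻¹ ω))), z Ω⟫_ℂ := by
          rw [gen_eq F]
          rw [← adjoint_inner_left, adjoint_ind hS, ← adjoint_inner_left, adjoint_lam d F.adj₁,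
            ← adjoint_inner_left, adjoint_lam d F.adj₂]
          congr 1
          have b1 : ∀ ξ, lam d R₂ g⁻¹ (lam d R₁ k⁻¹ ξ) = lam d R₁ k⁻¹ (lam d R₂ g⁻¹ ξ) := by
            intro ξ
            have := congrArg (fun A : ℋ →L[ℂ] ℋ => A.compLpL 2 d.μ ξ) (F.com₁₂ k⁻¹ g⁻¹)
            simp only [comp_mul] at this
            exact this.symm
          rw [b1]
          have b2 : ∀ ξ, lam d R₁ k⁻¹ (H790.ind d.μ ℋ S ξ) = H790.ind d.μ ℋ S (lam d R₁ k⁻¹ ξ) :=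
            fun ξ => comp_ind hS (R₁ k⁻¹) ξ
          have b3 : ∀ ξ, lam d R₂ g⁻¹ (H790.ind d.μ ℋ S ξ) = H790.ind d.μ ℋ S (lam d R₂ g⁻¹ ξ) :=
            fun ξ => comp_ind hS (R₂ g⁻¹) ξ
          rw [b3, b2]
        rw [a1, ← h2, ← adjoint_inner_left, hma, comp_ind hS, comp_const, F.msk, if_neg]
        · rw [z1, map_zero, inner_zero_left]
        · intro hk'
          exact hk (by simpa using F.binv J _ hk')
  have h3 : δ = 0 := by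
    have := key δ
    exact inner_self_eq_zero.mp this
  rw [mem_FF]
  exact sub_eq_zero.mp h3

/-- **The data of the growth lemma for the induced picture.** -/
theorem grD [Countable Γ₁] [Countable Γ₂] (F : FibD V R₁ R₂ ω m B) :
    GrD (pi d F.adjV) (MM d F) (Lp.const 2 d.μ ω) (FF d m B) where
  adj h := adjoint_pi d F.adjV h
  Ad h x hx := AA.conj F.adjV F.legs_V h hx
  one := norm_const_one F
  tr x hx y hy := tr_comm F hx hy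
  inv h x hx := by
    obtain ⟨u, hu, hu1, hu2, hu3⟩ := exists_un F h⁻¹ (d := d)
    have hua : AA d (legs R₁ R₂) (adjoint u) := AA.adj F.legs_adj hu
    have e1 : ⟪(Lp.const 2 d.μ ω : Lp ℋ 2 d.μ), (pi d F.adjV h * x * pi d F.adjV h⁻¹)
        (Lp.const 2 d.μ ω)⟫_ℂ =
        ⟪(Lp.const 2 d.μ ω : Lp ℋ 2 d.μ), (adjoint u * (x * u)) (Lp.const 2 d.μ ω)⟫_ℂ := by
      have a1 : (pi d F.adjV h * x * pi d F.adjV h⁻¹) (Lp.const 2 d.μ ω) =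
          pi d F.adjV h (x (pi d F.adjV h⁻¹ (Lp.const 2 d.μ ω))) := rfl
      have a2 : (adjoint u * (x * u)) (Lp.const 2 d.μ ω) =
          adjoint u (x (u (Lp.const 2 d.μ ω))) := rfl
      rw [a1, a2, ← adjoint_inner_left, adjoint_pi, adjoint_inner_right, hu3]
    rw [e1, tr_comm F hua (AA.mul hx hu), mul_assoc]
    have e2 : u * adjoint u = 1 := hu2
    rw [e2, mul_one]
  un h := by
    obtain ⟨u, hu, hu1, hu2, hu3⟩ := exists_un F h (d := d)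
    exact ⟨u, hu, hu1, hu2, hu3⟩
  mono J J' hJ ξ hξ := by
    have e1 : (m (B J)).compLpL 2 d.μ ξ = ξ := hξ
    change (m (B J')).compLpL 2 d.μ ξ = ξ
    have e2 := congrArg (fun A : ℋ →L[ℂ] ℋ => A.compLpL 2 d.μ ξ) (F.msk_mono hJ)
    simp only [comp_mul] at e2
    have e3 : (m (B J')).compLpL 2 d.μ ((m (B J)).compLpL 2 d.μ ξ) = (m (B J)).compLpL 2 d.μ ξ := e2
    rwa [e1] at e3
  sh h Z hZ z' hz' J J' h1 h2 := sh_FF F h hZ h1 h2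
  st z hz J h1 := st_FF F hz h1

/-- **Growth of sizes in the induced picture.** -/
theorem growth_ind [Countable Γ₁] [Countable Γ₂] (F : FibD V R₁ R₂ ω m B) {a : D}
    (gap : ∀ η : ℝ, 0 < η → ∃ p : ℕ, 0 < p ∧ ∃ l : Fin p → D, (∀ i, Commute (l i) a) ∧
      ∀ x : Lp ℋ 2 d.μ →L[ℂ] Lp ℋ 2 d.μ, AA d (legs R₁ R₂) x → ‖x‖ ≤ 1 →
        ‖(((p : ℂ)⁻¹) • ∑ i, pi d F.adjV (l i) * x * pi d F.adjV (l i)⁻¹) (Lp.const 2 d.μ ω) -
          ⟪(Lp.const 2 d.μ ω : Lp ℋ 2 d.μ), x (Lp.const 2 d.μ ω)⟫_ℂ •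
            (Lp.const 2 d.μ ω : Lp ℋ 2 d.μ)‖ ≤ η)
    (kap : ∀ h : D, ∀ ε : ℝ, 0 < ε → ∃ J, ∃ Z : Lp ℋ 2 d.μ →L[ℂ] Lp ℋ 2 d.μ,
      AA d (legs R₁ R₂) Z ∧ ‖Z‖ ≤ 1 ∧
        (m (B J)).compLpL 2 d.μ (Z (pi d F.adjV h (Lp.const 2 d.μ ω))) =
          Z (pi d F.adjV h (Lp.const 2 d.μ ω)) ∧
        ‖(Z - 1) (Lp.const 2 d.μ ω)‖ ≤ ε)
    {ε : ℝ} (hε : 0 < ε) :
    ∃ C : ℕ, ∀ k : ℕ,
      ‖(m (B (C * 6 ^ k))ᶜ).compLpL 2 d.μ (pi d F.adjV (a ^ 2 ^ k) (Lp.const 2 d.μ ω))‖ ≤ ε := by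
  obtain ⟨C, hC⟩ := (grD F (d := d)).growth_vec (a := a) gap (fun h ε hε => by
    obtain ⟨J, Z, h1, h2, h3, h4⟩ := kap h ε hε
    exact ⟨J, Z, ⟨h1, h2, h3⟩, h4⟩) hε
  refine ⟨C, fun k => ?_⟩
  obtain ⟨v, hv, hv1⟩ := hC k
  have e1 : (m (B (C * 6 ^ k))).compLpL 2 d.μ v = v := hv
  set P := (m (B (C * 6 ^ k))).compLpL 2 d.μ with hP
  set ζ := pi d F.adjV (a ^ 2 ^ k) (Lp.const 2 d.μ ω) with hζ
  have e2 : (m (B (C * 6 ^ k))ᶜ).compLpL 2 d.μ = 1 - P := by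
    rw [F.msk_compl, H790.comp_sub, comp_one]
  have e3 : (1 - P) ζ = (1 - P) (ζ - v) := by
    have e4 : (1 - P) v = 0 := by rw [sub_apply, one_apply_eq_self, e1, sub_self]
    rw [map_sub, e4, sub_zero]
  rw [e2, e3]
  -- `1 - P` is a contraction
  have hPa : adjoint P = P := by
    have := comp_adjoint (μ := d.μ) (m (B (C * 6 ^ k)))
    rw [F.madj] at this
    exact this
  have hPP : P * P = P := by
    rw [hP, ← comp_mul, F.msk_mono le_rfl]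
  have hQ : ∀ ξ, ‖(1 - P) ξ‖ ≤ ‖ξ‖ := by
    intro ξ
    have h1 : ⟪P ξ, (1 - P) ξ⟫_ℂ = 0 := by
      rw [← adjoint_inner_right, hPa, sub_apply, one_apply_eq_self, map_sub]
      have : P (P ξ) = P ξ := congrArg (fun T : Lp ℋ 2 d.μ →L[ℂ] Lp ℋ 2 d.μ => T ξ) hPP
      rw [this, sub_self, inner_zero_right]
    have h2 : ξ = P ξ + (1 - P) ξ := by
      rw [sub_apply, one_apply_eq_self]; abel
    have h3 : ‖ξ‖ * ‖ξ‖ = ‖P ξ‖ * ‖P ξ‖ + ‖(1 - P) ξ‖ * ‖(1 - P) ξ‖ := by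
      conv_lhs => rw [h2]
      exact norm_add_sq_eq_norm_sq_add_norm_sq_of_inner_eq_zero _ _ h1
    nlinarith [norm_nonneg (P ξ), norm_nonneg ((1 - P) ξ), norm_nonneg ξ,
      sq_nonneg (‖ξ‖ - ‖(1 - P) ξ‖)]
  exact (hQ _).trans hv1

end inst

end Vale.Agent.P092.H221.Gr
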