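import Vale.Agent.P092.H103.Lat
import Vale.Agent.P092.H221.Gr2

/-!
P092 (helper221), team D, block [D-GL]: the growth lemma on `L²(E/Λ; ℋ)`, in the letters of the
counting principle.
-/

set_option linter.all false

open scoped InnerProductSpace ENNReal
open MeasureTheory Filter Topology ContinuousLinearMap

namespace Vale.Agent.P092.H221.Gr

open Vale.Agent.P092.H790 Vale.Agent.P092.H160 Vale.Agent.P092.H34 Vale.Agent.P092.H34.Ind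
  Vale.Agent.P092.H103 Vale.Agent.P092.H85

section iro

variable {E : Type} [Group E] [TopologicalSpace E] [IsTopologicalGroup E] [LocallyCompactSpace E]
  [SecondCountableTopology E] [T2Space E] [MeasurableSpace E] [BorelSpace E]
  {Λ : Subgroup E} [DiscreteTopology Λ] [MeasurableSpace (E ⧸ Λ)] [BorelSpace (E ⧸ Λ)]
  {ν : Measure (E ⧸ Λ)} [IsProbabilityMeasure ν] (hν : ∀ g : E, ν.map (fun x => g • x) = ν)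
  [Countable Λ] {Γ₁ Γ₂ : Type} [Group Γ₁] [Group Γ₂] [Countable Γ₁] [Countable Γ₂]
  {ℋ : Type} [NormedAddCommGroup ℋ] [InnerProductSpace ℂ ℋ] [CompleteSpace ℋ]
  {V : Λ →* (ℋ →L[ℂ] ℋ)} {R₁ : Γ₁ →* (ℋ →L[ℂ] ℋ)} {R₂ : Γ₂ →* (ℋ →L[ℂ] ℋ)} {ω : ℋ}
  {m : Set Γ₁ → ℋ →L[ℂ] ℋ} {B : ℕ → Set Γ₁}

theorem pi_eq_iro (F : FibD V R₁ R₂ ω m B) (g : E) :
    pi (cdat ν hν) F.adjV g = iro hν V g := rfl

/-- The operators of the finite algebra: decomposable and commuting with both legs. -/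
def Fin3 (ν : Measure (E ⧸ Λ)) (R₁ : Γ₁ →* (ℋ →L[ℂ] ℋ)) (R₂ : Γ₂ →* (ℋ →L[ℂ] ℋ))
    (x : Lp ℋ 2 ν →L[ℂ] Lp ℋ 2 ν) : Prop :=
  (∀ S : Set (E ⧸ Λ), MeasurableSet S → x * H790.ind ν ℋ S = H790.ind ν ℋ S * x) ∧
    (∀ k, x * (R₁ k).compLpL 2 ν = (R₁ k).compLpL 2 ν * x) ∧
    ∀ g, x * (R₂ g).compLpL 2 ν = (R₂ g).compLpL 2 ν * x

theorem fin3_iff [IsProbabilityMeasure ν] {x : Lp ℋ 2 ν →L[ℂ] Lp ℋ 2 ν} :
    Fin3 ν R₁ R₂ x ↔ AA (cdat ν hν) (legs R₁ R₂) x := by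
  constructor
  · rintro ⟨h1, h2, h3⟩ w (⟨S, hS, rfl⟩ | ⟨a, (⟨k, rfl⟩ | ⟨g, rfl⟩), rfl⟩)
    · exact h1 S hS
    · exact h2 k
    · exact h3 g
  · intro h
    exact ⟨fun S hS => h _ (Or.inl ⟨S, hS, rfl⟩), fun k => h _ (Or.inr ⟨_, Or.inl ⟨k, rfl⟩, rfl⟩),
      fun g => h _ (Or.inr ⟨_, Or.inr ⟨g, rfl⟩, rfl⟩)⟩

/-- **Growth of sizes**: the gap hypothesis is a finite mean of conjugations by elements which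
commute with `a`; the Kaplansky hypothesis is the approximation of single elements. -/
theorem growth_iro (F : FibD V R₁ R₂ ω m B) {a : E}
    (gap : ∀ η : ℝ, 0 < η → ∃ p : ℕ, 0 < p ∧ ∃ l : Fin p → E, (∀ i, Commute (l i) a) ∧
      ∀ x : Lp ℋ 2 ν →L[ℂ] Lp ℋ 2 ν, Fin3 ν R₁ R₂ x → ‖x‖ ≤ 1 →
        ‖(((p : ℂ)⁻¹) • ∑ i, iro hν V (l i) * x * iro hν V (l i)⁻¹) (Lp.const 2 ν ω) -
          ⟪(Lp.const 2 ν ω : Lp ℋ 2 ν), x (Lp.const 2 ν ω)⟫_ℂ • (Lp.const 2 ν ω : Lp ℋ 2 ν)‖ ≤ η)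
    (kap : ∀ h : E, ∀ ε : ℝ, 0 < ε → ∃ J, ∃ Z : Lp ℋ 2 ν →L[ℂ] Lp ℋ 2 ν,
      Fin3 ν R₁ R₂ Z ∧ ‖Z‖ ≤ 1 ∧
        (m (B J)).compLpL 2 ν (Z (iro hν V h (Lp.const 2 ν ω))) =
          Z (iro hν V h (Lp.const 2 ν ω)) ∧
        ‖(Z - 1) (Lp.const 2 ν ω)‖ ≤ ε)
    {ε : ℝ} (hε : 0 < ε) :
    ∃ C : ℕ, ∀ k : ℕ,
      ‖(m (B (C * 6 ^ k))ᶜ).compLpL 2 ν (iro hν V (a ^ 2 ^ k) (Lp.const 2 ν ω))‖ ≤ ε := by
  refine growth_ind (d := cdat ν hν) F (a := a) (fun η hη => ?_) (fun h ε hε => ?_) hε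
  · obtain ⟨p, hp, l, hl, h1⟩ := gap η hη
    exact ⟨p, hp, l, hl, fun x hx hx1 => h1 x ((fin3_iff hν).2 hx) hx1⟩
  · obtain ⟨J, Z, h1, h2, h3, h4⟩ := kap h ε hε
    exact ⟨J, Z, (fin3_iff hν).1 h1, h2, h3, h4⟩

end iro

end Vale.Agent.P092.H221.Gr
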