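import Vale.Agent.P092.H221.Nf1

/-!
P092 (helper221), row (K2), part 2: the bounds.
-/

set_option linter.all false

open Matrix

namespace Vale.Agent.P092.H221.Nf

open Vale.Agent.P092.H303 (hyp Idx)
open Vale.Agent.P092.H714.Cl (hf)

variable {ω : Type} [Fintype ω] [DecidableEq ω] {r : ℕ}

/-- `c` on `e_i`, `c⁻¹` on the dual vectors, `1` in the middle. -/
def dd {k : Type} [Field k] (r : ℕ) (ω : Type) (c : k) : Idx r ω → k :=
  Sum.elim (Sum.elim (fun _ => c) (fun _ => c⁻¹)) (fun _ => 1)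

theorem dd_ne {k : Type} [Field k] {c : k} (hc : c ≠ 0) (i : Idx r ω) : dd r ω c i ≠ 0 := by
  rcases i with (i | i) | i
  · exact hc
  · exact inv_ne_zero hc
  · exact one_ne_zero

/-- The inverse of `hyp r ε J₀`. -/
def hypi {k : Type} [Field k] (r : ℕ) (ε : k) (J₁ : Matrix ω ω k) :
    Matrix (Idx r ω) (Idx r ω) k :=
  fromBlocks (fromBlocks 0 (ε⁻¹ • (1 : Matrix (Fin r) (Fin r) k)) 1 0) 0 0 J₁

theorem hyp_hypi {k : Type} [Field k] {ε : k} (hε : ε ≠ 0) {J₀ J₁ : Matrix ω ω k}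
    (h : J₀ * J₁ = 1) : hyp r ε J₀ * hypi r ε J₁ = 1 := by
  unfold hyp hypi
  rw [fromBlocks_multiply, fromBlocks_multiply]
  simp only [Matrix.mul_zero, Matrix.zero_mul, add_zero, zero_add, Matrix.mul_one, Matrix.one_mul,
    h, smul_mul_assoc, mul_smul_comm, smul_smul, smul_zero, inv_mul_cancel₀ hε, one_smul,
    fromBlocks_one]

theorem iso_mat {k : Type} [Field k] {σ : k →+* k} {n : Type} [Fintype n] [DecidableEq n]
    {J P : Matrix n n k} (h : ∀ i j, hf σ J (cl P i) (cl P j) = J i j) :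
    Pᵀ * (J * P.map σ) = J := by
  ext i j
  rw [← h i j, Matrix.mul_apply]
  unfold hf dotProduct
  refine Finset.sum_congr rfl fun a _ => ?_
  rw [Matrix.transpose_apply, Matrix.mul_apply]
  rfl

section norm

variable {k : Type} [NormedField k] {σ : k →+* k} {ε : k} {J₀ J₁ : Matrix ω ω k}

theorem norm_dd_hypi (hσn : True) {c : k} (hc : c ≠ 0) (a i : Idx r ω) :
    ‖(dd r ω c i)⁻¹‖ * ‖hypi r ε J₁ a i‖ = ‖dd r ω c a‖ * ‖hypi r ε J₁ a i‖ := by
  rcases i with (i | i) | i <;> rcases a with (a | a) | a <;>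
    simp [dd, hypi, Matrix.one_apply]

/-- The core of the normal form. -/
theorem nf_core (hσn : ∀ x, ‖σ x‖ = ‖x‖) (hε : ε ≠ 0) (hJ : J₀ * J₁ = 1) {a b : ℝ} (ha : 0 < a)
    (han : ∀ x : ω → k, a * ‖x‖ ^ 2 ≤ ‖hf σ J₀ x x‖)
    (hb : ∀ x y : ω → k, ‖hf σ J₀ x y‖ ≤ b * ‖x‖ * ‖y‖) (hb0 : 0 ≤ b) {C : ℝ} (hC : 0 ≤ C) :
    ∃ C' : ℝ, 0 ≤ C' ∧ ∀ (P : Matrix (Idx r ω) (Idx r ω) k) (M : ℝ) (c : k), 1 ≤ M → ‖c‖ = M →
      Iu σ ε J₀ P → (∀ i j, ‖P i j‖ ≤ C * M) → (∀ i j, ‖P i (.inl (.inl j))‖ ≤ C / M) →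
      (∀ i j, ‖(P * diagonal (dd r ω c)) i j‖ ≤ C') ∧
        ∃ B : Matrix (Idx r ω) (Idx r ω) k, P * diagonal (dd r ω c) * B = 1 ∧
          B * (P * diagonal (dd r ω c)) = 1 ∧ ∀ i j, ‖B i j‖ ≤ C' := by
  classical
  -- constants
  obtain ⟨β, hβ0, hβ⟩ : ∃ β : ℝ, 0 ≤ β ∧ ∀ i j, ‖hyp r ε J₀ i j‖ ≤ β :=
    ⟨∑ i, ∑ j, ‖hyp r ε J₀ i j‖, Finset.sum_nonneg fun _ _ => Finset.sum_nonneg fun _ _ =>
      norm_nonneg _, fun i j => (Finset.single_le_sum (f := fun j => ‖hyp r ε J₀ i j‖)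
        (fun _ _ => norm_nonneg _) (Finset.mem_univ j)).trans (Finset.single_le_sum
        (f := fun i => ∑ j, ‖hyp r ε J₀ i j‖) (fun _ _ => Finset.sum_nonneg fun _ _ =>
        norm_nonneg _) (Finset.mem_univ i))⟩
  obtain ⟨γ, hγ0, hγ⟩ : ∃ β : ℝ, 0 ≤ β ∧ ∀ i j, ‖hypi r ε J₁ i j‖ ≤ β :=
    ⟨∑ i, ∑ j, ‖hypi r ε J₁ i j‖, Finset.sum_nonneg fun _ _ => Finset.sum_nonneg fun _ _ =>
      norm_nonneg _, fun i j => (Finset.single_le_sum (f := fun j => ‖hypi r ε J₁ i j‖)
        (fun _ _ => norm_nonneg _) (Finset.mem_univ j)).trans (Finset.single_le_sum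
        (f := fun i => ∑ j, ‖hypi r ε J₁ i j‖) (fun _ _ => Finset.sum_nonneg fun _ _ =>
        norm_nonneg _) (Finset.mem_univ i))⟩
  set m₀ : ℝ := Real.sqrt (b / a) with hm₀
  set CA : ℝ := C + m₀ + r * (b * m₀ * C) * C with hCA
  have hm0 : 0 ≤ m₀ := Real.sqrt_nonneg _
  have hr0 : (0 : ℝ) ≤ r := Nat.cast_nonneg r
  have hCA0 : 0 ≤ CA := by positivity
  set N : ℝ := (Fintype.card (Idx r ω) : ℝ) with hN
  have hN0 : 0 ≤ N := Nat.cast_nonneg _
  refine ⟨CA + N * (N * (β * CA) * γ), by positivity, ?_⟩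
  intro P M c hM hcM hP h1 h2
  have hM0 : 0 < M := lt_of_lt_of_le one_pos hM
  have hc0 : c ≠ 0 := fun h => by
    rw [h, norm_zero] at hcM
    exact hM0.ne hcM
  have hσi : Function.Injective σ := σ.injective
  -- the middle block
  have hmid : ∀ w, ‖fun i => P (.inr i) (.inr w)‖ ≤ m₀ := by
    intro w
    have e1 := han fun i => P (.inr i) (.inr w)
    rw [hP.mm hσi w w] at e1
    have e2 : ‖J₀ w w‖ ≤ b := by
      have e3 := hb (Pi.single w 1) (Pi.single w 1)
      have e4 : hf σ J₀ (Pi.single w 1) (Pi.single w 1) = J₀ w w := by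
        unfold hf
        have e5 : (fun i => σ ((Pi.single w 1 : ω → k) i)) = Pi.single w 1 := by
          funext i
          by_cases h : i = w
          · subst h; simp
          · simp [h]
        rw [e5, single_dotProduct, one_mul]
        simp
      rw [e4] at e3
      have e6 : ‖(Pi.single w 1 : ω → k)‖ ≤ 1 := by
        refine (pi_norm_le_iff_of_nonneg zero_le_one).2 fun i => ?_
        by_cases h : i = w
        · subst h; simp
        · simp [h]
      calc ‖J₀ w w‖ ≤ b * ‖(Pi.single w 1 : ω → k)‖ * ‖(Pi.single w 1 : ω → k)‖ := e3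
        _ ≤ b * 1 * 1 := by gcongr
        _ = b := by ring
    have e7 : ‖fun i => P (.inr i) (.inr w)‖ ^ 2 ≤ b / a := by
      rw [le_div_iff₀ ha, mul_comm]
      exact e1.trans e2
    exact Real.le_sqrt_of_sq_le e7
  -- the upper part
  have hlow : ∀ j, ‖fun i => P (.inr i) (.inl (.inr j))‖ ≤ C * M := fun j =>
    (pi_norm_le_iff_of_nonneg (by positivity)).2 fun i => h1 _ _
  have hup : ∀ l w, ‖P (.inl (.inl l)) (.inr w)‖ ≤ r * (b * m₀ * C) * C := by
    intro l w
    rw [hP.eu hσi l w, norm_neg]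
    refine (norm_sum_le _ _).trans ?_
    have e1 : ∀ j : Fin r, ‖hf σ J₀ (fun i => P (.inr i) (.inr w))
        (fun i => P (.inr i) (.inl (.inr j))) * P (.inl (.inl l)) (.inl (.inl j))‖ ≤
        b * m₀ * C * C := by
      intro j
      rw [norm_mul]
      calc ‖hf σ J₀ (fun i => P (.inr i) (.inr w)) (fun i => P (.inr i) (.inl (.inr j)))‖ *
            ‖P (.inl (.inl l)) (.inl (.inl j))‖
          ≤ (b * m₀ * (C * M)) * (C / M) := by
            refine mul_le_mul ((hb _ _).trans ?_) (h2 _ _) (norm_nonneg _) (by positivity)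
            gcongr
            · exact hmid w
            · exact hlow j
        _ = b * m₀ * C * C := by field_simp
    calc ∑ j : Fin r, ‖hf σ J₀ (fun i => P (.inr i) (.inr w))
          (fun i => P (.inr i) (.inl (.inr j))) * P (.inl (.inl l)) (.inl (.inl j))‖
        ≤ ∑ _j : Fin r, b * m₀ * C * C := Finset.sum_le_sum fun j _ => e1 j
      _ = r * (b * m₀ * C) * C := by
          rw [Finset.sum_const, Finset.card_univ, Fintype.card_fin, nsmul_eq_mul]; ring
  -- the entries of `A`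
  have hA : ∀ i j, ‖(P * diagonal (dd r ω c)) i j‖ ≤ CA := by
    intro i j
    rw [mul_diagonal, norm_mul]
    rcases j with (j | j) | j
    · have e1 : ‖dd r ω c (.inl (.inl j))‖ = M := hcM
      rw [e1]
      calc ‖P i (.inl (.inl j))‖ * M ≤ C / M * M := by gcongr; exact h2 i j
        _ = C := by field_simp
        _ ≤ CA := by
          have : 0 ≤ r * (b * m₀ * C) * C := by positivity
          linarith
    · have e1 : ‖dd r ω c (.inl (.inr j))‖ = M⁻¹ := by
        show ‖c⁻¹‖ = M⁻¹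
        rw [norm_inv, hcM]
      rw [e1]
      calc ‖P i (.inl (.inr j))‖ * M⁻¹ ≤ C * M * M⁻¹ := by gcongr; exact h1 _ _
        _ = C := by field_simp
        _ ≤ CA := by
          have : 0 ≤ r * (b * m₀ * C) * C := by positivity
          linarith
    · have e1 : ‖dd r ω c (.inr j)‖ = 1 := norm_one
      rw [e1, mul_one]
      have e2 : 0 ≤ r * (b * m₀ * C) * C := by positivity
      rcases i with (i | i) | i
      · exact (hup i j).trans (by linarith)
      · rw [hP.fw hσi i j, norm_zero]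
        exact hCA0
      · exact ((norm_le_pi_norm (fun i => P (.inr i) (.inr j)) i).trans (hmid j)).trans
          (by linarith)
  refine ⟨fun i j => (hA i j).trans ?_, ?_⟩
  · have : 0 ≤ N * (N * (β * CA) * γ) := by positivity
    linarith
  -- the inverse
  set J := hyp r ε J₀ with hJdef
  set Ji := hypi r ε J₁ with hJi
  have hJJ : J * Ji = 1 := hyp_hypi hε hJ
  have hm1 : Pᵀ * (J * P.map σ) = J := iso_mat hP.iso
  have hm2 : Pᵀ * (J * P.map σ * Ji) = 1 := by
    rw [← Matrix.mul_assoc, hm1, hJJ]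
  have hm3 : P * (J * P.map σ * Ji)ᵀ = 1 := by
    have h := congrArg Matrix.transpose (mul_eq_one_comm.1 hm2)
    rwa [Matrix.transpose_mul, Matrix.transpose_one, Matrix.transpose_transpose] at h
  have hdd : diagonal (dd r ω c) * diagonal (fun i => (dd r ω c i)⁻¹) = 1 := by
    rw [diagonal_mul_diagonal, ← diagonal_one]
    congr 1
    funext i
    exact mul_inv_cancel₀ (dd_ne hc0 i)
  have hAB : P * diagonal (dd r ω c) * (diagonal (fun i => (dd r ω c i)⁻¹) *
      (J * P.map σ * Ji)ᵀ) = 1 := by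
    rw [Matrix.mul_assoc, ← Matrix.mul_assoc (diagonal (dd r ω c)), hdd, Matrix.one_mul, hm3]
  refine ⟨_, hAB, mul_eq_one_comm.1 hAB, fun i j => ?_⟩
  rw [diagonal_mul, Matrix.transpose_apply, norm_mul]
  have e1 : ∀ a, ‖(J * P.map σ) j a‖ * ‖dd r ω c a‖ ≤ N * (β * CA) := by
    intro a
    rw [Matrix.mul_apply]
    calc ‖∑ l, J j l * (P.map σ) l a‖ * ‖dd r ω c a‖
        ≤ (∑ l, ‖J j l * (P.map σ) l a‖) * ‖dd r ω c a‖ := by
          gcongr
          exact norm_sum_le _ _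
      _ = ∑ l, ‖J j l‖ * (‖P l a‖ * ‖dd r ω c a‖) := by
          rw [Finset.sum_mul]
          refine Finset.sum_congr rfl fun l _ => ?_
          rw [norm_mul, Matrix.map_apply, hσn, mul_assoc]
      _ ≤ ∑ _l : Idx r ω, β * CA := by
          refine Finset.sum_le_sum fun l _ => mul_le_mul (hβ j l) ?_ (by positivity) hβ0
          have h := hA l a
          rwa [mul_diagonal, norm_mul] at h
      _ = N * (β * CA) := by
          rw [Finset.sum_const, Finset.card_univ, nsmul_eq_mul]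
  have e2 : ‖(dd r ω c i)⁻¹‖ * ‖(J * P.map σ * Ji) j i‖ ≤ N * (N * (β * CA) * γ) := by
    rw [Matrix.mul_apply]
    calc ‖(dd r ω c i)⁻¹‖ * ‖∑ a, (J * P.map σ) j a * Ji a i‖
        ≤ ‖(dd r ω c i)⁻¹‖ * ∑ a, ‖(J * P.map σ) j a * Ji a i‖ := by
          gcongr
          exact norm_sum_le _ _
      _ = ∑ a, ‖(J * P.map σ) j a‖ * ‖dd r ω c a‖ * ‖Ji a i‖ := by
          rw [Finset.mul_sum]
          refine Finset.sum_congr rfl fun a _ => ?_
          rw [norm_mul, mul_left_comm, norm_dd_hypi trivial hc0 a i, ← mul_assoc]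
      _ ≤ ∑ _a : Idx r ω, N * (β * CA) * γ := by
          refine Finset.sum_le_sum fun a _ => mul_le_mul (e1 a) (hγ a i) (norm_nonneg _)
            (by positivity)
      _ = N * (N * (β * CA) * γ) := by
          rw [Finset.sum_const, Finset.card_univ, nsmul_eq_mul]
  linarith

end norm

end Vale.Agent.P092.H221.Nf
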