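import Vale.Agent.P092.H221.Nf2
import Vale.Agent.P092.H337.Fr1

/-!
P092 (helper221), row (K2), part 3: NF2, the normal form of an isometry of `hyp r ε J₀` of size `M`
which contracts the maximal singular subspace of a bounded frame by `C / M`.
-/

set_option linter.all false

open Matrix Module

namespace Vale.Agent.P092.H221.Nf

open Vale.Agent.P092.H303 (hyp Idx)
open Vale.Agent.P092.H714.Cl (hf Frm)
open Vale.Agent.P092.H370.Po (SGr Sing)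

variable {ω : Type} [Fintype ω] [DecidableEq ω] {r : ℕ}

/-- weights -/
def wf (r : ℕ) (ω : Type) : Idx r ω → ℕ :=
  Sum.elim (Sum.elim (fun _ => 2) (fun _ => 0)) (fun _ => 1)

theorem dd_wf {k : Type} [Field k] {c : k} (hc : c ≠ 0) (i : Idx r ω) :
    dd r ω c i * c⁻¹ ^ wf r ω i = c⁻¹ := by
  rcases i with (i | i) | i
  · show c * c⁻¹ ^ 2 = c⁻¹
    field_simp
  · show c⁻¹ * c⁻¹ ^ 0 = c⁻¹
    rw [pow_zero, mul_one]
  · show 1 * c⁻¹ ^ 1 = c⁻¹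
    rw [one_mul, pow_one]

theorem hf_single {k : Type} [Field k] {σ : k →+* k} {n : Type} [Fintype n] [DecidableEq n]
    (J : Matrix n n k) (i j : n) : hf σ J (Pi.single i 1) (Pi.single j 1) = J i j := by
  unfold hf
  have e5 : (fun a => σ ((Pi.single j 1 : n → k) a)) = Pi.single j 1 := by
    funext a
    by_cases h : a = j
    · subst h; simp
    · simp [h]
  rw [e5, single_dotProduct, one_mul]
  simp

theorem mulVec_norm {k : Type} [NormedField k] {n m : Type} [Fintype n] [Fintype m]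
    {A : Matrix n m k} {C : ℝ} (hC : 0 ≤ C) (h : ∀ i j, ‖A i j‖ ≤ C) (x : m → k) :
    ‖A *ᵥ x‖ ≤ Fintype.card m * C * ‖x‖ := by
  refine (pi_norm_le_iff_of_nonneg (by positivity)).2 fun i => ?_
  calc ‖(A *ᵥ x) i‖ = ‖∑ j, A i j * x j‖ := rfl
    _ ≤ ∑ j, ‖A i j * x j‖ := norm_sum_le _ _
    _ ≤ ∑ _j : m, C * ‖x‖ := Finset.sum_le_sum fun j _ => by
        rw [norm_mul]
        exact mul_le_mul (h i j) (norm_le_pi_norm x j) (norm_nonneg _) hC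
    _ = Fintype.card m * C * ‖x‖ := by
        rw [Finset.sum_const, Finset.card_univ, nsmul_eq_mul]; ring

theorem mul_norm {k : Type} [NormedField k] {n m l : Type} [Fintype n] [Fintype m] [Fintype l]
    {A : Matrix n m k} {B : Matrix m l k} {C D : ℝ} (hC : 0 ≤ C) (hA : ∀ i j, ‖A i j‖ ≤ C)
    (hB : ∀ i j, ‖B i j‖ ≤ D) (i : n) (j : l) : ‖(A * B) i j‖ ≤ Fintype.card m * C * D := by
  rw [Matrix.mul_apply]
  calc ‖∑ a, A i a * B a j‖ ≤ ∑ a, ‖A i a * B a j‖ := norm_sum_le _ _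
    _ ≤ ∑ _a : m, C * D := Finset.sum_le_sum fun a _ => by
        rw [norm_mul]
        exact mul_le_mul (hA i a) (hB a j) (norm_nonneg _) hC
    _ = Fintype.card m * C * D := by
        rw [Finset.sum_const, Finset.card_univ, nsmul_eq_mul]; ring

variable {k : Type} [NontriviallyNormedField k] [ProperSpace k] {σ : k →+* k} {ε : k}
  {J₀ J₁ : Matrix ω ω k}

/-- **NF2**: the normal form, every Witt index, every form, every local field. -/
theorem nf2 (hF : Frm σ ε (hyp r ε J₀)) (hσ : Continuous σ) (hσn : ∀ x, ‖σ x‖ = ‖x‖)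
    (hJ : J₀ * J₁ = 1) {a b : ℝ} (ha : 0 < a)
    (han : ∀ x : ω → k, a * ‖x‖ ^ 2 ≤ ‖hf σ J₀ x x‖)
    (hb : ∀ x y : ω → k, ‖hf σ J₀ x y‖ ≤ b * ‖x‖ * ‖y‖) (hb0 : 0 ≤ b) {C : ℝ} (hC : 0 ≤ C) :
    ∃ C' : ℝ, 1 ≤ C' ∧ ∀ (κ κ' g : Matrix (Idx r ω) (Idx r ω) k) (M : ℝ), 1 ≤ M →
      κ' * κ = 1 → κ * κ' = 1 → (∀ i j, ‖κ i j‖ ≤ C) → (∀ i j, ‖κ' i j‖ ≤ C) →
      (∀ x y, hf σ (hyp r ε J₀) (κ *ᵥ x) (κ *ᵥ y) = hf σ (hyp r ε J₀) x y) →
      (∀ x y, hf σ (hyp r ε J₀) (g *ᵥ x) (g *ᵥ y) = hf σ (hyp r ε J₀) x y) →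
      (∀ i j, ‖g i j‖ ≤ C * M) →
      (∀ x, (∀ i, (κ *ᵥ x) (.inl (.inr i)) = 0) → (∀ w, (κ *ᵥ x) (.inr w) = 0) →
        M * ‖g *ᵥ x‖ ≤ C * ‖x‖) →
      ∃ (c : k) (A A' : Matrix (Idx r ω) (Idx r ω) k), c ≠ 0 ∧ M ≤ C' * ‖c‖ ∧ ‖c‖ ≤ C' * M ∧
        (∀ x, g *ᵥ x = c • (A *ᵥ fun i => c⁻¹ ^ wf r ω i * (κ *ᵥ x) i)) ∧
        A' * A = 1 ∧ A * A' = 1 ∧ (∀ i j, ‖A i j‖ ≤ C') ∧ ∀ i j, ‖A' i j‖ ≤ C' := by
  classical
  obtain ⟨C₂, hC20, hC2⟩ := H337.Fr.exists_frame_max hF hσ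
  obtain ⟨q, hq⟩ := NormedField.exists_one_lt_norm k
  set N : ℝ := (Fintype.card (Idx r ω) : ℝ) with hN
  have hN0 : 0 ≤ N := Nat.cast_nonneg _
  have hq0 : 0 < ‖q‖ := one_pos.trans hq
  set C₁ : ℝ := (N * C₂ * (N * C * C) + N * C₂ * (C * C)) * ‖q‖ with hC1
  have hC10 : 0 ≤ C₁ := by positivity
  have hε : ε ≠ 0 := fun h => by
    have := hF.eps
    rw [h, mul_zero] at this
    exact zero_ne_one this
  obtain ⟨C₃, hC30, hC3⟩ := nf_core (r := r) (σ := σ) (ε := ε) hσn hε hJ ha han hb hb0 hC10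
  refine ⟨1 + ‖q‖ + N * C₂ * C₃ + N * C₃ * C₂, by
    have : 0 ≤ ‖q‖ + N * C₂ * C₃ + N * C₃ * C₂ := by positivity
    linarith, ?_⟩
  intro κ κ' g M hM hl hr hle hle' hiso hg hgM hgU
  have hM0 : 0 < M := lt_of_lt_of_le one_pos hM
  have hiso' : ∀ x y, hf σ (hyp r ε J₀) (κ' *ᵥ x) (κ' *ᵥ y) = hf σ (hyp r ε J₀) x y := by
    intro x y
    rw [← hiso, mulVec_mulVec, mulVec_mulVec, hr, one_mulVec, one_mulVec]
  -- the image of the frame
  set G : Matrix (Idx r ω) (Idx r ω) k := g * κ' with hG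
  have hGiso : ∀ x y, hf σ (hyp r ε J₀) (G *ᵥ x) (G *ᵥ y) = hf σ (hyp r ε J₀) x y := by
    intro x y
    rw [hG, ← mulVec_mulVec, ← mulVec_mulVec, hg, hiso']
  have hGinj : Function.Injective G.mulVecLin := by
    rw [← LinearMap.ker_eq_bot, LinearMap.ker_eq_bot']
    intro x hx
    by_contra hne
    obtain ⟨y, hy⟩ := hF.nondeg x hne
    apply hy
    rw [← hGiso x y]
    have hx' : G *ᵥ x = 0 := hx
    rw [hx', H714.Cl.hf_zero_left]
  let X₀ : SGr σ (hyp r ε J₀) r := H631.P2.cP hF (le_refl r)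
  have hX0 : ∀ x, x ∈ X₀.S ↔ (∀ a : Fin r, x (.inl (.inr a)) = 0) ∧ ∀ w : ω, x (.inr w) = 0 := by
    intro x
    rw [H337.Fr.mem_cP hF (le_refl r)]
    constructor
    · intro h
      exact ⟨fun a => h _ fun b => by simp [H631.P2.iL], fun w => h _ fun b => by
        simp [H631.P2.iL]⟩
    · rintro ⟨h1, h2⟩ i hi
      rcases i with (a | a) | w
      · exact absurd rfl (hi a)
      · exact h1 a
      · exact h2 w
  let Y : SGr σ (hyp r ε J₀) r := SGr.mk' (X₀.S.map G.mulVecLin) (by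
    rintro x ⟨x', hx', rfl⟩ y ⟨y', hy', rfl⟩
    exact (hGiso x' y').trans (X₀.sing x' hx' y' hy')) (by
    rw [← LinearEquiv.finrank_eq (Submodule.equivMapOfInjective G.mulVecLin hGinj X₀.S)]
    exact X₀.dim)
  obtain ⟨κ₂, κ₂', f1, f2, -, -, f3, f4, f5, -, f7, -⟩ := hC2 Y
  set P : Matrix (Idx r ω) (Idx r ω) k := κ₂ * G with hP
  have eP : ∀ v, P *ᵥ v = κ₂ *ᵥ (G *ᵥ v) := fun v => (mulVec_mulVec v κ₂ G).symm
  have eG : ∀ v, G *ᵥ v = g *ᵥ (κ' *ᵥ v) := fun v => (mulVec_mulVec v g κ').symm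
  have hPU : ∀ j : Fin r, (∀ a : Fin r, (P *ᵥ Pi.single (.inl (.inl j)) 1) (.inl (.inr a)) = 0) ∧
      ∀ w : ω, (P *ᵥ Pi.single (.inl (.inl j)) 1) (.inr w) = 0 := by
    intro j
    have h1 : G *ᵥ Pi.single (.inl (.inl j)) 1 ∈ Y.S :=
      ⟨Pi.single (.inl (.inl j)) 1, (hX0 _).2 ⟨fun a => by simp, fun w => by simp⟩, rfl⟩
    have h2 := (f7 _).1 h1
    rwa [mulVec_mulVec] at h2
  have hcol : ∀ j, P *ᵥ Pi.single j 1 = cl P j := by
    intro j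
    funext i
    simp [cl]
  have hIu : Iu σ ε J₀ P := by
    refine ⟨fun i j => ?_, fun i j => ?_, fun w j => ?_⟩
    · rw [← hcol, ← hcol, eP, eP, f5, hGiso, hf_single]
    · have h := (hPU j).1 i
      rwa [hcol] at h
    · have h := (hPU j).2 w
      rwa [hcol] at h
  -- the scalar
  obtain ⟨m, hm1, hm2⟩ := exists_mem_Ico_zpow hM0 hq
  set c : k := q ^ (m + 1) with hc
  have hcn : ‖c‖ = ‖q‖ ^ (m + 1) := by rw [hc, norm_zpow]
  have hc1 : M ≤ ‖c‖ := by rw [hcn]; exact hm2.le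
  have hc2 : ‖c‖ ≤ ‖q‖ * M := by
    rw [hcn, zpow_add_one₀ hq0.ne', mul_comm]
    exact mul_le_mul_of_nonneg_left hm1 hq0.le
  have hcp : 0 < ‖c‖ := hM0.trans_le hc1
  have hc0 : c ≠ 0 := norm_pos_iff.1 hcp
  -- bounds of `P`
  have hG1 : ∀ i j, ‖G i j‖ ≤ N * (C * M) * C := mul_norm (by positivity) hgM hle'
  have hP1 : ∀ i j, ‖P i j‖ ≤ C₁ * ‖c‖ := by
    intro i j
    refine (mul_norm hC20.le f3 hG1 i j).trans ?_
    have e1 : N * C₂ * (N * (C * M) * C) ≤ N * C₂ * (N * C * C) * 1 * ‖c‖ := by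
      calc N * C₂ * (N * (C * M) * C) = N * C₂ * (N * C * C) * 1 * M := by ring
        _ ≤ _ := by gcongr
    refine e1.trans ?_
    rw [hC1]
    have e2 : N * C₂ * (N * C * C) * 1 ≤
        (N * C₂ * (N * C * C) + N * C₂ * (C * C)) * ‖q‖ := by
      refine mul_le_mul ?_ hq.le zero_le_one (by positivity)
      have : 0 ≤ N * C₂ * (C * C) := by positivity
      linarith
    exact mul_le_mul_of_nonneg_right e2 hcp.le
  have hP2 : ∀ i j, ‖P i (.inl (.inl j))‖ ≤ C₁ / ‖c‖ := by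
    intro i j
    have e0 : κ *ᵥ (κ' *ᵥ Pi.single (.inl (.inl j)) 1) = Pi.single (.inl (.inl j)) 1 := by
      rw [mulVec_mulVec, hr, one_mulVec]
    have e1 := hgU (κ' *ᵥ Pi.single (.inl (.inl j)) 1) (fun i => by rw [e0]; simp)
      (fun w => by rw [e0]; simp)
    have e2 : ‖κ' *ᵥ (Pi.single (.inl (.inl j)) 1 : Idx r ω → k)‖ ≤ C := by
      refine (pi_norm_le_iff_of_nonneg hC).2 fun i => ?_
      have : (κ' *ᵥ (Pi.single (.inl (.inl j)) 1 : Idx r ω → k)) i = κ' i (.inl (.inl j)) := by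
        simp
      rw [this]
      exact hle' _ _
    have e3 : ‖g *ᵥ (κ' *ᵥ (Pi.single (.inl (.inl j)) 1 : Idx r ω → k))‖ ≤ C * C / M := by
      rw [le_div_iff₀ hM0, mul_comm]
      exact e1.trans (mul_le_mul_of_nonneg_left e2 hC)
    have e4 : P i (.inl (.inl j)) =
        (κ₂ *ᵥ (g *ᵥ (κ' *ᵥ (Pi.single (.inl (.inl j)) 1 : Idx r ω → k)))) i := by
      have this : P i (.inl (.inl j)) = (P *ᵥ Pi.single (.inl (.inl j)) 1) i :=
        (congrFun (hcol (.inl (.inl j))) i).symm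
      rw [this, eP, eG]
    rw [e4]
    refine (norm_le_pi_norm _ i).trans ((mulVec_norm hC20.le f3 _).trans ?_)
    calc N * C₂ * ‖g *ᵥ (κ' *ᵥ (Pi.single (.inl (.inl j)) 1 : Idx r ω → k))‖
        ≤ N * C₂ * (C * C / M) := by gcongr
      _ ≤ C₁ / ‖c‖ := by
        rw [le_div_iff₀ hcp]
        calc N * C₂ * (C * C / M) * ‖c‖ ≤ N * C₂ * (C * C / M) * (‖q‖ * M) := by gcongr
          _ = N * C₂ * (C * C) * ‖q‖ := by field_simp
          _ ≤ C₁ := by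
            rw [hC1]
            refine mul_le_mul_of_nonneg_right ?_ hq0.le
            have : 0 ≤ N * C₂ * (N * C * C) := by positivity
            linarith
  obtain ⟨hA, B, hB1, hB2, hB3⟩ := hC3 P ‖c‖ c (hM.trans hc1) rfl hIu hP1 hP2
  have hκ : κ₂' * P = G := by rw [hP, ← Matrix.mul_assoc, f1, Matrix.one_mul]
  refine ⟨c, κ₂' * (P * diagonal (dd r ω c)), B * κ₂, hc0, ?_, ?_, fun x => ?_, ?_, ?_,
    fun i j => (mul_norm hC20.le f4 hA i j).trans ?_,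
    fun i j => (mul_norm hC30 hB3 f3 i j).trans ?_⟩
  · have e1 : 0 ≤ ‖q‖ + N * C₂ * C₃ + N * C₃ * C₂ := by positivity
    calc M ≤ 1 * ‖c‖ := by rw [one_mul]; exact hc1
      _ ≤ _ := by
        refine mul_le_mul_of_nonneg_right ?_ hcp.le
        linarith
  · refine hc2.trans (mul_le_mul_of_nonneg_right ?_ hM0.le)
    have e1 : 0 ≤ N * C₂ * C₃ + N * C₃ * C₂ := by positivity
    linarith
  · rw [← Matrix.mul_assoc, hκ]
    have e1 : (G * diagonal (dd r ω c)) *ᵥ (fun i => c⁻¹ ^ wf r ω i * (κ *ᵥ x) i) =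
        c⁻¹ • (g *ᵥ x) := by
      have e2 : diagonal (dd r ω c) *ᵥ (fun i => c⁻¹ ^ wf r ω i * (κ *ᵥ x) i) =
          c⁻¹ • (κ *ᵥ x) := by
        funext i
        rw [mulVec_diagonal, Pi.smul_apply, smul_eq_mul, ← mul_assoc, dd_wf hc0]
      rw [← mulVec_mulVec, e2, mulVec_smul, hG, mulVec_mulVec, Matrix.mul_assoc, hl,
        Matrix.mul_one]
    rw [e1, smul_smul, mul_inv_cancel₀ hc0, one_smul]
  · rw [Matrix.mul_assoc, ← Matrix.mul_assoc κ₂, f2, Matrix.one_mul, hB2]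
  · rw [Matrix.mul_assoc, ← Matrix.mul_assoc _ B, hB1, Matrix.one_mul, f1]
  · have e1 : 0 ≤ 1 + ‖q‖ + N * C₃ * C₂ := by positivity
    linarith
  · have e1 : 0 ≤ 1 + ‖q‖ + N * C₂ * C₃ := by positivity
    linarith

end Vale.Agent.P092.H221.Nf
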