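import Mathlib

/-!
P092 (helper221), TEAM N, [N-RK] (A3), first half: in a commutative C*-algebra `A`, a map `p` from
the closed sets of a compact Hausdorff space `Y` to projections with `p F * p F' = 0` for disjoint
`F, F'`, `p (F ∪ F') ≤ p F ∨ p F'` and `p univ = 1` gives a `*`-homomorphism `C(Y, ℂ) → A`.
-/

set_option linter.all false

open WeakDual

namespace Vale.Agent.P092.H221.Pvm

variable {A : Type*} [CommCStarAlgebra A] {Y : Type*} [TopologicalSpace Y]

/-- content with values in the projections of a commutative C*-algebra -/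
structure CC (p : Set Y → A) : Prop where
  idp : ∀ F, IsClosed F → p F * p F = p F
  dj : ∀ F F', IsClosed F → IsClosed F' → Disjoint F F' → p F * p F' = 0
  un : ∀ F F', IsClosed F → IsClosed F' → p (F ∪ F') * ((1 - p F) * (1 - p F')) = 0
  top : p Set.univ = 1

namespace CC

variable {p : Set Y → A}

lemma val (h : CC p) (w : characterSpace ℂ A) {F : Set Y} (hF : IsClosed F) :
    w (p F) = 0 ∨ w (p F) = 1 := by
  have h1 : w (p F) * w (p F) = w (p F) := by rw [← map_mul, h.idp F hF]
  have h2 : w (p F) * (w (p F) - 1) = 0 := by rw [mul_sub, h1, mul_one, sub_self]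
  rcases mul_eq_zero.1 h2 with h3 | h3
  · exact Or.inl h3
  · exact Or.inr (sub_eq_zero.1 h3)

lemma emp (h : CC p) : p ∅ = 0 := by
  rw [← h.idp ∅ isClosed_empty]
  exact h.dj ∅ ∅ isClosed_empty isClosed_empty (Set.disjoint_empty _)

lemma union_zero (h : CC p) (w : characterSpace ℂ A) {F F' : Set Y} (hF : IsClosed F)
    (hF' : IsClosed F') (h1 : w (p F) = 0) (h2 : w (p F') = 0) : w (p (F ∪ F')) = 0 := by
  have h3 := congrArg (fun a => w a) (h.un F F' hF hF')
  simp only [map_mul, map_sub, map_one, map_zero, h1, h2, sub_zero, mul_one] at h3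
  exact h3

lemma biUnion_zero (h : CC p) (w : characterSpace ℂ A) (t : Finset Y) (F : Y → Set Y)
    (hF : ∀ x, IsClosed (F x)) (h0 : ∀ x, w (p (F x)) = 0) :
    w (p (⋃ x ∈ t, F x)) = 0 := by
  classical
  induction t using Finset.induction_on with
  | empty => simp [h.emp]
  | insert a s ha ih =>
    rw [Finset.set_biUnion_insert]
    exact h.union_zero w (hF a) (isClosed_biUnion_finset fun x _ => hF x) (h0 a) ih

lemma exists_pt [CompactSpace Y] [T2Space Y] (h : CC p) (w : characterSpace ℂ A) :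
    ∃ x : Y, ∀ F : Set Y, IsClosed F → x ∈ interior F → w (p F) = 1 := by
  by_contra hc
  push Not at hc
  choose F hF hx hn using hc
  have h0 : ∀ x, w (p (F x)) = 0 := fun x => (h.val w (hF x)).resolve_right (hn x)
  obtain ⟨t, ht⟩ := CompactSpace.elim_nhds_subcover (fun x => F x)
    (fun x => mem_interior_iff_mem_nhds.1 (hx x))
  have h1 := h.biUnion_zero w t F hF h0
  rw [ht] at h1
  have h2 : (⊤ : Set Y) = Set.univ := rfl
  rw [h2, h.top, map_one] at h1
  exact one_ne_zero h1

/-- the point of a character -/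
noncomputable def pt [CompactSpace Y] [T2Space Y] (h : CC p) (w : characterSpace ℂ A) : Y :=
  (h.exists_pt w).choose

variable [CompactSpace Y] [T2Space Y]

lemma pt_one (h : CC p) (w : characterSpace ℂ A) {F : Set Y} (hF : IsClosed F)
    (hx : h.pt w ∈ interior F) : w (p F) = 1 := (h.exists_pt w).choose_spec F hF hx

lemma pt_mem (h : CC p) (w : characterSpace ℂ A) {F : Set Y} (hF : IsClosed F)
    (h1 : w (p F) ≠ 0) : h.pt w ∈ F := by
  by_contra hn
  obtain ⟨B, hB, hBc, hBF⟩ := exists_mem_nhds_isClosed_subset (hF.isOpen_compl.mem_nhds hn)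
  have h2 := h.pt_one w hBc (mem_interior_iff_mem_nhds.2 hB)
  have h3 : w (p F) * w (p B) = 0 := by
    rw [← map_mul, h.dj F B hF hBc (Set.disjoint_left.2 fun y hy hy' => hBF hy' hy), map_zero]
  rw [h2, mul_one] at h3
  exact h1 h3

lemma pt_cont (h : CC p) : Continuous h.pt := by
  rw [continuous_iff_continuousAt]
  intro w U hU
  obtain ⟨B, hB, hBc, hBU⟩ := exists_mem_nhds_isClosed_subset hU
  have h2 := h.pt_one w hBc (mem_interior_iff_mem_nhds.2 hB)
  have h3 : Continuous fun v : characterSpace ℂ A => v (p B) :=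
    (WeakDual.eval_continuous (p B)).comp continuous_subtype_val
  have h4 : {v : characterSpace ℂ A | v (p B) ≠ 0} ∈ nhds w :=
    (isOpen_ne_fun h3 continuous_const).mem_nhds (by
      change w (p B) ≠ 0
      rw [h2]; exact one_ne_zero)
  exact Filter.mem_map.2 (Filter.mem_of_superset h4 fun v hv => hBU (h.pt_mem v hBc hv))

/-- the homomorphism -/
noncomputable def hom (h : CC p) : C(Y, ℂ) →⋆ₐ[ℂ] A :=
  ((gelfandStarTransform A).symm : C(characterSpace ℂ A, ℂ) →⋆ₐ[ℂ] A).comp
    (ContinuousMap.compStarAlgHom' ℂ ℂ ⟨h.pt, h.pt_cont⟩)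

lemma hom_ap (h : CC p) (w : characterSpace ℂ A) (f : C(Y, ℂ)) : w (h.hom f) = f (h.pt w) := by
  have h1 : gelfandStarTransform A (h.hom f) = f.comp ⟨h.pt, h.pt_cont⟩ := by
    change gelfandStarTransform A ((gelfandStarTransform A).symm _) = _
    rw [StarAlgEquiv.apply_symm_apply]
    rfl
  have h2 := DFunLike.congr_fun h1 w
  exact h2

lemma ext_ch {a b : A} (hab : ∀ w : characterSpace ℂ A, w a = w b) : a = b := by
  apply (gelfandStarTransform A).injective
  ext w
  exact hab w

lemma hom_mul (h : CC p) {F : Set Y} (hF : IsClosed F) (f : C(Y, ℂ)) (c : ℂ)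
    (hf : ∀ x ∈ F, f x = c) : h.hom f * p F = c • p F := by
  refine ext_ch fun w => ?_
  rw [map_mul, h.hom_ap, map_smul, smul_eq_mul]
  by_cases h0 : w (p F) = 0
  · rw [h0, mul_zero, mul_zero]
  · rw [hf _ (h.pt_mem w hF h0)]

lemma hom_off (h : CC p) {F : Set Y} (hF : IsClosed F) (f : C(Y, ℂ))
    (hf : ∀ x, f x ≠ 0 → x ∈ interior F) : h.hom f * p F = h.hom f := by
  refine ext_ch fun w => ?_
  rw [map_mul, h.hom_ap]
  by_cases h0 : f (h.pt w) = 0
  · rw [h0, zero_mul]
  · rw [h.pt_one w hF (hf _ h0), mul_one]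

lemma hom_norm (h : CC p) {F : Set Y} (hF : IsClosed F) (f : C(Y, ℂ)) (c : ℂ) {r : ℝ}
    (hr : 0 ≤ r) (hf : ∀ x ∈ F, ‖f x - c‖ ≤ r) : ‖(h.hom f - algebraMap ℂ A c) * p F‖ ≤ r := by
  have h1 : ‖(h.hom f - algebraMap ℂ A c) * p F‖
      = ‖gelfandStarTransform A ((h.hom f - algebraMap ℂ A c) * p F)‖ := by
    have := (gelfandTransform_isometry A).norm_map_of_map_zero (map_zero _)
      ((h.hom f - algebraMap ℂ A c) * p F)
    exact this.symm
  rw [h1, ContinuousMap.norm_le _ hr]
  intro w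
  change ‖w ((h.hom f - algebraMap ℂ A c) * p F)‖ ≤ r
  rw [map_mul, map_sub, h.hom_ap, AlgHomClass.commutes w c]
  rcases h.val w hF with h0 | h0
  · rw [h0, mul_zero, norm_zero]; exact hr
  · rw [h0, mul_one]
    exact hf _ (h.pt_mem w hF (by rw [h0]; exact one_ne_zero))

end CC

end Vale.Agent.P092.H221.Pvm
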