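import Mathlib
import Vale.Agent.P092.H218.Loc
import Vale.Agent.P092.H221.PvmC

/-!
P092 (helper221), TEAM N, [N-RK] (A3): from a content `P` on the closed sets of a compact
Hausdorff space, with values in commuting projections of a Hilbert space, to a
`*`-homomorphism `C(Y, ℂ) → B(K)`; uniqueness and comparison.
-/

set_option linter.all false

open ContinuousLinearMap

namespace Vale.Agent.P092.H221.Pvm

variable {K : Type*} [NormedAddCommGroup K] [InnerProductSpace ℂ K] [CompleteSpace K]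
variable {Y : Type*} [TopologicalSpace Y]

/-- content on the closed sets with values in commuting projections -/
structure Cont (P : Set Y → (K →L[ℂ] K)) : Prop where
  sa : ∀ A, IsClosed A → adjoint (P A) = P A
  idp : ∀ A, IsClosed A → P A * P A = P A
  cm : ∀ A B, IsClosed A → IsClosed B → P A * P B = P B * P A
  dj : ∀ A B, IsClosed A → IsClosed B → Disjoint A B → P A * P B = 0
  un : ∀ A B, IsClosed A → IsClosed B → ∀ z, P A z = 0 → P B z = 0 → P (A ∪ B) z = 0
  top : P Set.univ = 1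

/-- the family of the projections -/
def fam (P : Set Y → (K →L[ℂ] K)) : Set (K →L[ℂ] K) := {T | ∃ A, IsClosed A ∧ T = P A}

/-- the double centralizer of the family -/
noncomputable def ZZ (P : Set Y → (K →L[ℂ] K)) : StarSubalgebra ℂ (K →L[ℂ] K) :=
  StarSubalgebra.centralizer ℂ (StarSubalgebra.centralizer ℂ (fam P) : Set (K →L[ℂ] K))

lemma mem_ZZ {P : Set Y → (K →L[ℂ] K)} {z : K →L[ℂ] K} :
    z ∈ ZZ P ↔ ∀ T, (∀ A, IsClosed A → P A * T = T * P A ∧ star (P A) * T = T * star (P A)) →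
      T * z = z * T := by
  rw [ZZ, StarSubalgebra.mem_centralizer_iff]
  constructor
  · intro h T hT
    refine (h T ?_).1
    rw [SetLike.mem_coe, StarSubalgebra.mem_centralizer_iff]
    rintro _ ⟨A, hA, rfl⟩
    exact hT A hA
  · intro h T hT
    rw [SetLike.mem_coe] at hT
    have h1 : ∀ S, S ∈ StarSubalgebra.centralizer ℂ (fam P) → S * z = z * S := by
      intro S hS
      rw [StarSubalgebra.mem_centralizer_iff] at hS
      exact h S fun A hA => hS _ ⟨A, hA, rfl⟩
    exact ⟨h1 T hT, h1 _ (star_mem hT)⟩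

lemma isClosed_ZZ (P : Set Y → (K →L[ℂ] K)) : IsClosed (ZZ P : Set (K →L[ℂ] K)) := by
  have h : (ZZ P : Set (K →L[ℂ] K)) = ⋂ T ∈ {T : K →L[ℂ] K | ∀ A, IsClosed A →
      P A * T = T * P A ∧ star (P A) * T = T * star (P A)}, {z | T * z = z * T} := by
    ext z
    rw [SetLike.mem_coe, mem_ZZ]
    simp only [Set.mem_setOf_eq, Set.mem_iInter]
  rw [h]
  exact isClosed_biInter fun T _ =>
    isClosed_eq (continuous_const.mul continuous_id) (continuous_id.mul continuous_const)

namespace Cont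

variable {P : Set Y → (K →L[ℂ] K)}

lemma mem (h : Cont P) {A : Set Y} (hA : IsClosed A) : P A ∈ ZZ P :=
  mem_ZZ.2 fun T hT => (hT A hA).1.symm

lemma comm (h : Cont P) {a b : K →L[ℂ] K} (ha : a ∈ ZZ P) (hb : b ∈ ZZ P) : a * b = b * a := by
  have h1 : ∀ A, IsClosed A → P A * b = b * P A ∧ star (P A) * b = b * star (P A) := by
    intro A hA
    have h2 : P A * b = b * P A := by
      refine mem_ZZ.1 hb (P A) fun B hB => ?_
      have h3 : star (P B) = P B := h.sa B hB
      rw [h3]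
      exact ⟨h.cm B A hB hA, h.cm B A hB hA⟩
    have h3 : star (P A) = P A := h.sa A hA
    rw [h3]
    exact ⟨h2, h2⟩
  exact (mem_ZZ.1 ha b h1).symm

/-- the commutative C*-algebra structure of the double centralizer -/
@[reducible] noncomputable def inst (h : Cont P) : CommCStarAlgebra (ZZ P) :=
  haveI : IsClosed (ZZ P : Set (K →L[ℂ] K)) := isClosed_ZZ P
  { (StarSubalgebra.cstarAlgebra (ZZ P) : CStarAlgebra (ZZ P)) with
    mul_comm := fun a b => Subtype.ext (h.comm a.2 b.2) }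

open Classical in
/-- the content with values in the double centralizer -/
noncomputable def sub (h : Cont P) (A : Set Y) : ZZ P :=
  if hA : IsClosed A then ⟨P A, h.mem hA⟩ else 0

lemma sub_coe (h : Cont P) {A : Set Y} (hA : IsClosed A) :
    ((h.sub A : ZZ P) : K →L[ℂ] K) = P A := by
  rw [sub, dif_pos hA]

lemma cc (h : Cont P) : letI := h.inst; CC (A := ZZ P) h.sub := by
  letI := h.inst
  refine ⟨fun F hF => ?_, fun F F' hF hF' hd => ?_, fun F F' hF hF' => ?_, ?_⟩
  · apply Subtype.ext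
    change (h.sub F : K →L[ℂ] K) * (h.sub F : K →L[ℂ] K) = (h.sub F : K →L[ℂ] K)
    rw [h.sub_coe hF, h.idp F hF]
  · apply Subtype.ext
    change (h.sub F : K →L[ℂ] K) * (h.sub F' : K →L[ℂ] K) = 0
    rw [h.sub_coe hF, h.sub_coe hF', h.dj F F' hF hF' hd]
  · apply Subtype.ext
    change (h.sub (F ∪ F') : K →L[ℂ] K) *
      ((1 - (h.sub F : K →L[ℂ] K)) * (1 - (h.sub F' : K →L[ℂ] K))) = 0
    rw [h.sub_coe hF, h.sub_coe hF', h.sub_coe (hF.union hF')]
    ext z
    change P (F ∪ F') (((1 - P F) * (1 - P F')) z) = 0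
    refine h.un F F' hF hF' _ ?_ ?_
    · have h0 : P F * (1 - P F) = 0 := by rw [mul_sub, mul_one, h.idp F hF, sub_self]
      have h1 : P F * ((1 - P F) * (1 - P F')) = 0 := by rw [← mul_assoc, h0, zero_mul]
      exact DFunLike.congr_fun h1 z
    · have h0 : P F' * (1 - P F') = 0 := by rw [mul_sub, mul_one, h.idp F' hF', sub_self]
      have h2 : P F' * (1 - P F) = (1 - P F) * P F' := by
        rw [mul_sub, sub_mul, mul_one, one_mul, h.cm F' F hF' hF]
      have h1 : P F' * ((1 - P F) * (1 - P F')) = 0 := by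
        rw [← mul_assoc, h2, mul_assoc, h0, mul_zero]
      exact DFunLike.congr_fun h1 z
  · apply Subtype.ext
    change (h.sub Set.univ : K →L[ℂ] K) = 1
    rw [h.sub_coe isClosed_univ, h.top]

variable [CompactSpace Y] [T2Space Y]

/-- **the `*`-homomorphism of a content** -/
noncomputable def G (h : Cont P) : C(Y, ℂ) →⋆ₐ[ℂ] (K →L[ℂ] K) :=
  letI := h.inst
  (ZZ P).subtype.comp h.cc.hom

lemma G_ap (h : Cont P) (f : C(Y, ℂ)) : letI := h.inst
    h.G f = (h.cc.hom f : K →L[ℂ] K) := rfl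

/-- `G f` commutes with everything that commutes with all `P A` -/
theorem G_comm (h : Cont P) (f : C(Y, ℂ)) (T : K →L[ℂ] K)
    (hT : ∀ A, IsClosed A → P A * T = T * P A) : T * h.G f = h.G f * T := by
  letI := h.inst
  refine mem_ZZ.1 (h.cc.hom f).2 T fun A hA => ?_
  have h3 : star (P A) = P A := h.sa A hA
  rw [h3]
  exact ⟨hT A hA, hT A hA⟩

/-- (a) -/
theorem G_mul (h : Cont P) {A : Set Y} (hA : IsClosed A) (f : C(Y, ℂ)) (c : ℂ)
    (hf : ∀ x ∈ A, f x = c) : h.G f * P A = c • P A := by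
  letI := h.inst
  have h1 := congrArg (fun a : ZZ P => (a : K →L[ℂ] K)) (h.cc.hom_mul hA f c hf)
  have h2 : (h.cc.hom f : K →L[ℂ] K) * (h.sub A : K →L[ℂ] K) = c • (h.sub A : K →L[ℂ] K) := h1
  rwa [h.sub_coe hA] at h2

theorem G_zero (h : Cont P) {A : Set Y} (hA : IsClosed A) (f : C(Y, ℂ))
    (hf : ∀ x ∈ A, f x = 0) : h.G f * P A = 0 := by
  rw [h.G_mul hA f 0 hf, zero_smul]

theorem G_PA (h : Cont P) {A : Set Y} (hA : IsClosed A) (f : C(Y, ℂ)) :
    P A * h.G f = h.G f * P A :=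
  h.G_comm f (P A) fun B hB => h.cm B A hB hA

/-- (c) -/
theorem G_off (h : Cont P) {A : Set Y} (hA : IsClosed A) (f : C(Y, ℂ))
    (hf : ∀ x, f x ≠ 0 → x ∈ interior A) : h.G f * P A = h.G f := by
  letI := h.inst
  have h1 := congrArg (fun a : ZZ P => (a : K →L[ℂ] K)) (h.cc.hom_off hA f hf)
  have h2 : (h.cc.hom f : K →L[ℂ] K) * (h.sub A : K →L[ℂ] K) = (h.cc.hom f : K →L[ℂ] K) := h1
  rwa [h.sub_coe hA] at h2

/-- (b) -/
theorem G_norm (h : Cont P) {A : Set Y} (hA : IsClosed A) (f : C(Y, ℂ)) (c : ℂ) {r : ℝ}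
    (hr : 0 ≤ r) (hf : ∀ x ∈ A, ‖f x - c‖ ≤ r) :
    ‖(h.G f - c • (1 : K →L[ℂ] K)) * P A‖ ≤ r := by
  letI := h.inst
  have h1 := h.cc.hom_norm hA f c hr hf
  have h2 : ‖(h.cc.hom f - algebraMap ℂ (ZZ P) c) * h.sub A‖
      = ‖(((h.cc.hom f - algebraMap ℂ (ZZ P) c) * h.sub A : ZZ P) : K →L[ℂ] K)‖ := rfl
  have h3 : (((h.cc.hom f - algebraMap ℂ (ZZ P) c) * h.sub A : ZZ P) : K →L[ℂ] K)
      = (h.G f - c • (1 : K →L[ℂ] K)) * P A := by
    rw [← h.sub_coe hA, h.G_ap, ← Algebra.algebraMap_eq_smul_one]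
    rfl
  rw [h2, h3] at h1
  exact h1

end Cont

variable [CompactSpace Y] [T2Space Y] {P : Set Y → (K →L[ℂ] K)}

/-- two closed sets covering `Y` separate two functions with disjoint supports -/
lemma exists_cover (u v : C(Y, ℂ)) (huv : Disjoint (tsupport u) (tsupport v)) :
    ∃ A B : Set Y, IsClosed A ∧ IsClosed B ∧ A ∪ B = Set.univ ∧ (∀ x ∈ A, v x = 0) ∧
      (∀ x ∈ B, u x = 0) := by
  obtain ⟨U, V, hU, hV, hu, hv, hd⟩ := normal_separation
    (isClosed_tsupport u) (isClosed_tsupport v) huv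
  refine ⟨Vᶜ, Uᶜ, hV.isClosed_compl, hU.isClosed_compl, ?_, fun x hx => ?_, fun x hx => ?_⟩
  · rw [← Set.compl_inter, Set.inter_comm, hd.inter_eq, Set.compl_empty]
  · exact image_eq_zero_of_notMem_tsupport fun h => hx (hv h)
  · exact image_eq_zero_of_notMem_tsupport fun h => hx (hu h)

/-- **intertwiners**: only `U P A = P' (ψ⁻¹ A) U`-type information on a covering pair is used -/
theorem intertw {Y' : Type*} [TopologicalSpace Y'] {P' : Set Y' → (K →L[ℂ] K)}
    (hcm : ∀ A B, IsClosed A → IsClosed B → P A * P B = P B * P A)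
    (hid : ∀ A, IsClosed A → P A * P A = P A)
    (hsa : ∀ A, IsClosed A → adjoint (P A) = P A)
    (hun : ∀ A B, IsClosed A → IsClosed B → A ∪ B = Set.univ → ∀ z, P A z = 0 → P B z = 0 → z = 0)
    (G : C(Y, ℂ) →⋆ₐ[ℂ] (K →L[ℂ] K)) (G' : C(Y', ℂ) →⋆ₐ[ℂ] (K →L[ℂ] K))
    (hG : ∀ A, IsClosed A → ∀ f : C(Y, ℂ), (∀ x ∈ A, f x = 0) → G f * P A = 0)
    (hG' : ∀ A, IsClosed A → ∀ f : C(Y', ℂ), (∀ x ∈ A, f x = 0) → G' f * P' A = 0)
    (ψ : C(Y', Y)) (U : K →L[ℂ] K)
    (hU : ∀ A, IsClosed A → U * P A = P' (ψ ⁻¹' A) * U) (f : C(Y, ℂ)) :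
    U * G f = G' (f.comp ψ) * U := by
  let Q : C(Y, ℂ) →⋆ₐ[ℂ] (K →L[ℂ] K) := G'.comp (ContinuousMap.compStarAlgHom' ℂ ℂ ψ)
  have hQ : ∀ g, Q g = G' (g.comp ψ) := fun g => rfl
  have key : ∀ a b : C(Y, ℂ), Disjoint (tsupport ⇑a) (tsupport ⇑b) → Q a * (U * G b) = 0 := by
    intro a b hab
    obtain ⟨A, B, hA, hB, hAB, hbA, haB⟩ := exists_cover a b hab
    have h1 : (1 - P A) * (1 - P B) = 0 := by
      have e1 : P A * (1 - P A) = 0 := by rw [mul_sub, mul_one, hid A hA, sub_self]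
      have e2 : P B * (1 - P B) = 0 := by rw [mul_sub, mul_one, hid B hB, sub_self]
      have e3 : P B * (1 - P A) = (1 - P A) * P B := by
        rw [mul_sub, sub_mul, mul_one, one_mul, hcm B A hB hA]
      have e4 : P A * ((1 - P A) * (1 - P B)) = 0 := by rw [← mul_assoc, e1, zero_mul]
      have e5 : P B * ((1 - P A) * (1 - P B)) = 0 := by
        rw [← mul_assoc, e3, mul_assoc, e2, mul_zero]
      ext z
      exact hun A B hA hB hAB _ (DFunLike.congr_fun e4 z) (DFunLike.congr_fun e5 z)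
    have h2 : (1 : K →L[ℂ] K) = P A + P B - P B * P A := by
      have e : (1 - P A) * (1 - P B) = 1 - (P A + P B - P A * P B) := by noncomm_ring
      rw [e] at h1
      rw [← hcm A B hA hB]
      exact sub_eq_zero.1 h1
    have h3 : P A * G b = 0 := by
      have e1 : G (star b) * P A = 0 := hG A hA (star b) fun x hx => by
        rw [ContinuousMap.star_apply, hbA x hx, star_zero]
      have e2 := congrArg star e1
      rw [star_mul, star_zero, map_star, star_star] at e2
      have e3 : star (P A) = P A := hsa A hA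
      rwa [e3] at e2
    have h4 : Q a * (U * P B) = 0 := by
      rw [hU B hB, ← mul_assoc, hQ, hG' _ (hB.preimage ψ.continuous) _ fun x hx => haB _ hx,
        zero_mul]
    calc Q a * (U * G b) = Q a * U * (P A + P B - P B * P A) * G b := by
          rw [← h2, mul_one, mul_assoc]
      _ = Q a * U * (P A * G b) + (Q a * (U * P B)) * G b - (Q a * (U * P B)) * P A * G b := by
          noncomm_ring
      _ = 0 := by rw [h3, h4]; simp
  have := Vale.Agent.P092.H218.loc_op Q G U key f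
  exact this

/-- **uniqueness** -/
theorem uniq
    (hcm : ∀ A B, IsClosed A → IsClosed B → P A * P B = P B * P A)
    (hid : ∀ A, IsClosed A → P A * P A = P A)
    (hsa : ∀ A, IsClosed A → adjoint (P A) = P A)
    (hun : ∀ A B, IsClosed A → IsClosed B → A ∪ B = Set.univ → ∀ z, P A z = 0 → P B z = 0 → z = 0)
    (G G' : C(Y, ℂ) →⋆ₐ[ℂ] (K →L[ℂ] K))
    (hG : ∀ A, IsClosed A → ∀ f : C(Y, ℂ), (∀ x ∈ A, f x = 0) → G f * P A = 0)
    (hG' : ∀ A, IsClosed A → ∀ f : C(Y, ℂ), (∀ x ∈ A, f x = 0) → G' f * P A = 0) : G = G' := by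
  ext1 f
  have h := intertw (P' := P) hcm hid hsa hun G G' hG hG' (ContinuousMap.id Y) 1
    (fun A hA => by rw [one_mul, mul_one]; rfl) f
  rwa [one_mul, mul_one, ContinuousMap.comp_id] at h

namespace Cont

lemma un_univ (h : Cont P) : ∀ A B, IsClosed A → IsClosed B → A ∪ B = Set.univ →
    ∀ z, P A z = 0 → P B z = 0 → z = 0 := by
  intro A B hA hB hAB z h1 h2
  have h3 := h.un A B hA hB z h1 h2
  rw [hAB, h.top] at h3
  exact h3

/-- covariance / comparison of the homomorphisms of two contents -/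
theorem inter {Y' : Type*} [TopologicalSpace Y'] [CompactSpace Y'] [T2Space Y']
    {P' : Set Y' → (K →L[ℂ] K)} (h : Cont P) (h' : Cont P') (ψ : C(Y', Y)) (U : K →L[ℂ] K)
    (hU : ∀ A, IsClosed A → U * P A = P' (ψ ⁻¹' A) * U) (f : C(Y, ℂ)) :
    U * h.G f = h'.G (f.comp ψ) * U :=
  intertw h.cm h.idp h.sa h.un_univ h.G h'.G (fun A hA f hf => h.G_zero hA f hf)
    (fun A hA f hf => h'.G_zero hA f hf) ψ U hU f

/-- any calculus whose closed supports contain `P` is `G` -/
theorem eq_G (h : Cont P) (G' : C(Y, ℂ) →⋆ₐ[ℂ] (K →L[ℂ] K))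
    (hG' : ∀ A, IsClosed A → ∀ f : C(Y, ℂ), (∀ x ∈ A, f x = 0) → G' f * P A = 0) : h.G = G' :=
  uniq h.cm h.idp h.sa h.un_univ h.G G' (fun A hA f hf => h.G_zero hA f hf) hG'

/-- **comparison**: `P ≤ P'` on the closed sets gives the same homomorphism -/
theorem eq_of_le {P' : Set Y → (K →L[ℂ] K)} (h : Cont P) (h' : Cont P')
    (hle : ∀ A, IsClosed A → P' A * P A = P A) : h.G = h'.G :=
  h.eq_G h'.G fun A hA f hf => by
    rw [← hle A hA, ← mul_assoc, h'.G_zero hA f hf, zero_mul]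

/-- the vectors carried by a closed set -/
theorem carried_iff (h : Cont P) {A : Set Y} (hA : IsClosed A) (z : K) :
    (∀ f : C(Y, ℂ), (∀ x ∈ A, f x = 0) → h.G f z = 0) ↔
      ∀ B, IsClosed B → A ⊆ interior B → P B z = z := by
  constructor
  · intro hz B hB hAB
    have hd : Disjoint A (interior B)ᶜ := Set.disjoint_left.2 fun x hx hx' => hx' (hAB hx)
    obtain ⟨f, h0, h1, -⟩ := exists_continuous_zero_one_of_isClosed hA
      isOpen_interior.isClosed_compl hd
    let F : C(Y, ℂ) := ⟨fun x => (f x : ℂ), Complex.continuous_ofReal.comp f.continuous⟩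
    have hF : ∀ x, F x = (f x : ℂ) := fun x => rfl
    have h2 : h.G F z = 0 := hz F fun x hx => by rw [hF, h0 hx]; simp
    have h3 : h.G (1 - F) * P B = h.G (1 - F) := h.G_off hB (1 - F) fun x hx => by
      by_contra hn
      apply hx
      rw [ContinuousMap.sub_apply, ContinuousMap.one_apply, hF, h1 hn]
      simp
    have h4 : h.G (1 - F) z = z := by
      rw [map_sub, map_one]
      change z - h.G F z = z
      rw [h2, sub_zero]
    have h5 := DFunLike.congr_fun (h.G_PA hB (1 - F)) z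
    have h6 : P B (h.G (1 - F) z) = (h.G (1 - F) * P B) z := h5
    rw [h3, h4] at h6
    exact h6
  · intro hz f hf
    have hb : ∀ ε : ℝ, 0 < ε → ‖h.G f z‖ ≤ ε * ‖z‖ := by
      intro ε hε
      have hB : IsClosed {x | ‖f x‖ ≤ ε} := isClosed_le f.continuous.norm continuous_const
      have hAB : A ⊆ interior {x | ‖f x‖ ≤ ε} := by
        have ho : IsOpen {x | ‖f x‖ < ε} := isOpen_lt f.continuous.norm continuous_const
        have hs : {x | ‖f x‖ < ε} ⊆ {x | ‖f x‖ ≤ ε} := fun y (hy : ‖f y‖ < ε) => hy.le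
        refine fun x hx => interior_maximal hs ho ?_
        change ‖f x‖ < ε
        rw [hf x hx, norm_zero]; exact hε
      have h1 := h.G_norm hB f 0 hε.le (fun x hx => by rw [sub_zero]; exact hx)
      rw [zero_smul, sub_zero] at h1
      have h2 : h.G f z = (h.G f * P {x | ‖f x‖ ≤ ε}) z := by
        change h.G f z = h.G f (P {x | ‖f x‖ ≤ ε} z)
        rw [hz _ hB hAB]
      rw [h2]
      exact (ContinuousLinearMap.le_opNorm _ _).trans
        (mul_le_mul_of_nonneg_right h1 (norm_nonneg _))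
    by_contra hne
    have h0 : 0 < ‖h.G f z‖ := norm_pos_iff.2 hne
    have hz0 : 0 < ‖z‖ + 1 := by positivity
    have h1 := hb (‖h.G f z‖ / (2 * (‖z‖ + 1))) (by positivity)
    have h2 : ‖h.G f z‖ / (2 * (‖z‖ + 1)) * ‖z‖ ≤ ‖h.G f z‖ / 2 := by
      rw [div_mul_eq_mul_div, div_le_div_iff₀ (by positivity) (by positivity)]
      nlinarith [norm_nonneg z, norm_nonneg (h.G f z)]
    linarith

end Cont

end Vale.Agent.P092.H221.Pvm

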