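import Vale.Agent.P092.H221.CS
import Vale.Agent.P092.H156.Int
import Vale.Agent.P092.H650.Alg2S

/-!
P092 (helper221), team A, block [TH-1]: the form
`Th a b a' b' = ∫∫ ⟪(b' y)* (a' x ω), a x ((b y)* ω)⟫` of smooth fields over `G₁` and `G₂`.
-/

set_option linter.all false

open MeasureTheory Filter Topology ContinuousLinearMap
open scoped InnerProductSpace ENNReal
open Vale.Agent.P092.H160 Vale.Agent.P092.H156.Sm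
open Vale.Agent.P092.H650 (cj al cj_adj cj_mul al_al al_coe smo_al smo_cj acont_al norm_al_le al_unif')

namespace Vale.Agent.P092.H221

/-- The form `Th`. -/
noncomputable def Th {G₁ G₂ K : Type} [MeasurableSpace G₁] [MeasurableSpace G₂]
    [NormedAddCommGroup K] [InnerProductSpace ℂ K] [CompleteSpace K] (ω : K)
    (μ₁ : Measure G₁) (μ₂ : Measure G₂) (a : G₁ → K →L[ℂ] K) (b : G₂ → K →L[ℂ] K)
    (a' : G₁ → K →L[ℂ] K) (b' : G₂ → K →L[ℂ] K) : ℂ :=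
  ∫ x, ∫ y, ⟪adjoint (b' y) (a' x ω), a x (adjoint (b y) ω)⟫_ℂ ∂μ₂ ∂μ₁

/-- The square integrals of the smooth fields at all vectors. -/
def T4 {Γ Λ G H K : Type} [Group Γ] [Group Λ] [Group G] [Group H]
    [TopologicalSpace G] [TopologicalSpace H] [MeasurableSpace G]
    [NormedAddCommGroup K] [InnerProductSpace ℂ K] [CompleteSpace K]
    (ι : Γ →* G) (κ : Λ →* H) (ρ : Γ →* (K →L[ℂ] K)) (V : Λ →* (K →L[ℂ] K)) (ω : K)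
    (μ : Measure G) : Prop :=
  ∀ b, Smo ι κ ρ V ω μ b → ∀ ζ, ∫⁻ x, ‖b x ζ‖ₑ ^ 2 ∂μ = nsq ω μ b * ‖ζ‖ₑ ^ 2

theorem t4 {Γ Λ G H K : Type} [Group Γ] [Group Λ] [Group G] [Group H] [Countable Γ]
    [TopologicalSpace G] [TopologicalSpace H] [IsTopologicalGroup G] [IsTopologicalGroup H]
    [MeasurableSpace G] [BorelSpace G] [SecondCountableTopology G] [T1Space H]
    [NormedAddCommGroup K] [InnerProductSpace ℂ K] [CompleteSpace K]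
    {ρ : Γ →* (K →L[ℂ] K)} {V : Λ →* (K →L[ℂ] K)} {ω : K} {ι : Γ →* G} {κ : Λ →* H}
    {μ : Measure G} [μ.IsMulLeftInvariant] (h : TFrm ρ V ω) (hd : DenseRange κ)
    (hC : ∀ v, v ≠ 1 → ¬ IsOpen ((Subgroup.centralizer {κ v} : Subgroup H) : Set H)) :
    T4 ι κ ρ V ω μ := fun b hb ζ =>
  lintegral_sq_apply h hb.toFd hb.l2 (Smo.ort h.toFrm hd hC hb hb) ζ

open Vale.Agent.P092.PA in
theorem t4_of_F1 {Γ Λ G H K : Type} [Group Γ] [Group Λ] [Group G] [Group H]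
    [TopologicalSpace G] [IsTopologicalGroup G] [TopologicalSpace H] [MeasurableSpace G]
    [BorelSpace G] [SecondCountableTopology G]
    [NormedAddCommGroup K] [InnerProductSpace ℂ K] [CompleteSpace K] {D : Pic Γ Λ K}
    {p : Γ →* G} {q : Λ →* H} {μ : Measure G} (h1 : F1 D p q μ) :
    T4 p q D.ρ D.V D.Ω μ := fun b hb ζ => by
  rw [lint_of_F1 h1 hb ζ, ip_self hb.l2, Complex.ofReal_re,
    ENNReal.ofReal_toReal (nsq_lt_top hb.l2).ne]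

section

variable {Γ Λ G₁ G₂ H₁ H₂ K : Type} [Group Γ] [Group Λ] [Group G₁] [Group G₂] [Group H₁]
  [Group H₂] [TopologicalSpace G₁] [TopologicalSpace G₂] [TopologicalSpace H₁]
  [TopologicalSpace H₂] [IsTopologicalGroup G₁] [IsTopologicalGroup G₂] [IsTopologicalGroup H₁]
  [IsTopologicalGroup H₂]
  [NormedAddCommGroup K] [InnerProductSpace ℂ K] [CompleteSpace K]
  {ρ : Γ →* (K →L[ℂ] K)} {V : Λ →* (K →L[ℂ] K)} {ω : K} {ι₁ : Γ →* G₁} {ι₂ : Γ →* G₂}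
  {κ₁ : Λ →* H₁} {κ₂ : Λ →* H₂}
  {a a' c : G₁ → K →L[ℂ] K} {b b' d : G₂ → K →L[ℂ] K}

/-! ### Fields on the product -/

theorem fd_fst (ha : Fd ι₁ ρ a) : Fd (ι₁.prod ι₂) ρ (fun z : G₁ × G₂ => a z.1) where
  equiv := fun γ z => ha.equiv γ z.1
  bdd := by
    obtain ⟨C, hC⟩ := ha.bdd
    exact ⟨C, fun z => hC _⟩
  rcont := fun ε hε => by
    obtain ⟨U, hU, h1⟩ := ha.rcont ε hε
    exact ⟨Prod.fst ⁻¹' U, (continuous_fst.tendsto (1 : G₁ × G₂)) hU, fun y hy x => h1 _ hy _⟩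

theorem fd_snd (hb : Fd ι₂ ρ b) : Fd (ι₁.prod ι₂) ρ (fun z : G₁ × G₂ => b z.2) where
  equiv := fun γ z => hb.equiv γ z.2
  bdd := by
    obtain ⟨C, hC⟩ := hb.bdd
    exact ⟨C, fun z => hC _⟩
  rcont := fun ε hε => by
    obtain ⟨U, hU, h1⟩ := hb.rcont ε hε
    exact ⟨Prod.snd ⁻¹' U, (continuous_snd.tendsto (1 : G₁ × G₂)) hU, fun y hy x => h1 _ hy _⟩

theorem fd_ab (h : RegRep ρ ω) (ha : Fd ι₁ ρ a) (hb : Fd ι₂ ρ b) :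
    Fd (ι₁.prod ι₂) ρ (fun z : G₁ × G₂ => a z.1 * adjoint (b z.2)) :=
  (fd_fst ha).mul ((fd_snd hb).adj h)

theorem fd_ba (h : RegRep ρ ω) (ha : Fd ι₁ ρ a) (hb : Fd ι₂ ρ b) :
    Fd (ι₁.prod ι₂) ρ (fun z : G₁ × G₂ => adjoint (b z.2) * a z.1) :=
  ((fd_snd hb).adj h).mul (fd_fst ha)

variable [MeasurableSpace G₁] [BorelSpace G₁] [SecondCountableTopology G₁]
  [MeasurableSpace G₂] [BorelSpace G₂] [SecondCountableTopology G₂]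
  {μ₁ : Measure G₁} {μ₂ : Measure G₂} [SFinite μ₁] [SFinite μ₂] [Countable Γ]
  [μ₁.IsMulLeftInvariant] [μ₂.IsMulLeftInvariant]

theorem nsq_ab (h : Frm ρ V ω) (t₁ : T4 ι₁ κ₁ ρ V ω μ₁) (ha : Smo ι₁ κ₁ ρ V ω μ₁ a)
    (hb : Smo ι₂ κ₂ ρ V ω μ₂ b) :
    nsq ω (μ₁.prod μ₂) (fun z : G₁ × G₂ => a z.1 * adjoint (b z.2)) =
      nsq ω μ₁ a * nsq ω μ₂ b := by
  have hb' := H650.smo_adj h hb
  have e1 : ∫⁻ y, ‖adjoint (b y) ω‖ₑ ^ 2 ∂μ₂ = nsq ω μ₂ b :=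
    nsq_adj h.reg hb.continuous hb.equiv
  have e := lint_ab (μ₁ := μ₁) (μ₂ := μ₂) (a := a) (b := fun y => adjoint (b y)) (ω := ω)
    (A := nsq ω μ₁ a) (B := nsq ω μ₂ b) ha.continuous hb'.continuous (t₁ a ha) e1
  exact e

theorem nsq_ba (h : Frm ρ V ω) (t₂ : T4 ι₂ κ₂ ρ V ω μ₂) (ha : Smo ι₁ κ₁ ρ V ω μ₁ a)
    (hb : Smo ι₂ κ₂ ρ V ω μ₂ b) :
    nsq ω (μ₁.prod μ₂) (fun z : G₁ × G₂ => adjoint (b z.2) * a z.1) =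
      nsq ω μ₁ a * nsq ω μ₂ b := by
  have hb' := H650.smo_adj h hb
  have e1 : nsq ω μ₂ (fun y => adjoint (b y)) = nsq ω μ₂ b :=
    nsq_adj h.reg hb.continuous hb.equiv
  have e2 := t₂ _ hb'
  rw [e1] at e2
  have e := lint_ba (μ₁ := μ₁) (μ₂ := μ₂) (a := a) (b := fun y => adjoint (b y)) (ω := ω)
    (A := nsq ω μ₁ a) (B := nsq ω μ₂ b) ha.continuous hb'.continuous rfl e2
  exact e

theorem l2_ab (h : Frm ρ V ω) (t₁ : T4 ι₁ κ₁ ρ V ω μ₁) (ha : Smo ι₁ κ₁ ρ V ω μ₁ a)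
    (hb : Smo ι₂ κ₂ ρ V ω μ₂ b) :
    L2 ω (μ₁.prod μ₂) (fun z : G₁ × G₂ => a z.1 * adjoint (b z.2)) := by
  refine l2_of_nsq (fd_ab (ι₁ := ι₁) (ι₂ := ι₂) h.reg ha.toFd hb.toFd).continuous ?_
  rw [nsq_ab h t₁ ha hb]
  exact ENNReal.mul_lt_top (nsq_lt_top ha.l2) (nsq_lt_top hb.l2)

theorem l2_ba (h : Frm ρ V ω) (t₂ : T4 ι₂ κ₂ ρ V ω μ₂) (ha : Smo ι₁ κ₁ ρ V ω μ₁ a)
    (hb : Smo ι₂ κ₂ ρ V ω μ₂ b) :
    L2 ω (μ₁.prod μ₂) (fun z : G₁ × G₂ => adjoint (b z.2) * a z.1) := by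
  refine l2_of_nsq (fd_ba (ι₁ := ι₁) (ι₂ := ι₂) h.reg ha.toFd hb.toFd).continuous ?_
  rw [nsq_ba h t₂ ha hb]
  exact ENNReal.mul_lt_top (nsq_lt_top ha.l2) (nsq_lt_top hb.l2)

/-- `Th` is an inner product of fields over `G₁ × G₂`. -/
theorem th_eq (h : Frm ρ V ω) (t₁ : T4 ι₁ κ₁ ρ V ω μ₁) (t₂ : T4 ι₂ κ₂ ρ V ω μ₂)
    (ha : Smo ι₁ κ₁ ρ V ω μ₁ a) (hb : Smo ι₂ κ₂ ρ V ω μ₂ b)
    (ha' : Smo ι₁ κ₁ ρ V ω μ₁ a') (hb' : Smo ι₂ κ₂ ρ V ω μ₂ b') :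
    Th ω μ₁ μ₂ a b a' b' = ip ω (μ₁.prod μ₂) (fun z : G₁ × G₂ => adjoint (b' z.2) * a' z.1)
      (fun z : G₁ × G₂ => a z.1 * adjoint (b z.2)) :=
  (integral_prod _ (integrable_ip (l2_ba h t₂ ha' hb') (l2_ab h t₁ ha hb))).symm

theorem th_norm (h : Frm ρ V ω) (t₁ : T4 ι₁ κ₁ ρ V ω μ₁) (t₂ : T4 ι₂ κ₂ ρ V ω μ₂)
    (ha : Smo ι₁ κ₁ ρ V ω μ₁ a) (hb : Smo ι₂ κ₂ ρ V ω μ₂ b)
    (ha' : Smo ι₁ κ₁ ρ V ω μ₁ a') (hb' : Smo ι₂ κ₂ ρ V ω μ₂ b') :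
    ‖Th ω μ₁ μ₂ a b a' b'‖ ≤ √(nsq ω μ₁ a).toReal * √(nsq ω μ₂ b).toReal *
      √(nsq ω μ₁ a').toReal * √(nsq ω μ₂ b').toReal := by
  rw [th_eq h t₁ t₂ ha hb ha' hb']
  refine le_of_pow_le_pow_left₀ two_ne_zero (by positivity)
    ((norm_ip_le (l2_ba h t₂ ha' hb') (l2_ab h t₁ ha hb)).trans (le_of_eq ?_))
  rw [nsq_ba h t₂ ha' hb', nsq_ab h t₁ ha hb, ENNReal.toReal_mul, ENNReal.toReal_mul,
    mul_pow, mul_pow, mul_pow, Real.sq_sqrt ENNReal.toReal_nonneg,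
    Real.sq_sqrt ENNReal.toReal_nonneg, Real.sq_sqrt ENNReal.toReal_nonneg,
    Real.sq_sqrt ENNReal.toReal_nonneg]
  ring

/-! ### Sesquilinearity -/

theorem th_add (h : Frm ρ V ω) (t₁ : T4 ι₁ κ₁ ρ V ω μ₁) (t₂ : T4 ι₂ κ₂ ρ V ω μ₂)
    (ha : Smo ι₁ κ₁ ρ V ω μ₁ a) (hc : Smo ι₁ κ₁ ρ V ω μ₁ c) (hb : Smo ι₂ κ₂ ρ V ω μ₂ b)
    (ha' : Smo ι₁ κ₁ ρ V ω μ₁ a') (hb' : Smo ι₂ κ₂ ρ V ω μ₂ b') :
    Th ω μ₁ μ₂ (fun x => a x + c x) b a' b' =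
      Th ω μ₁ μ₂ a b a' b' + Th ω μ₁ μ₂ c b a' b' := by
  rw [th_eq h t₁ t₂ (H650.smo_add ha hc) hb ha' hb', th_eq h t₁ t₂ ha hb ha' hb',
    th_eq h t₁ t₂ hc hb ha' hb',
    ← ip_add_right (l2_ba h t₂ ha' hb') (l2_ab h t₁ ha hb) (l2_ab h t₁ hc hb)]
  simp only [add_mul]

theorem th_smul (h : Frm ρ V ω) (t₁ : T4 ι₁ κ₁ ρ V ω μ₁) (t₂ : T4 ι₂ κ₂ ρ V ω μ₂)
    (ha : Smo ι₁ κ₁ ρ V ω μ₁ a) (hb : Smo ι₂ κ₂ ρ V ω μ₂ b)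
    (ha' : Smo ι₁ κ₁ ρ V ω μ₁ a') (hb' : Smo ι₂ κ₂ ρ V ω μ₂ b') (z : ℂ) :
    Th ω μ₁ μ₂ (fun x => z • a x) b a' b' = z * Th ω μ₁ μ₂ a b a' b' := by
  rw [th_eq h t₁ t₂ (H650.smo_smul z ha) hb ha' hb', th_eq h t₁ t₂ ha hb ha' hb',
    ← ip_smul_right]
  simp only [smul_mul_assoc]

theorem th_add' (h : Frm ρ V ω) (t₁ : T4 ι₁ κ₁ ρ V ω μ₁) (t₂ : T4 ι₂ κ₂ ρ V ω μ₂)
    (ha : Smo ι₁ κ₁ ρ V ω μ₁ a) (hb : Smo ι₂ κ₂ ρ V ω μ₂ b)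
    (ha' : Smo ι₁ κ₁ ρ V ω μ₁ a') (hc : Smo ι₁ κ₁ ρ V ω μ₁ c) (hb' : Smo ι₂ κ₂ ρ V ω μ₂ b') :
    Th ω μ₁ μ₂ a b (fun x => a' x + c x) b' =
      Th ω μ₁ μ₂ a b a' b' + Th ω μ₁ μ₂ a b c b' := by
  rw [th_eq h t₁ t₂ ha hb (H650.smo_add ha' hc) hb', th_eq h t₁ t₂ ha hb ha' hb',
    th_eq h t₁ t₂ ha hb hc hb',
    ← ip_add_left (l2_ba h t₂ ha' hb') (l2_ba h t₂ hc hb') (l2_ab h t₁ ha hb)]
  simp only [mul_add]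

theorem th_smul' (h : Frm ρ V ω) (t₁ : T4 ι₁ κ₁ ρ V ω μ₁) (t₂ : T4 ι₂ κ₂ ρ V ω μ₂)
    (ha : Smo ι₁ κ₁ ρ V ω μ₁ a) (hb : Smo ι₂ κ₂ ρ V ω μ₂ b)
    (ha' : Smo ι₁ κ₁ ρ V ω μ₁ a') (hb' : Smo ι₂ κ₂ ρ V ω μ₂ b') (z : ℂ) :
    Th ω μ₁ μ₂ a b (fun x => z • a' x) b' = (starRingEnd ℂ) z * Th ω μ₁ μ₂ a b a' b' := by
  rw [th_eq h t₁ t₂ ha hb (H650.smo_smul z ha') hb', th_eq h t₁ t₂ ha hb ha' hb',
    ← ip_smul_left]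
  simp only [mul_smul_comm]

theorem th_addb (h : Frm ρ V ω) (t₁ : T4 ι₁ κ₁ ρ V ω μ₁) (t₂ : T4 ι₂ κ₂ ρ V ω μ₂)
    (ha : Smo ι₁ κ₁ ρ V ω μ₁ a) (hb : Smo ι₂ κ₂ ρ V ω μ₂ b) (hd : Smo ι₂ κ₂ ρ V ω μ₂ d)
    (ha' : Smo ι₁ κ₁ ρ V ω μ₁ a') (hb' : Smo ι₂ κ₂ ρ V ω μ₂ b') :
    Th ω μ₁ μ₂ a (fun y => b y + d y) a' b' =
      Th ω μ₁ μ₂ a b a' b' + Th ω μ₁ μ₂ a d a' b' := by
  rw [th_eq h t₁ t₂ ha (H650.smo_add hb hd) ha' hb', th_eq h t₁ t₂ ha hb ha' hb',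
    th_eq h t₁ t₂ ha hd ha' hb',
    ← ip_add_right (l2_ba h t₂ ha' hb') (l2_ab h t₁ ha hb) (l2_ab h t₁ ha hd)]
  simp only [map_add, mul_add]

theorem th_smulb (h : Frm ρ V ω) (t₁ : T4 ι₁ κ₁ ρ V ω μ₁) (t₂ : T4 ι₂ κ₂ ρ V ω μ₂)
    (ha : Smo ι₁ κ₁ ρ V ω μ₁ a) (hb : Smo ι₂ κ₂ ρ V ω μ₂ b)
    (ha' : Smo ι₁ κ₁ ρ V ω μ₁ a') (hb' : Smo ι₂ κ₂ ρ V ω μ₂ b') (z : ℂ) :
    Th ω μ₁ μ₂ a (fun y => z • b y) a' b' = (starRingEnd ℂ) z * Th ω μ₁ μ₂ a b a' b' := by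
  rw [th_eq h t₁ t₂ ha (H650.smo_smul z hb) ha' hb', th_eq h t₁ t₂ ha hb ha' hb',
    ← ip_smul_right]
  simp only [map_smulₛₗ, mul_smul_comm]

theorem th_addb' (h : Frm ρ V ω) (t₁ : T4 ι₁ κ₁ ρ V ω μ₁) (t₂ : T4 ι₂ κ₂ ρ V ω μ₂)
    (ha : Smo ι₁ κ₁ ρ V ω μ₁ a) (hb : Smo ι₂ κ₂ ρ V ω μ₂ b)
    (ha' : Smo ι₁ κ₁ ρ V ω μ₁ a') (hb' : Smo ι₂ κ₂ ρ V ω μ₂ b') (hd : Smo ι₂ κ₂ ρ V ω μ₂ d) :
    Th ω μ₁ μ₂ a b a' (fun y => b' y + d y) =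
      Th ω μ₁ μ₂ a b a' b' + Th ω μ₁ μ₂ a b a' d := by
  rw [th_eq h t₁ t₂ ha hb ha' (H650.smo_add hb' hd), th_eq h t₁ t₂ ha hb ha' hb',
    th_eq h t₁ t₂ ha hb ha' hd,
    ← ip_add_left (l2_ba h t₂ ha' hb') (l2_ba h t₂ ha' hd) (l2_ab h t₁ ha hb)]
  simp only [map_add, add_mul]

theorem th_smulb' (h : Frm ρ V ω) (t₁ : T4 ι₁ κ₁ ρ V ω μ₁) (t₂ : T4 ι₂ κ₂ ρ V ω μ₂)
    (ha : Smo ι₁ κ₁ ρ V ω μ₁ a) (hb : Smo ι₂ κ₂ ρ V ω μ₂ b)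
    (ha' : Smo ι₁ κ₁ ρ V ω μ₁ a') (hb' : Smo ι₂ κ₂ ρ V ω μ₂ b') (z : ℂ) :
    Th ω μ₁ μ₂ a b a' (fun y => z • b' y) = z * Th ω μ₁ μ₂ a b a' b' := by
  rw [th_eq h t₁ t₂ ha hb ha' (H650.smo_smul z hb'), th_eq h t₁ t₂ ha hb ha' hb']
  have e : (fun x : G₁ × G₂ => adjoint (z • b' x.2) * a' x.1) =
      fun x => (starRingEnd ℂ) z • (adjoint (b' x.2) * a' x.1) := by
    funext x
    rw [map_smulₛₗ, smul_mul_assoc]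
  rw [e, ip_smul_left, Complex.conj_conj]

/-! ### Invariance -/

theorem th_rt [μ₁.IsMulRightInvariant] (a a' : G₁ → K →L[ℂ] K) (b b' : G₂ → K →L[ℂ] K)
    (z : G₁) :
    Th ω μ₁ μ₂ (fun x => a (x * z)) b (fun x => a' (x * z)) b' = Th ω μ₁ μ₂ a b a' b' :=
  integral_mul_right_eq_self
    (fun x => ∫ y, ⟪adjoint (b' y) (a' x ω), a x (adjoint (b y) ω)⟫_ℂ ∂μ₂) z

theorem th_rt' [μ₂.IsMulRightInvariant] (a a' : G₁ → K →L[ℂ] K) (b b' : G₂ → K →L[ℂ] K)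
    (z : G₂) :
    Th ω μ₁ μ₂ a (fun y => b (y * z)) a' (fun y => b' (y * z)) = Th ω μ₁ μ₂ a b a' b' :=
  integral_congr_ae (Eventually.of_forall fun x => integral_mul_right_eq_self
    (fun y => ⟪adjoint (b' y) (a' x ω), a x (adjoint (b y) ω)⟫_ℂ) z)

theorem th_cj (h : Frm ρ V ω) (t₁ : T4 ι₁ κ₁ ρ V ω μ₁) (t₂ : T4 ι₂ κ₂ ρ V ω μ₂)
    (ha : Smo ι₁ κ₁ ρ V ω μ₁ a) (hb : Smo ι₂ κ₂ ρ V ω μ₂ b)
    (ha' : Smo ι₁ κ₁ ρ V ω μ₁ a') (hb' : Smo ι₂ κ₂ ρ V ω μ₂ b') (v : Λ) :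
    Th ω μ₁ μ₂ (cj V v a) (cj V v b) (cj V v a') (cj V v b') = Th ω μ₁ μ₂ a b a' b' := by
  rw [th_eq h t₁ t₂ (smo_cj h ha v) (smo_cj h hb v) (smo_cj h ha' v) (smo_cj h hb' v),
    th_eq h t₁ t₂ ha hb ha' hb',
    ← ip_conj h (fd_ba (ι₁ := ι₁) (ι₂ := ι₂) h.reg ha'.toFd hb'.toFd)
      (fd_ab (ι₁ := ι₁) (ι₂ := ι₂) h.reg ha.toFd hb.toFd)
      (l2_ba h t₂ ha' hb') (l2_ab h t₁ ha hb) v]
  have e1 : (fun z : G₁ × G₂ => adjoint (cj V v b' z.2) * cj V v a' z.1) =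
      fun z => V v * (adjoint (b' z.2) * a' z.1) * V v⁻¹ := by
    funext z
    rw [← cj_adj h]
    exact (cj_mul (G := G₁ × G₂) h v (fun z => adjoint (b' z.2)) (fun z => a' z.1) z).symm
  have e2 : (fun z : G₁ × G₂ => cj V v a z.1 * adjoint (cj V v b z.2)) =
      fun z => V v * (a z.1 * adjoint (b z.2)) * V v⁻¹ := by
    funext z
    rw [← cj_adj h]
    exact (cj_mul (G := G₁ × G₂) h v (fun z => a z.1) (fun z => adjoint (b z.2)) z).symm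
  rw [e1, e2]

theorem al_coe_mul {G H : Type} [Group G] [Group H] [TopologicalSpace G] [TopologicalSpace H]
    [IsTopologicalGroup G] [IsTopologicalGroup H] {κ : Λ →* H} {a : G → K →L[ℂ] K}
    (h : Frm ρ V ω) (hd : DenseRange κ) (ha : ACont κ V a) (v : Λ) (k : H) :
    al κ V (κ v * k) a = cj V v (al κ V k a) := by
  funext x
  rw [← al_al h hd ha, al_coe h hd (acont_al h hd ha k)]

theorem th_inv (h : Frm ρ V ω) (hd₁ : DenseRange κ₁) (hd₂ : DenseRange κ₂)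
    (t₁ : T4 ι₁ κ₁ ρ V ω μ₁) (t₂ : T4 ι₂ κ₂ ρ V ω μ₂)
    (ha : Smo ι₁ κ₁ ρ V ω μ₁ a) (hb : Smo ι₂ κ₂ ρ V ω μ₂ b)
    (ha' : Smo ι₁ κ₁ ρ V ω μ₁ a') (hb' : Smo ι₂ κ₂ ρ V ω μ₂ b') (v : Λ) (k : H₁ × H₂) :
    Th ω μ₁ μ₂ (al κ₁ V (κ₁ v * k.1) a) (al κ₂ V (κ₂ v * k.2) b) (al κ₁ V (κ₁ v * k.1) a')
      (al κ₂ V (κ₂ v * k.2) b') =
    Th ω μ₁ μ₂ (al κ₁ V k.1 a) (al κ₂ V k.2 b) (al κ₁ V k.1 a') (al κ₂ V k.2 b') := by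
  rw [al_coe_mul h hd₁ ha.acont, al_coe_mul h hd₁ ha'.acont, al_coe_mul h hd₂ hb.acont,
    al_coe_mul h hd₂ hb'.acont]
  exact th_cj h t₁ t₂ (smo_al h hd₁ ha _) (smo_al h hd₂ hb _) (smo_al h hd₁ ha' _)
    (smo_al h hd₂ hb' _) v

/-! ### Continuity -/

theorem nsq_al {G H : Type} [Group G] [Group H] [TopologicalSpace G] [TopologicalSpace H]
    [IsTopologicalGroup G] [IsTopologicalGroup H] [MeasurableSpace G] [BorelSpace G]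
    [SecondCountableTopology G] {κ : Λ →* H} {ι : Γ →* G} {μ : Measure G} [μ.IsMulLeftInvariant]
    {a : G → K →L[ℂ] K}
    (h : Frm ρ V ω) (hd : DenseRange κ) (ha : Smo ι κ ρ V ω μ a) (k : H) :
    nsq ω μ (al κ V k a) = nsq ω μ a := H650.lintegral_al h hd ha.toFd ha.acont k

/-- Uniform continuity of the products. -/
theorem unif_ab (h : Frm ρ V ω) (hd₁ : DenseRange κ₁) (hd₂ : DenseRange κ₂)
    (ha : Smo ι₁ κ₁ ρ V ω μ₁ a) (hb : Smo ι₂ κ₂ ρ V ω μ₂ b) (k : H₁ × H₂) {ε : ℝ} (hε : 0 < ε) :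
    ∀ᶠ l in 𝓝 k, ∀ x y,
      ‖al κ₁ V l.1 a x * adjoint (al κ₂ V l.2 b y) -
        al κ₁ V k.1 a x * adjoint (al κ₂ V k.2 b y)‖ ≤ ε ∧
      ‖adjoint (al κ₂ V l.2 b y) * al κ₁ V l.1 a x -
        adjoint (al κ₂ V k.2 b y) * al κ₁ V k.1 a x‖ ≤ ε := by
  obtain ⟨C, hC0, hC⟩ := ha.exists_bdd
  obtain ⟨D, hD0, hD⟩ := hb.exists_bdd
  have h1 := al_unif' h hd₁ ha.acont k.1 (ε := ε / (2 * D)) (by positivity)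
  have h2 := al_unif' h hd₂ hb.acont k.2 (ε := ε / (2 * C)) (by positivity)
  have h1' := (continuous_fst.tendsto k).eventually h1
  have h2' := (continuous_snd.tendsto k).eventually h2
  filter_upwards [h1', h2'] with l hl1 hl2 x y
  have n1 : ‖adjoint (al κ₂ V l.2 b y)‖ ≤ D := by
    rw [LinearIsometryEquiv.norm_map]
    exact (norm_al_le h hd₂ hb.acont _ _).trans (hD y)
  have n2 : ‖al κ₁ V k.1 a x‖ ≤ C := (norm_al_le h hd₁ ha.acont _ _).trans (hC x)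
  have n3 : ‖adjoint (al κ₂ V l.2 b y) - adjoint (al κ₂ V k.2 b y)‖ ≤ ε / (2 * C) := by
    rw [← map_sub, LinearIsometryEquiv.norm_map]
    exact hl2 y
  have n4 := hl1 x
  have e3 : ε / (2 * D) * D = ε / 2 := by field_simp
  have e4 : C * (ε / (2 * C)) = ε / 2 := by field_simp
  constructor
  · have e : al κ₁ V l.1 a x * adjoint (al κ₂ V l.2 b y) -
        al κ₁ V k.1 a x * adjoint (al κ₂ V k.2 b y) =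
        (al κ₁ V l.1 a x - al κ₁ V k.1 a x) * adjoint (al κ₂ V l.2 b y) +
        al κ₁ V k.1 a x * (adjoint (al κ₂ V l.2 b y) - adjoint (al κ₂ V k.2 b y)) := by
      rw [sub_mul, mul_sub]; abel
    rw [e]
    refine (norm_add_le _ _).trans ?_
    have m1 : ‖(al κ₁ V l.1 a x - al κ₁ V k.1 a x) * adjoint (al κ₂ V l.2 b y)‖ ≤
        ε / (2 * D) * D := (norm_mul_le _ _).trans
      (mul_le_mul n4 n1 (norm_nonneg _) (by positivity))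
    have m2 : ‖al κ₁ V k.1 a x * (adjoint (al κ₂ V l.2 b y) - adjoint (al κ₂ V k.2 b y))‖ ≤
        C * (ε / (2 * C)) := (norm_mul_le _ _).trans
      (mul_le_mul n2 n3 (norm_nonneg _) hC0.le)
    linarith
  · have e : adjoint (al κ₂ V l.2 b y) * al κ₁ V l.1 a x -
        adjoint (al κ₂ V k.2 b y) * al κ₁ V k.1 a x =
        adjoint (al κ₂ V l.2 b y) * (al κ₁ V l.1 a x - al κ₁ V k.1 a x) +
        (adjoint (al κ₂ V l.2 b y) - adjoint (al κ₂ V k.2 b y)) * al κ₁ V k.1 a x := by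
      rw [sub_mul, mul_sub]; abel
    rw [e]
    refine (norm_add_le _ _).trans ?_
    have m1 : ‖adjoint (al κ₂ V l.2 b y) * (al κ₁ V l.1 a x - al κ₁ V k.1 a x)‖ ≤
        D * (ε / (2 * D)) := (norm_mul_le _ _).trans
      (mul_le_mul n1 n4 (norm_nonneg _) hD0.le)
    have m2 : ‖(adjoint (al κ₂ V l.2 b y) - adjoint (al κ₂ V k.2 b y)) * al κ₁ V k.1 a x‖ ≤
        ε / (2 * C) * C := (norm_mul_le _ _).trans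
      (mul_le_mul n3 n2 (norm_nonneg _) (by positivity))
    rw [mul_comm] at e3 e4
    linarith

theorem th_cont (h : Frm ρ V ω) (hd₁ : DenseRange κ₁) (hd₂ : DenseRange κ₂)
    (t₁ : T4 ι₁ κ₁ ρ V ω μ₁) (t₂ : T4 ι₂ κ₂ ρ V ω μ₂)
    (ha : Smo ι₁ κ₁ ρ V ω μ₁ a) (hb : Smo ι₂ κ₂ ρ V ω μ₂ b)
    (ha' : Smo ι₁ κ₁ ρ V ω μ₁ a') (hb' : Smo ι₂ κ₂ ρ V ω μ₂ b') :
    Continuous fun k : H₁ × H₂ => Th ω μ₁ μ₂ (al κ₁ V k.1 a) (al κ₂ V k.2 b) (al κ₁ V k.1 a')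
      (al κ₂ V k.2 b') := by
  have mA : ∀ k : H₁ × H₂, MemLp (fun z : G₁ × G₂ =>
      (al κ₁ V k.1 a z.1 * adjoint (al κ₂ V k.2 b z.2)) ω) 2 (μ₁.prod μ₂) := fun k =>
    l2_ab h t₁ (smo_al h hd₁ ha k.1) (smo_al h hd₂ hb k.2)
  have mB : ∀ k : H₁ × H₂, MemLp (fun z : G₁ × G₂ =>
      (adjoint (al κ₂ V k.2 b' z.2) * al κ₁ V k.1 a' z.1) ω) 2 (μ₁.prod μ₂) := fun k =>
    l2_ba h t₂ (smo_al h hd₁ ha' k.1) (smo_al h hd₂ hb' k.2)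
  have nA : ∀ k l : H₁ × H₂, ‖(mA k).toLp _‖ ≤ ‖(mA l).toLp _‖ := fun k l => by
    refine le_of_pow_le_pow_left₀ two_ne_zero (norm_nonneg _) (le_of_eq ?_)
    have e1 := norm_toLp_sq (l2_ab h t₁ (smo_al h hd₁ ha k.1) (smo_al h hd₂ hb k.2))
    have e2 := norm_toLp_sq (l2_ab h t₁ (smo_al h hd₁ ha l.1) (smo_al h hd₂ hb l.2))
    rw [nsq_ab h t₁ (smo_al h hd₁ ha _) (smo_al h hd₂ hb _), nsq_al h hd₁ ha, nsq_al h hd₂ hb]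
      at e1 e2
    exact e1.trans e2.symm
  have nB : ∀ k l : H₁ × H₂, ‖(mB k).toLp _‖ ≤ ‖(mB l).toLp _‖ := fun k l => by
    refine le_of_pow_le_pow_left₀ two_ne_zero (norm_nonneg _) (le_of_eq ?_)
    have e1 := norm_toLp_sq (l2_ba h t₂ (smo_al h hd₁ ha' k.1) (smo_al h hd₂ hb' k.2))
    have e2 := norm_toLp_sq (l2_ba h t₂ (smo_al h hd₁ ha' l.1) (smo_al h hd₂ hb' l.2))
    rw [nsq_ba h t₂ (smo_al h hd₁ ha' _) (smo_al h hd₂ hb' _), nsq_al h hd₁ ha',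
      nsq_al h hd₂ hb'] at e1 e2
    exact e1.trans e2.symm
  have cA : Continuous fun k => (mA k).toLp _ := by
    rw [continuous_iff_continuousAt]
    intro k
    refine H650.tendsto_toLp mA (mA k) (fun l => nA l k) fun ε hε => ?_
    filter_upwards [unif_ab h hd₁ hd₂ ha hb k hε] with l hl z
    exact H650.norm_apply_sub_le _ _ h.norm_omega (hl z.1 z.2).1
  have cB : Continuous fun k => (mB k).toLp _ := by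
    rw [continuous_iff_continuousAt]
    intro k
    refine H650.tendsto_toLp mB (mB k) (fun l => nB l k) fun ε hε => ?_
    filter_upwards [unif_ab h hd₁ hd₂ ha' hb' k hε] with l hl z
    exact H650.norm_apply_sub_le _ _ h.norm_omega (hl z.1 z.2).2
  have e : (fun k : H₁ × H₂ => Th ω μ₁ μ₂ (al κ₁ V k.1 a) (al κ₂ V k.2 b) (al κ₁ V k.1 a')
      (al κ₂ V k.2 b')) = fun k => ⟪(mB k).toLp _, (mA k).toLp _⟫_ℂ := by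
    funext k
    rw [th_eq h t₁ t₂ (smo_al h hd₁ ha k.1) (smo_al h hd₂ hb k.2) (smo_al h hd₁ ha' k.1)
      (smo_al h hd₂ hb' k.2), H650.inner_toLp]
    rfl
  rw [e]
  exact cB.inner cA

end

end Vale.Agent.P092.H221
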